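import Claimed.Agent.R290.TorusTM
import Claimed.Agent.R292.Defs.Bridge

/-!
# Row 292 (S0540), unit BRIDGE, Bridge/Lam189 : THE LIMIT `M → ∞` OF THE SECTOR FREE ENERGIES      (owner helper189; prefix `brg189`)      complete, 0 sorry

ORDER B-1 of helper27.  Imports the spectral lemma `svsp_data` (R290/SvSpec, helper140) and the chain / column lemmas of R290/TorusTM (helper289);
only what is tied there to the balanced sector is repeated here for the sector `n`.

* `brg189_log_powsum`, **`brg189_log_trace`**   `T` real symmetric, entries `≥ 0`, diagonal `> 0`:  `log tr (T^M) / M → log r`, `r > 0` the top eigenvalue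
* `brg189T c L n`            the column transfer matrix in the sector `n` (`n` arrows `true` in a column of horizontal edges)
* **`brg189_trace`**         `svZN c (m+1) L n = tr (brg189T c L n ^ (m+1))`
* `brgF c L n`               `lim_M log svZN c M L n / M`;   **`brg189_tendsto_F`** : the limit exists (`0 ≤ c`, `1 ≤ L`, `n ≤ L`)
* `brgDF c L m`              `(brgF c (2L) (L-m) - brgF c (2L) L) / (2L)`;   **`brg189_tendsto_DF`** : `svDF c M L m → brgDF c L m` as `M → ∞`
* **`brg189_stiff_iff`**, `brg189_stiffLe_iff`, `brg189_stiffGe_iff`   `SvStiff`, `SvStiffLe`, `SvStiffGe` with the inner `∀ᶠ M` removed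
* sec. 5 (Mathlib only) Gaussian tails: `brg189_tail_le` (Chernoff), `brg189_tail_ge`, `brg189_tail_pos`, **`brg189_log_tail`** (`log P(N(0,v) ≥ t) / t² → -1/(2v)`),
  **`brg189_tail_tendsto`** (convergence against bounded continuous tests, the form of `tmm_gauss` and of the frozen S0540, gives `μ_n [t,∞) → P(N(0,v) ≥ t)`),
  `brg189_log_tail_tendsto`, **`brg189_variance_unique`** (the tail coefficient `κ` identifies `v = 1/(2κ)`)
-/

set_option autoImplicit false

namespace Claimed.Agent.R292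

open Claims Claims.C0466 Claimed.Agent.R290
open Matrix Filter Topology

/-! ## 1. `log tr (T^M) / M` converges -/

theorem brg189_log_powsum {ι : Type*} [Fintype ι] (lam : ι → ℝ) (i₀ : ι) (hpos : 0 < lam i₀)
    (hmax : ∀ j, lam j ≤ lam i₀) (hneg : ∀ j, - lam i₀ < lam j) :
    Tendsto (fun M : ℕ => Real.log (∑ i, lam i ^ M) / M) atTop (𝓝 (Real.log (lam i₀))) := by
  classical
  set r := lam i₀ with hr
  have hr0 : r ≠ 0 := hpos.ne'
  set S : ℕ → ℝ := fun M => ∑ i, (lam i / r) ^ M with hS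
  set m : ℝ := ∑ i, (if lam i / r = 1 then (1 : ℝ) else 0) with hm
  have hSm : Tendsto S atTop (𝓝 m) := by
    refine tendsto_finsetSum _ fun i _ => svsp_pow_tendsto (lam i / r) ?_ ?_
    · rw [lt_div_iff₀ hpos]
      linarith [hneg i]
    · rw [div_le_one hpos]
      exact hmax i
  have hm1 : 1 ≤ m := by
    have h1 : (if lam i₀ / r = 1 then (1 : ℝ) else 0) = 1 := by
      rw [if_pos (div_self hr0)]
    calc (1 : ℝ) = (if lam i₀ / r = 1 then (1 : ℝ) else 0) := h1.symm
      _ ≤ m := Finset.single_le_sum (f := fun i => if lam i / r = 1 then (1 : ℝ) else 0)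
          (fun i _ => by split_ifs <;> norm_num) (Finset.mem_univ i₀)
  have hm0 : 0 < m := lt_of_lt_of_le one_pos hm1
  have hlog : Tendsto (fun M => Real.log (S M)) atTop (𝓝 (Real.log m)) :=
    (Real.continuousAt_log hm0.ne').tendsto.comp hSm
  have h0 : Tendsto (fun M : ℕ => Real.log (S M) / (M : ℝ)) atTop (𝓝 0) :=
    hlog.div_atTop tendsto_natCast_atTop_atTop
  have h1 : Tendsto (fun M : ℕ => Real.log r + Real.log (S M) / (M : ℝ)) atTop (𝓝 (Real.log r + 0)) :=
    tendsto_const_nhds.add h0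
  rw [add_zero] at h1
  refine h1.congr' ?_
  filter_upwards [eventually_ge_atTop 1, hSm.eventually (lt_mem_nhds hm0)] with M hM hSM
  have hM0 : (M : ℝ) ≠ 0 := by
    have : 0 < M := hM
    exact_mod_cast this.ne'
  have e : ∑ i, lam i ^ M = r ^ M * S M := by
    rw [hS, Finset.mul_sum]
    refine Finset.sum_congr rfl fun i _ => ?_
    rw [div_pow, mul_div_cancel₀ _ (pow_ne_zero M hr0)]
  rw [e, Real.log_mul (pow_ne_zero M hr0) hSM.ne', Real.log_pow]
  field_simp

/-- **`log tr (T^M) / M → log r`** for a real symmetric matrix with entries `≥ 0` and diagonal `> 0`. -/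
theorem brg189_log_trace {n : Type*} [Fintype n] [DecidableEq n] [Nonempty n] (T : Matrix n n ℝ)
    (hs : T.IsSymm) (h0 : ∀ i j, 0 ≤ T i j) (hd : ∀ i, 0 < T i i) :
    ∃ r : ℝ, 0 < r ∧ Tendsto (fun M : ℕ => Real.log (T ^ M).trace / M) atTop (𝓝 (Real.log r)) := by
  obtain ⟨U, V, lam, i₀, hVU, hUV, hT, hpos, hmax, hneg⟩ := svsp_data T hs h0 hd
  refine ⟨lam i₀, hpos, ?_⟩
  have e : (fun M : ℕ => Real.log (T ^ M).trace / M) = fun M : ℕ => Real.log (∑ i, lam i ^ M) / M := by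
    funext M
    have h2 : (T ^ M).trace = ∑ i, lam i ^ M := by
      rw [hT, svsp_pow U V _ hVU hUV]
      have h3 := svsp_trace U V 1 (fun i => lam i ^ M)
      rw [Matrix.mul_one, Matrix.mul_one, hVU] at h3
      rw [h3]
      simp
    rw [h2]
  rw [e]
  exact brg189_log_powsum lam i₀ hpos hmax hneg

/-! ## 2. the column transfer matrix in the sector `n` -/

/-- `n` arrows `true` in a column of horizontal edges -/
def brg189Sec {L : ℕ} [NeZero L] (n : ℕ) (σ : ZMod L → Bool) : Prop :=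
  (Finset.univ.filter fun b : ZMod L => σ b = true).card = n

instance brg189_sec_dec {L : ℕ} [NeZero L] (n : ℕ) (σ : ZMod L → Bool) : Decidable (brg189Sec n σ) := by
  unfold brg189Sec; infer_instance

/-- the sector `n` -/
abbrev Brg189Sec (L n : ℕ) [NeZero L] : Type := {σ : ZMod L → Bool // brg189Sec n σ}

/-- weight of a column -/
noncomputable def brg189K (c : ℝ) {L : ℕ} [NeZero L] (n : ℕ) (σ : ZMod L → Bool) (s : SvtS L) : ℝ :=
  if svtIce σ s ∧ brg189Sec n (svtH s) then c ^ svtD σ (svtH s) else 0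

noncomputable def brg189A (L n : ℕ) [NeZero L] : Matrix (SvtS L) (Brg189Sec L n) ℝ :=
  fun s σ => if svtH s = σ.1 then 1 else 0

noncomputable def brg189B (c : ℝ) (L n : ℕ) [NeZero L] : Matrix (Brg189Sec L n) (SvtS L) ℝ :=
  fun σ s => brg189K c n σ.1 s

/-- **the column transfer matrix in the sector `n`** -/
noncomputable def brg189T (c : ℝ) (L n : ℕ) [NeZero L] : Matrix (Brg189Sec L n) (Brg189Sec L n) ℝ :=
  brg189B c L n * brg189A L n

theorem brg189_AB_apply (c : ℝ) (L n : ℕ) [NeZero L] (s s' : SvtS L) :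
    (brg189A L n * brg189B c L n) s s'
      = if brg189Sec n (svtH s) ∧ svtIce (svtH s) s' ∧ brg189Sec n (svtH s') then c ^ svtD (svtH s) (svtH s') else 0 := by
  rw [Matrix.mul_apply]
  by_cases hb : brg189Sec n (svtH s)
  · rw [Finset.sum_eq_single (⟨svtH s, hb⟩ : Brg189Sec L n)]
    · simp [brg189A, brg189B, brg189K, hb]
    · intro σ _ hσ
      have : svtH s ≠ σ.1 := fun h => hσ (Subtype.ext h.symm)
      simp [brg189A, this]
    · intro h
      exact absurd (Finset.mem_univ _) h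
  · rw [if_neg (fun h => hb h.1)]
    apply Finset.sum_eq_zero
    intro σ _
    have : svtH s ≠ σ.1 := fun h => hb (h ▸ σ.2)
    simp [brg189A, this]

theorem brg189_sec_iff {M L : ℕ} [NeZero L] (n : ℕ) (ω : ZMod M × ZMod L × Bool → Bool) (a : ℤ) :
    ((Finset.range L).filter (fun j : ℕ => svH ω a (j : ℤ) = true)).card = n
      ↔ brg189Sec n (svtH (svtCol ω (a : ZMod M))) := by
  unfold brg189Sec
  rw [svt_card_range (fun b : ZMod L => svtH (svtCol ω (a : ZMod M)) b = true)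
    (fun j : ℕ => svH ω a (j : ℤ) = true) (fun j => by simp [svH, svtH, svtCol])]

theorem brg189_adm_iff {M L : ℕ} [NeZero L] (n : ℕ) (ω : ZMod M × ZMod L × Bool → Bool) :
    svAdmN n ω ↔ ∀ i : ZMod M, brg189Sec n (svtH (svtCol ω i)) ∧ svtIce (svtH (svtCol ω i)) (svtCol ω (i + 1))
      ∧ brg189Sec n (svtH (svtCol ω (i + 1))) := by
  constructor
  · rintro ⟨h1, h2⟩ i
    obtain ⟨a, rfl⟩ := ZMod.intCast_surjective i
    refine ⟨(brg189_sec_iff n ω a).1 (h2 a), ?_, ?_⟩
    · intro b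
      obtain ⟨b, rfl⟩ := ZMod.intCast_surjective b
      exact (svt_ice_iff ω a b).1 (h1 (a + 1) b)
    · have := (brg189_sec_iff n ω (a + 1)).1 (h2 (a + 1))
      push_cast at this
      exact this
  · intro h
    refine ⟨fun a b => ?_, fun a => (brg189_sec_iff n ω a).2 (h a).1⟩
    have := (svt_ice_iff ω (a - 1) b).2 (by
      have h3 := (h ((a - 1 : ℤ) : ZMod M)).2.1 (b : ZMod L)
      exact h3)
    rwa [sub_add_cancel] at this

/-- the weight of a configuration is the product of the column weights -/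
theorem brg189_weight {M L : ℕ} [NeZero M] [NeZero L] (c : ℝ) (n : ℕ) (ω : ZMod M × ZMod L × Bool → Bool)
    [Decidable (svAdmN n ω)] :
    (if svAdmN n ω then c ^ svNumC ω else 0)
      = ∏ i : ZMod M, (brg189A L n * brg189B c L n) (svtCol ω i) (svtCol ω (i + 1)) := by
  simp only [brg189_AB_apply]
  rw [Finset.prod_ite_zero, Finset.prod_pow_eq_pow_sum, ← svt_numC]
  simp only [Finset.mem_univ, true_implies, ← brg189_adm_iff]

/-- **The trace formula in the sector `n`.** -/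
theorem brg189_trace (c : ℝ) (m L n : ℕ) [NeZero L] :
    svZN c (m + 1) L n = Matrix.trace (brg189T c L n ^ (m + 1)) := by
  classical
  unfold svZN
  rw [tsum_fintype]
  rw [Finset.sum_congr rfl (fun ω _ => brg189_weight c n ω)]
  refine (Fintype.sum_equiv (Equiv.curry (ZMod (m + 1)) (ZMod L × Bool) Bool) _
    (fun s : ZMod (m + 1) → SvtS L => (∏ i, (brg189A L n * brg189B c L n) (s i) (s (i + 1))))
    (fun ω => rfl)).trans ?_
  rw [svt_zmod_Z, svt_trace_factor]
  rfl

theorem brg189_T_apply (c : ℝ) (L n : ℕ) [NeZero L] (σ σ' : Brg189Sec L n) :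
    brg189T c L n σ σ' = ∑ v : ZMod L → Bool, brg189K c n σ.1 (svtMk σ'.1 v) := by
  unfold brg189T
  rw [Matrix.mul_apply, ← (svtSplit L).symm.sum_comp, Fintype.sum_prod_type]
  rw [Finset.sum_eq_single σ'.1]
  · refine Finset.sum_congr rfl fun v _ => ?_
    have : (svtSplit L).symm (σ'.1, v) = svtMk σ'.1 v := rfl
    rw [this]
    simp [brg189A, brg189B, svt_H_mk]
  · intro h _ hh
    apply Finset.sum_eq_zero
    intro v _
    have : (svtSplit L).symm (h, v) = svtMk h v := rfl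
    rw [this]
    simp [brg189A, svt_H_mk, hh]
  · intro h
    exact absurd (Finset.mem_univ _) h

theorem brg189_K_nonneg {c : ℝ} (hc : 0 ≤ c) {L : ℕ} [NeZero L] (n : ℕ) (σ : ZMod L → Bool) (s : SvtS L) :
    0 ≤ brg189K c n σ s := by
  unfold brg189K
  split_ifs
  · positivity
  · exact le_rfl

theorem brg189_T_nonneg {c : ℝ} (hc : 0 ≤ c) (L n : ℕ) [NeZero L] (σ σ' : Brg189Sec L n) :
    0 ≤ brg189T c L n σ σ' := by
  rw [brg189_T_apply]
  exact Finset.sum_nonneg fun v _ => brg189_K_nonneg hc n _ _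

theorem brg189_T_diag_pos {c : ℝ} (hc : 0 ≤ c) (L n : ℕ) [NeZero L] (σ : Brg189Sec L n) :
    0 < brg189T c L n σ σ := by
  rw [brg189_T_apply]
  have h1 : brg189K c n σ.1 (svtMk σ.1 (fun _ => false)) = 1 := by
    unfold brg189K
    rw [if_pos, svt_H_mk, svt_D_self, pow_zero]
    refine ⟨?_, σ.2⟩
    intro b
    simp only [svtMk]
    cases σ.1 b <;> simp
  calc (0 : ℝ) < 1 := one_pos
    _ = brg189K c n σ.1 (svtMk σ.1 (fun _ => false)) := h1.symm
    _ ≤ _ := Finset.single_le_sum (f := fun v => brg189K c n σ.1 (svtMk σ.1 v))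
        (fun v _ => brg189_K_nonneg hc n _ _) (Finset.mem_univ _)

theorem brg189_T_symm (c : ℝ) (L n : ℕ) [NeZero L] : (brg189T c L n).IsSymm := by
  ext σ σ'
  rw [Matrix.transpose_apply, brg189_T_apply, brg189_T_apply]
  refine Fintype.sum_equiv (Equiv.arrowCongr (Equiv.refl (ZMod L)) Equiv.boolNot) _ _ (fun v => ?_)
  have e : (Equiv.arrowCongr (Equiv.refl (ZMod L)) Equiv.boolNot) v = fun b => !(v b) := rfl
  rw [e]
  unfold brg189K
  simp only [svt_H_mk, svt_D_comm σ'.1 σ.1]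
  have h1 := svt_ice_flip σ'.1 σ.1 v
  have h2 := σ.2
  have h3 := σ'.2
  simp only [h1, h2, h3, and_true]

theorem brg189_sec_nonempty (L n : ℕ) [NeZero L] (hn : n ≤ L) : Nonempty (Brg189Sec L n) := by
  refine ⟨⟨fun b => decide (b.val < n), ?_⟩⟩
  unfold brg189Sec
  rw [← svt_card_range (fun b : ZMod L => decide (b.val < n) = true) (fun j : ℕ => j % L < n)
    (fun j => by simp [ZMod.val_natCast])]
  have : (Finset.range L).filter (fun j : ℕ => j % L < n) = Finset.range n := by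
    ext j
    simp only [Finset.mem_filter, Finset.mem_range]
    constructor
    · rintro ⟨h1, h2⟩
      rwa [Nat.mod_eq_of_lt h1] at h2
    · intro h
      have h1 : j < L := by omega
      exact ⟨h1, by rwa [Nat.mod_eq_of_lt h1]⟩
  rw [this, Finset.card_range]

/-! ## 3. the free energy of a sector on the cylinder of circumference `L` -/

/-- `lim_M log Z(M, L, n) / M` -/
noncomputable def brgF (c : ℝ) (L n : ℕ) : ℝ :=
  limUnder atTop (fun M : ℕ => Real.log (svZN c M L n) / M)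

theorem brg189_exists_F {c : ℝ} (hc : 0 ≤ c) {L n : ℕ} (hL : 1 ≤ L) (hn : n ≤ L) :
    ∃ r : ℝ, 0 < r ∧ Tendsto (fun M : ℕ => Real.log (svZN c M L n) / M) atTop (𝓝 (Real.log r)) := by
  have : NeZero L := ⟨by omega⟩
  have := brg189_sec_nonempty L n hn
  obtain ⟨r, hr, h⟩ := brg189_log_trace (brg189T c L n) (brg189_T_symm c L n) (brg189_T_nonneg hc L n)
    (brg189_T_diag_pos hc L n)
  refine ⟨r, hr, h.congr' ?_⟩
  filter_upwards [eventually_ge_atTop 1] with M hM
  obtain ⟨m, rfl⟩ : ∃ m, M = m + 1 := ⟨M - 1, by omega⟩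
  rw [brg189_trace]

/-- **The limit `M → ∞` exists.** -/
theorem brg189_tendsto_F {c : ℝ} (hc : 0 ≤ c) {L n : ℕ} (hL : 1 ≤ L) (hn : n ≤ L) :
    Tendsto (fun M : ℕ => Real.log (svZN c M L n) / M) atTop (𝓝 (brgF c L n)) := by
  obtain ⟨r, -, h⟩ := brg189_exists_F hc hL hn
  exact tendsto_nhds_limUnder ⟨_, h⟩

/-- free-energy difference per site on the cylinder of circumference `2L` -/
noncomputable def brgDF (c : ℝ) (L m : ℕ) : ℝ := (brgF c (2 * L) (L - m) - brgF c (2 * L) L) / (2 * L)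

/-- **`svDF c M L m → brgDF c L m`** as `M → ∞`. -/
theorem brg189_tendsto_DF {c : ℝ} (hc : 0 ≤ c) {L : ℕ} (hL : 1 ≤ L) (m : ℕ) :
    Tendsto (fun M : ℕ => svDF c M L m) atTop (𝓝 (brgDF c L m)) := by
  have h1 := brg189_tendsto_F hc (L := 2 * L) (n := L - m) (by omega) (by omega)
  have h2 := brg189_tendsto_F hc (L := 2 * L) (n := L) (by omega) (by omega)
  have h3 := (h1.sub h2).div_const (2 * (L : ℝ))
  refine h3.congr' ?_
  filter_upwards [eventually_ge_atTop 1] with M hM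
  have hM0 : (M : ℝ) ≠ 0 := by
    have : 0 < M := hM
    exact_mod_cast this.ne'
  have hL0 : (L : ℝ) ≠ 0 := by
    have : 0 < L := hL
    exact_mod_cast this.ne'
  unfold svDF
  field_simp

/-! ## 4. the stiffness without the inner limit -/

theorem brg189_stiffLe_iff {c : ℝ} (hc : 0 ≤ c) (A : ℝ) :
    SvStiffLe c A ↔ ∀ ε : ℝ, 0 < ε → ∃ s₀ : ℝ, 0 < s₀ ∧ ∀ s : ℝ, 0 < s → s < s₀ →
      ∀ᶠ L : ℕ in atTop, brgDF c L ⌊s * L⌋₊ ≤ -(A / 2 * s ^ 2) + ε * s ^ 2 := by
  constructor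
  · intro h ε hε
    obtain ⟨s₀, hs₀, H⟩ := h ε hε
    refine ⟨s₀, hs₀, fun s hs hlt => ?_⟩
    filter_upwards [H s hs hlt, eventually_ge_atTop 1] with L hL hL1
    exact le_of_tendsto (brg189_tendsto_DF hc hL1 _) hL
  · intro h ε hε
    obtain ⟨s₀, hs₀, H⟩ := h (ε / 2) (by positivity)
    refine ⟨s₀, hs₀, fun s hs hlt => ?_⟩
    filter_upwards [H s hs hlt, eventually_ge_atTop 1] with L hL hL1
    have hs2 : 0 < s ^ 2 := by positivity
    have hlt' : brgDF c L ⌊s * L⌋₊ < -(A / 2 * s ^ 2) + ε * s ^ 2 := by nlinarith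
    filter_upwards [(brg189_tendsto_DF hc hL1 ⌊s * L⌋₊).eventually (gt_mem_nhds hlt')] with M hM
    exact hM.le

theorem brg189_stiffGe_iff {c : ℝ} (hc : 0 ≤ c) (A : ℝ) :
    SvStiffGe c A ↔ ∀ ε : ℝ, 0 < ε → ∃ s₀ : ℝ, 0 < s₀ ∧ ∀ s : ℝ, 0 < s → s < s₀ →
      ∀ᶠ L : ℕ in atTop, -(A / 2 * s ^ 2) - ε * s ^ 2 ≤ brgDF c L ⌊s * L⌋₊ := by
  constructor
  · intro h ε hε
    obtain ⟨s₀, hs₀, H⟩ := h ε hε
    refine ⟨s₀, hs₀, fun s hs hlt => ?_⟩
    filter_upwards [H s hs hlt, eventually_ge_atTop 1] with L hL hL1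
    exact ge_of_tendsto (brg189_tendsto_DF hc hL1 _) hL
  · intro h ε hε
    obtain ⟨s₀, hs₀, H⟩ := h (ε / 2) (by positivity)
    refine ⟨s₀, hs₀, fun s hs hlt => ?_⟩
    filter_upwards [H s hs hlt, eventually_ge_atTop 1] with L hL hL1
    have hs2 : 0 < s ^ 2 := by positivity
    have hlt' : -(A / 2 * s ^ 2) - ε * s ^ 2 < brgDF c L ⌊s * L⌋₊ := by nlinarith
    filter_upwards [(brg189_tendsto_DF hc hL1 ⌊s * L⌋₊).eventually (lt_mem_nhds hlt')] with M hM
    exact hM.le

/-- `SvStiff` in terms of `svDF` (definitional). -/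
theorem brg189_stiff_def (c A : ℝ) :
    SvStiff c A ↔ ∀ ε : ℝ, 0 < ε → ∃ s₀ : ℝ, 0 < s₀ ∧ ∀ s : ℝ, 0 < s → s < s₀ →
      ∀ᶠ L : ℕ in atTop, ∀ᶠ M : ℕ in atTop, |svDF c M L ⌊s * L⌋₊ + A / 2 * s ^ 2| ≤ ε * s ^ 2 := Iff.rfl

/-- **`SvStiff` with the inner `∀ᶠ M` removed.** -/
theorem brg189_stiff_iff {c : ℝ} (hc : 0 ≤ c) (A : ℝ) :
    SvStiff c A ↔ ∀ ε : ℝ, 0 < ε → ∃ s₀ : ℝ, 0 < s₀ ∧ ∀ s : ℝ, 0 < s → s < s₀ →
      ∀ᶠ L : ℕ in atTop, |brgDF c L ⌊s * L⌋₊ + A / 2 * s ^ 2| ≤ ε * s ^ 2 := by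
  rw [brg189_stiff_def]
  constructor
  · intro h ε hε
    obtain ⟨s₀, hs₀, H⟩ := h ε hε
    refine ⟨s₀, hs₀, fun s hs hlt => ?_⟩
    filter_upwards [H s hs hlt, eventually_ge_atTop 1] with L hL hL1
    exact le_of_tendsto ((brg189_tendsto_DF hc hL1 _).add_const _).abs hL
  · intro h ε hε
    obtain ⟨s₀, hs₀, H⟩ := h (ε / 2) (by positivity)
    refine ⟨s₀, hs₀, fun s hs hlt => ?_⟩
    filter_upwards [H s hs hlt, eventually_ge_atTop 1] with L hL hL1
    have hs2 : 0 < s ^ 2 := by positivity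
    have hlt' : |brgDF c L ⌊s * L⌋₊ + A / 2 * s ^ 2| < ε * s ^ 2 := by nlinarith
    filter_upwards [(((brg189_tendsto_DF hc hL1 ⌊s * L⌋₊).add_const (A / 2 * s ^ 2)).abs).eventually
      (gt_mem_nhds hlt')] with M hM
    exact hM.le

/-! ## 5. Gaussian tails (Mathlib only)

The textbook layer of the "conditional Gaussian comparison" (AT paper, Section 10.2): what the comparison with the free energy reads off the
Gaussian limit law `N(0,v)` of a height pairing is its logarithmic tail coefficient `-1/(2v)`. -/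

section tails

open MeasureTheory ProbabilityTheory Set BoundedContinuousFunction
open scoped NNReal ENNReal

/-- Chernoff bound for the centred Gaussian. -/
theorem brg189_tail_le {v : ℝ≥0} (hv : v ≠ 0) {t : ℝ} (ht : 0 ≤ t) :
    (gaussianReal 0 v).real (Ici t) ≤ Real.exp (-(t ^ 2) / (2 * v)) := by
  have hv0 : (0 : ℝ) < v := by
    have : 0 < v := pos_iff_ne_zero.2 hv
    exact_mod_cast this
  have h := measure_ge_le_exp_mul_mgf (X := id) (μ := gaussianReal 0 v) (t := t / v) t (div_nonneg ht hv0.le)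
    (by simpa using integrable_exp_mul_gaussianReal (μ := 0) (v := v) (t / v))
  have e : {ω : ℝ | t ≤ id ω} = Ici t := rfl
  rw [e, mgf_id_gaussianReal] at h
  refine h.trans (le_of_eq ?_)
  rw [← Real.exp_add]
  congr 1
  field_simp
  ring

/-- Lower bound of the tail by the mass of `[t, t+1]`. -/
theorem brg189_tail_ge {v : ℝ≥0} (hv : v ≠ 0) {t : ℝ} (ht : 0 ≤ t) :
    (Real.sqrt (2 * Real.pi * v))⁻¹ * Real.exp (-((t + 1) ^ 2) / (2 * v)) ≤ (gaussianReal 0 v).real (Ici t) := by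
  have hv0 : (0 : ℝ) < v := by
    have : 0 < v := pos_iff_ne_zero.2 hv
    exact_mod_cast this
  have hnn : ∀ x, 0 ≤ gaussianPDFReal 0 v x := fun x => gaussianPDFReal_nonneg 0 v x
  have h1 : (gaussianReal 0 v).real (Ici t) = ∫ x in Ici t, gaussianPDFReal 0 v x := by
    rw [Measure.real, gaussianReal_apply_eq_integral 0 hv, ENNReal.toReal_ofReal]
    exact setIntegral_nonneg measurableSet_Ici fun x _ => hnn x
  rw [h1]
  have hint : IntegrableOn (gaussianPDFReal 0 v) (Ici t) := (integrable_gaussianPDFReal 0 v).integrableOn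
  have h2 : ∫ x in Icc t (t + 1), gaussianPDFReal 0 v x ≤ ∫ x in Ici t, gaussianPDFReal 0 v x :=
    setIntegral_mono_set hint (Eventually.of_forall hnn) (Eventually.of_forall fun x hx => hx.1)
  refine le_trans ?_ h2
  set m : ℝ := (Real.sqrt (2 * Real.pi * v))⁻¹ * Real.exp (-((t + 1) ^ 2) / (2 * v)) with hm
  have h3 : ∫ _x in Icc t (t + 1), m = m := by
    rw [setIntegral_const]
    simp [Measure.real, Real.volume_Icc]
  rw [← h3]
  refine setIntegral_mono_on (integrableOn_const (by simp)) ((integrable_gaussianPDFReal 0 v).integrableOn)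
    measurableSet_Icc fun x hx => ?_
  rw [hm, gaussianPDFReal_def]
  have hs : 0 ≤ (Real.sqrt (2 * Real.pi * v))⁻¹ := by positivity
  refine mul_le_mul_of_nonneg_left (Real.exp_le_exp.2 ?_) hs
  rw [sub_zero]
  have hx0 : 0 ≤ x := ht.trans hx.1
  have hsq : x ^ 2 ≤ (t + 1) ^ 2 := by nlinarith [hx.2]
  have h2v : (0 : ℝ) < 2 * v := by positivity
  rw [div_le_div_iff_of_pos_right h2v]
  linarith

theorem brg189_tail_pos {v : ℝ≥0} (hv : v ≠ 0) (t : ℝ) : 0 < (gaussianReal 0 v).real (Ici t) := by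
  have hv0 : (0 : ℝ) < v := by
    have : 0 < v := pos_iff_ne_zero.2 hv
    exact_mod_cast this
  have hmono : (gaussianReal 0 v).real (Ici (max t 0)) ≤ (gaussianReal 0 v).real (Ici t) :=
    measureReal_mono (Ici_subset_Ici.2 (le_max_left _ _)) (measure_ne_top _ _)
  refine lt_of_lt_of_le ?_ ((brg189_tail_ge hv (le_max_right t 0)).trans hmono)
  have : 0 < Real.sqrt (2 * Real.pi * v) := Real.sqrt_pos.2 (by positivity)
  positivity

/-- **The logarithmic tail coefficient of `N(0,v)` is `-1/(2v)`.** -/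
theorem brg189_log_tail {v : ℝ≥0} (hv : v ≠ 0) :
    Tendsto (fun t : ℝ => Real.log ((gaussianReal 0 v).real (Ici t)) / t ^ 2) atTop (𝓝 (-(1 / (2 * (v : ℝ))))) := by
  have hv0 : (0 : ℝ) < v := by
    have : 0 < v := pos_iff_ne_zero.2 hv
    exact_mod_cast this
  set K : ℝ := Real.log ((Real.sqrt (2 * Real.pi * v))⁻¹) with hK
  have hsq : 0 < (Real.sqrt (2 * Real.pi * v))⁻¹ := inv_pos.2 (Real.sqrt_pos.2 (by positivity))
  -- the lower comparison function
  have hlow : Tendsto (fun t : ℝ => (K - (t + 1) ^ 2 / (2 * v)) / t ^ 2) atTop (𝓝 (-(1 / (2 * (v : ℝ))))) := by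
    have hi : Tendsto (fun t : ℝ => t⁻¹) atTop (𝓝 0) := tendsto_inv_atTop_zero
    have h1 : Tendsto (fun t : ℝ => K * (t⁻¹) ^ 2 - (1 + t⁻¹) ^ 2 / (2 * v)) atTop
        (𝓝 (K * (0 : ℝ) ^ 2 - (1 + 0) ^ 2 / (2 * v))) :=
      ((hi.pow 2).const_mul K).sub (((hi.const_add 1).pow 2).div_const _)
    have e : K * (0 : ℝ) ^ 2 - (1 + 0) ^ 2 / (2 * v) = -(1 / (2 * (v : ℝ))) := by ring
    rw [e] at h1
    refine h1.congr' ?_
    filter_upwards [eventually_gt_atTop (0 : ℝ)] with t ht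
    field_simp
  refine tendsto_of_tendsto_of_tendsto_of_le_of_le' hlow tendsto_const_nhds ?_ ?_
  · filter_upwards [eventually_gt_atTop (0 : ℝ)] with t ht
    have h := brg189_tail_ge hv ht.le
    have hpos : 0 < (Real.sqrt (2 * Real.pi * v))⁻¹ * Real.exp (-((t + 1) ^ 2) / (2 * v)) := by positivity
    have hl := Real.log_le_log hpos h
    rw [Real.log_mul hsq.ne' (Real.exp_pos _).ne', Real.log_exp] at hl
    have ht2 : 0 < t ^ 2 := by positivity
    rw [div_le_div_iff_of_pos_right ht2]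
    have e : K - (t + 1) ^ 2 / (2 * v) = K + -((t + 1) ^ 2) / (2 * v) := by ring
    rw [e]
    exact hl
  · filter_upwards [eventually_gt_atTop (0 : ℝ)] with t ht
    have h := brg189_tail_le hv ht.le
    have hl := Real.log_le_log (brg189_tail_pos hv t) h
    rw [Real.log_exp] at hl
    have ht2 : 0 < t ^ 2 := by positivity
    rw [div_le_iff₀ ht2]
    refine hl.trans (le_of_eq ?_)
    field_simp

/-- **Weak convergence to a non-degenerate Gaussian gives convergence of the tails.**  The hypothesis is the form in which the frozen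
statement S0540 (and `tmm_gauss` of R291) delivers convergence in law. -/
theorem brg189_tail_tendsto (μ : ℕ → Measure ℝ) [∀ n, IsProbabilityMeasure (μ n)] {v : ℝ≥0} (hv : v ≠ 0)
    (h : ∀ φ : ℝ →ᵇ ℝ, Tendsto (fun n => ∫ x, φ x ∂μ n) atTop (𝓝 (∫ x, φ x ∂gaussianReal 0 v))) (t : ℝ) :
    Tendsto (fun n => (μ n).real (Ici t)) atTop (𝓝 ((gaussianReal 0 v).real (Ici t))) := by
  let ν : ℕ → ProbabilityMeasure ℝ := fun n => ⟨μ n, inferInstance⟩
  let ν₀ : ProbabilityMeasure ℝ := ⟨gaussianReal 0 v, inferInstance⟩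
  have hw : Tendsto ν atTop (𝓝 ν₀) := ProbabilityMeasure.tendsto_iff_forall_integral_tendsto.2 h
  have hns : NullSingletonClass (gaussianReal 0 v) := nullSingletonClass_gaussianReal (μ := 0) hv
  have hfr : (ν₀ : Measure ℝ) (frontier (Ici t)) = 0 := by
    rw [frontier_Ici]
    exact measure_singleton (μ := gaussianReal 0 v) t
  have h1 := ProbabilityMeasure.tendsto_measure_of_null_frontier_of_tendsto' hw hfr
  exact (ENNReal.tendsto_toReal (measure_ne_top _ _)).comp h1

theorem brg189_log_tail_tendsto (μ : ℕ → Measure ℝ) [∀ n, IsProbabilityMeasure (μ n)] {v : ℝ≥0} (hv : v ≠ 0)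
    (h : ∀ φ : ℝ →ᵇ ℝ, Tendsto (fun n => ∫ x, φ x ∂μ n) atTop (𝓝 (∫ x, φ x ∂gaussianReal 0 v))) (t : ℝ) :
    Tendsto (fun n => Real.log ((μ n).real (Ici t))) atTop (𝓝 (Real.log ((gaussianReal 0 v).real (Ici t)))) :=
  (Real.continuousAt_log (brg189_tail_pos hv t).ne').tendsto.comp (brg189_tail_tendsto μ hv h t)

/-- **The tail coefficient identifies the variance.**  If the laws `μ_n` converge to `N(0,v)`, `v ≠ 0`, if `p t` is the limit of the
tails `μ_n [t,∞)`, and if `log (p t) / t² → -κ`, then `v = 1/(2κ)`. -/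
theorem brg189_variance_unique (μ : ℕ → Measure ℝ) [∀ n, IsProbabilityMeasure (μ n)] {v : ℝ≥0} (hv : v ≠ 0)
    (h : ∀ φ : ℝ →ᵇ ℝ, Tendsto (fun n => ∫ x, φ x ∂μ n) atTop (𝓝 (∫ x, φ x ∂gaussianReal 0 v)))
    (p : ℝ → ℝ) (hp : ∀ t, Tendsto (fun n => (μ n).real (Ici t)) atTop (𝓝 (p t))) {κ : ℝ}
    (hκ : Tendsto (fun t : ℝ => Real.log (p t) / t ^ 2) atTop (𝓝 (-κ))) : (v : ℝ) = 1 / (2 * κ) := by
  have hv0 : (0 : ℝ) < v := by
    have : 0 < v := pos_iff_ne_zero.2 hv
    exact_mod_cast this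
  have e : p = fun t => (gaussianReal 0 v).real (Ici t) :=
    funext fun t => tendsto_nhds_unique (hp t) (brg189_tail_tendsto μ hv h t)
  rw [e] at hκ
  have h2 := tendsto_nhds_unique hκ (brg189_log_tail hv)
  have h3 : κ = 1 / (2 * (v : ℝ)) := by linarith
  rw [h3]
  field_simp

end tails

end Claimed.Agent.R292
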