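/-
Row 292 (S0540), unit BRIDGE, pen helper149, prefix `br149_`.

SECTOR API of the torus six-vertex partition functions `svZN c M L n` of `Defs/Top`
(needed by BRIDGE and by BETHE on every design):
* the twin definitions `baSector / baZ` (Defs/BETHE) and `svAdmN / svZN` (Defs/Top) agree, and the
  exit `ba_stiffness`-shape implies `SvStiff` (`br149_svStiff_of_ba`);
* `svZN` is a finite sum (`br149_svZN_eq_sum`);
* conservation law: under the ice rule the number of `true` arrows in a column of horizontal edges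
  does not depend on the column (`br149_col_const`), hence `svAdmN n ω ↔ ice ∧ column 0 has n`;
* decomposition of the full ice partition function into sectors (`br149_sum_sectors`);
* arrow reversal `n ↔ L - n` (`br149_svZN_symm`);
* `1 ≤ svZN c M L n` for `n ≤ L`, `0 ≤ c`; `svZN = 0` for `L < n`; the crude upper bound, and the
  resulting bound on `log svZN / (M L)`;
* the denominator of the frozen `svTorusExpect` is `svZN c M (2 l) l`.
-/
import Claimed.Agent.R292.Defs.Top
import Claimed.Agent.R292.Defs.BETHE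

set_option autoImplicit false

namespace Claimed.Agent.R292

open Claims Claims.C0466 Filter Topology

/-! ## 0. The twin definitions -/

theorem br149_baSector_iff {M L : ℕ} (n : ℕ) (ω : ZMod M × ZMod L × Bool → Bool) :
    baSector n ω ↔ svAdmN n ω := Iff.rfl

theorem br149_baZ_eq (c : ℝ) (M L n : ℕ) : baZ c M L n = svZN c M L n := rfl

/-- the shape of the exit of the unit BETHE gives the predicate of the hub. -/
theorem br149_svStiff_of_ba {c A : ℝ}
    (h : ∀ ε : ℝ, 0 < ε → ∃ s₀ : ℝ, 0 < s₀ ∧ ∀ s : ℝ, 0 < s → s < s₀ →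
      ∃ l₀ : ℕ, ∀ l : ℕ, l₀ ≤ l → ∃ M₀ : ℕ, ∀ M : ℕ, M₀ ≤ M →
        |(Real.log (baZ c M (2 * l) (l - ⌊s * l⌋₊)) - Real.log (baZ c M (2 * l) l)) /
              (2 * (l : ℝ) * (M : ℝ)) + A * s ^ 2 / 2| ≤ ε * s ^ 2) :
    SvStiff c A := by
  intro ε hε
  obtain ⟨s₀, hs₀, H⟩ := h ε hε
  refine ⟨s₀, hs₀, fun s hs hss => ?_⟩
  obtain ⟨l₀, hl₀⟩ := H s hs hss
  filter_upwards [eventually_ge_atTop l₀] with l hl
  obtain ⟨M₀, hM₀⟩ := hl₀ l hl
  filter_upwards [eventually_ge_atTop M₀] with M hM
  have := hM₀ M hM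
  rw [br149_baZ_eq, br149_baZ_eq] at this
  have e : A / 2 * s ^ 2 = A * s ^ 2 / 2 := by ring
  rw [e]
  exact this

/-! ## 1. Ice rule, columns, finite sums -/

/-- the ice rule alone. -/
def br149_ice {M L : ℕ} (ω : ZMod M × ZMod L × Bool → Bool) : Prop :=
  ∀ a b : ℤ, svInCount ω a b = 2

/-- number of arrows `true` in the column `i` of horizontal edges. -/
def br149_col {M L : ℕ} (ω : ZMod M × ZMod L × Bool → Bool) (i : ℤ) : ℕ :=
  ((Finset.range L).filter (fun j : ℕ => svH ω i (j : ℤ) = true)).card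

theorem br149_admN_iff' {M L : ℕ} (n : ℕ) (ω : ZMod M × ZMod L × Bool → Bool) :
    svAdmN n ω ↔ br149_ice ω ∧ ∀ i : ℤ, br149_col ω i = n := Iff.rfl

open Classical in
theorem br149_svZN_eq_sum (c : ℝ) (M L n : ℕ) [NeZero M] [NeZero L] :
    svZN c M L n = ∑ ω : ZMod M × ZMod L × Bool → Bool,
      if svAdmN n ω then c ^ svNumC ω else 0 := by
  unfold svZN
  exact tsum_fintype _

/-- a sum over one period does not see a shift by one. -/
theorem br149_sum_shift {L : ℕ} (g : ℤ → ℤ) (hg : ∀ b, g (b + L) = g b) :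
    ∑ j ∈ Finset.range L, g ((j : ℤ) - 1) = ∑ j ∈ Finset.range L, g (j : ℤ) := by
  cases L with
  | zero => simp
  | succ n =>
    rw [Finset.sum_range_succ', Finset.sum_range_succ]
    congr 1
    · refine Finset.sum_congr rfl fun i _ => ?_
      congr 1
      push_cast
      ring
    · have := hg (-1)
      have e1 : ((0 : ℕ) : ℤ) - 1 = -1 := by norm_num
      have e2 : (-1 : ℤ) + ((n + 1 : ℕ) : ℤ) = (n : ℤ) := by push_cast; ring
      rw [e1, ← this, e2]

theorem br149_svV_add_L {M L : ℕ} (ω : ZMod M × ZMod L × Bool → Bool) (a b : ℤ) :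
    svV ω a (b + L) = svV ω a b := by
  simp [svV]

theorem br149_svH_add_L {M L : ℕ} (ω : ZMod M × ZMod L × Bool → Bool) (a b : ℤ) :
    svH ω a (b + L) = svH ω a b := by
  simp [svH]

theorem br149_svH_add_M {M L : ℕ} (ω : ZMod M × ZMod L × Bool → Bool) (a b : ℤ) :
    svH ω (a + M) b = svH ω a b := by
  simp [svH]

theorem br149_col_eq_sum {M L : ℕ} (ω : ZMod M × ZMod L × Bool → Bool) (i : ℤ) :
    (br149_col ω i : ℤ) = ∑ j ∈ Finset.range L, (if svH ω i (j : ℤ) = true then 1 else 0) := by
  unfold br149_col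
  rw [Finset.card_filter]
  push_cast
  rfl

/-- local form of the ice rule. -/
theorem br149_ice_local {M L : ℕ} {ω : ZMod M × ZMod L × Bool → Bool} (h : br149_ice ω)
    (a b : ℤ) :
    ((if svH ω (a - 1) b = true then 1 else 0 : ℤ) - (if svH ω a b = true then 1 else 0)) =
      (if svV ω a b = true then 1 else 0) - (if svV ω a (b - 1) = true then 1 else 0) := by
  have := h a b
  unfold svInCount at this
  cases h1 : svH ω (a - 1) b <;> cases h2 : svH ω a b <;> cases h3 : svV ω a (b - 1) <;>
    cases h4 : svV ω a b <;> simp [h1, h2, h3, h4] at this ⊢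

/-- **Conservation law**, one step. -/
theorem br149_col_step {M L : ℕ} {ω : ZMod M × ZMod L × Bool → Bool} (h : br149_ice ω) (a : ℤ) :
    br149_col ω (a - 1) = br149_col ω a := by
  have key : (br149_col ω (a - 1) : ℤ) - br149_col ω a = 0 := by
    rw [br149_col_eq_sum, br149_col_eq_sum, ← Finset.sum_sub_distrib]
    have e : ∀ j ∈ Finset.range L,
        ((if svH ω (a - 1) (j : ℤ) = true then 1 else 0 : ℤ) -
          (if svH ω a (j : ℤ) = true then 1 else 0)) =
        (if svV ω a (j : ℤ) = true then 1 else 0) -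
          (if svV ω a ((j : ℤ) - 1) = true then 1 else 0) :=
      fun j _ => br149_ice_local h a (j : ℤ)
    rw [Finset.sum_congr rfl e, Finset.sum_sub_distrib]
    have := br149_sum_shift (L := L) (fun b => if svV ω a b = true then (1 : ℤ) else 0)
      (fun b => by simp only [br149_svV_add_L])
    rw [this, sub_self]
  omega

/-- **Conservation law.** -/
theorem br149_col_const {M L : ℕ} {ω : ZMod M × ZMod L × Bool → Bool} (h : br149_ice ω) (a : ℤ) :
    br149_col ω a = br149_col ω 0 := by
  induction a using Int.induction_on with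
  | zero => rfl
  | succ i ih =>
    have := br149_col_step h ((i : ℤ) + 1)
    rw [add_sub_cancel_right] at this
    rw [← this, ih]
  | pred i ih =>
    have := br149_col_step h (-(i : ℤ))
    rw [this, ih]

theorem br149_admN_iff {M L : ℕ} (n : ℕ) (ω : ZMod M × ZMod L × Bool → Bool) :
    svAdmN n ω ↔ br149_ice ω ∧ br149_col ω 0 = n := by
  rw [br149_admN_iff']
  constructor
  · rintro ⟨h, h'⟩
    exact ⟨h, h' 0⟩
  · rintro ⟨h, h'⟩
    exact ⟨h, fun i => by rw [br149_col_const h, h']⟩

theorem br149_col_le {M L : ℕ} (ω : ZMod M × ZMod L × Bool → Bool) (i : ℤ) : br149_col ω i ≤ L := by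
  unfold br149_col
  exact (Finset.card_filter_le _ _).trans (by simp)

theorem br149_svZN_eq_zero (c : ℝ) (M L n : ℕ) (hn : L < n) : svZN c M L n = 0 := by
  classical
  unfold svZN
  have : ∀ ω : ZMod M × ZMod L × Bool → Bool, ¬ svAdmN n ω := by
    intro ω h
    have h1 := h.2 0
    have h2 := br149_col_le ω 0
    unfold br149_col at h2
    omega
  simp [this]

open Classical in
/-- the full ice partition function is the sum of its sectors. -/
theorem br149_sum_sectors (c : ℝ) (M L : ℕ) [NeZero M] [NeZero L] :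
    ∑ n ∈ Finset.range (L + 1), svZN c M L n =
      ∑ ω : ZMod M × ZMod L × Bool → Bool, if br149_ice ω then c ^ svNumC ω else 0 := by
  simp only [br149_svZN_eq_sum]
  rw [Finset.sum_comm]
  refine Finset.sum_congr rfl fun ω _ => ?_
  by_cases h : br149_ice ω
  · rw [if_pos h]
    rw [Finset.sum_eq_single (br149_col ω 0)]
    · rw [if_pos ((br149_admN_iff _ _).2 ⟨h, rfl⟩)]
    · intro n _ hn
      rw [if_neg]
      intro h'
      exact hn ((br149_admN_iff _ _).1 h').2.symm
    · intro h'
      exact absurd (Finset.mem_range.2 (Nat.lt_succ_of_le (br149_col_le ω 0))) h'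
  · rw [if_neg h]
    refine Finset.sum_eq_zero fun n _ => ?_
    rw [if_neg]
    intro h'
    exact h h'.1

/-! ## 2. Arrow reversal -/

/-- reversal of all arrows. -/
def br149_flip {M L : ℕ} (ω : ZMod M × ZMod L × Bool → Bool) : ZMod M × ZMod L × Bool → Bool :=
  fun e => !ω e

theorem br149_flip_flip {M L : ℕ} (ω : ZMod M × ZMod L × Bool → Bool) :
    br149_flip (br149_flip ω) = ω := by
  funext e
  simp [br149_flip]

/-- reversal as an equivalence. -/
def br149_flipEquiv (M L : ℕ) :
    (ZMod M × ZMod L × Bool → Bool) ≃ (ZMod M × ZMod L × Bool → Bool) where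
  toFun := br149_flip
  invFun := br149_flip
  left_inv := br149_flip_flip
  right_inv := br149_flip_flip

theorem br149_svH_flip {M L : ℕ} (ω : ZMod M × ZMod L × Bool → Bool) (a b : ℤ) :
    svH (br149_flip ω) a b = !svH ω a b := rfl

theorem br149_svV_flip {M L : ℕ} (ω : ZMod M × ZMod L × Bool → Bool) (a b : ℤ) :
    svV (br149_flip ω) a b = !svV ω a b := rfl

theorem br149_bool4 (x1 x2 x3 x4 : Bool)
    (h : (if x1 = true then 1 else 0) + (if x2 = true then 0 else 1) +
      (if x3 = true then 1 else 0) + (if x4 = true then 0 else 1) = 2) :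
    (if (!x1) = true then 1 else 0) + (if (!x2) = true then 0 else 1) +
      (if (!x3) = true then 1 else 0) + (if (!x4) = true then 0 else 1) = 2 := by
  revert h
  cases x1 <;> cases x2 <;> cases x3 <;> cases x4 <;> simp

theorem br149_ice_flip_of {M L : ℕ} {ω : ZMod M × ZMod L × Bool → Bool} (h : br149_ice ω) :
    br149_ice (br149_flip ω) := by
  intro a b
  have := h a b
  unfold svInCount at this ⊢
  simp only [br149_svH_flip, br149_svV_flip]
  exact br149_bool4 _ _ _ _ this

theorem br149_ice_flip {M L : ℕ} (ω : ZMod M × ZMod L × Bool → Bool) :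
    br149_ice (br149_flip ω) ↔ br149_ice ω :=
  ⟨fun h => by simpa [br149_flip_flip] using br149_ice_flip_of h, br149_ice_flip_of⟩

theorem br149_col_flip {M L : ℕ} (ω : ZMod M × ZMod L × Bool → Bool) (i : ℤ) :
    br149_col (br149_flip ω) i + br149_col ω i = L := by
  unfold br149_col
  have h1 : (Finset.range L).filter (fun j : ℕ => svH (br149_flip ω) i (j : ℤ) = true) =
      (Finset.range L).filter (fun j : ℕ => ¬ svH ω i (j : ℤ) = true) := by
    refine Finset.filter_congr fun j _ => ?_
    rw [br149_svH_flip]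
    cases svH ω i (j : ℤ) <;> simp
  rw [h1, add_comm, Finset.card_filter_add_card_filter_not, Finset.card_range]

theorem br149_isC_flip {M L : ℕ} (ω : ZMod M × ZMod L × Bool → Bool) (a b : ℤ) :
    svIsC (br149_flip ω) a b ↔ svIsC ω a b := by
  unfold svIsC
  simp only [br149_svH_flip]
  cases svH ω (a - 1) b <;> cases svH ω a b <;> simp

theorem br149_numC_flip {M L : ℕ} (ω : ZMod M × ZMod L × Bool → Bool) :
    svNumC (br149_flip ω) = svNumC ω := by
  classical
  unfold svNumC
  congr 1
  refine Finset.filter_congr fun v _ => ?_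
  exact br149_isC_flip ω _ _

theorem br149_admN_flip {M L : ℕ} {n : ℕ} (hn : n ≤ L) (ω : ZMod M × ZMod L × Bool → Bool) :
    svAdmN (L - n) (br149_flip ω) ↔ svAdmN n ω := by
  rw [br149_admN_iff, br149_admN_iff, br149_ice_flip]
  have := br149_col_flip ω 0
  constructor
  · rintro ⟨h, h'⟩
    exact ⟨h, by omega⟩
  · rintro ⟨h, h'⟩
    exact ⟨h, by omega⟩

/-- **Symmetry of the sectors** under arrow reversal. -/
theorem br149_svZN_symm (c : ℝ) (M L : ℕ) {n : ℕ} (hn : n ≤ L) :
    svZN c M L (L - n) = svZN c M L n := by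
  classical
  unfold svZN
  rw [← (br149_flipEquiv M L).tsum_eq]
  refine tsum_congr fun ω => ?_
  have e : (br149_flipEquiv M L) ω = br149_flip ω := rfl
  rw [e, br149_numC_flip]
  by_cases h : svAdmN n ω
  · rw [if_pos h, if_pos ((br149_admN_flip hn ω).2 h)]
  · rw [if_neg h, if_neg (fun h' => h ((br149_admN_flip hn ω).1 h'))]

/-! ## 3. Positivity and crude bounds -/

/-- the "frozen rows" configuration: all vertical arrows `true`, the horizontal arrows of the rows
`0, …, n-1` are `true`, the others `false`. -/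
def br149_rows (M L n : ℕ) : ZMod M × ZMod L × Bool → Bool :=
  fun e => if e.2.2 = true then true else decide (e.2.1.val < n)

theorem br149_rows_svH (M L n : ℕ) (a b : ℤ) :
    svH (br149_rows M L n) a b = decide (((b : ZMod L)).val < n) := by
  simp [svH, br149_rows]

theorem br149_rows_svV (M L n : ℕ) (a b : ℤ) : svV (br149_rows M L n) a b = true := by
  simp [svV, br149_rows]

theorem br149_rows_ice (M L n : ℕ) : br149_ice (br149_rows M L n) := by
  intro a b
  unfold svInCount
  rw [br149_rows_svH, br149_rows_svH, br149_rows_svV, br149_rows_svV]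
  by_cases h : ((b : ZMod L)).val < n <;> simp [h]

theorem br149_rows_col (M L n : ℕ) (hn : n ≤ L) (i : ℤ) : br149_col (br149_rows M L n) i = n := by
  unfold br149_col
  have : (Finset.range L).filter (fun j : ℕ => svH (br149_rows M L n) i (j : ℤ) = true) =
      Finset.range n := by
    ext j
    simp only [Finset.mem_filter, Finset.mem_range, br149_rows_svH, decide_eq_true_eq,
      Int.cast_natCast]
    constructor
    · rintro ⟨hj, h⟩
      rwa [ZMod.val_natCast_of_lt hj] at h
    · intro h
      have hj : j < L := lt_of_lt_of_le h hn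
      exact ⟨hj, by rwa [ZMod.val_natCast_of_lt hj]⟩
  rw [this, Finset.card_range]

theorem br149_rows_admN (M L n : ℕ) (hn : n ≤ L) : svAdmN n (br149_rows M L n) :=
  ⟨br149_rows_ice M L n, br149_rows_col M L n hn⟩

theorem br149_rows_numC (M L n : ℕ) : svNumC (br149_rows M L n) = 0 := by
  classical
  unfold svNumC
  rw [Finset.card_eq_zero, Finset.filter_eq_empty_iff]
  intro v _
  unfold svIsC
  rw [br149_rows_svH, br149_rows_svH]
  by_cases h : (((v.2 : ℤ) : ZMod L)).val < n <;> simp

/-- every sector `n ≤ L` is non empty: `1 ≤ Z`. -/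
theorem br149_one_le_svZN {c : ℝ} (hc : 0 ≤ c) (M L : ℕ) [NeZero M] [NeZero L] {n : ℕ}
    (hn : n ≤ L) : 1 ≤ svZN c M L n := by
  classical
  rw [br149_svZN_eq_sum]
  have h := Finset.single_le_sum (f := fun ω : ZMod M × ZMod L × Bool → Bool =>
    if svAdmN n ω then c ^ svNumC ω else 0) (s := Finset.univ)
    (fun ω _ => by
      split_ifs
      · positivity
      · exact le_rfl) (Finset.mem_univ (br149_rows M L n))
  simp only [if_pos (br149_rows_admN M L n hn), br149_rows_numC, pow_zero] at h
  exact h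

theorem br149_svZN_pos {c : ℝ} (hc : 0 ≤ c) (M L : ℕ) [NeZero M] [NeZero L] {n : ℕ}
    (hn : n ≤ L) : 0 < svZN c M L n :=
  lt_of_lt_of_le one_pos (br149_one_le_svZN hc M L hn)

theorem br149_numC_le {M L : ℕ} (ω : ZMod M × ZMod L × Bool → Bool) : svNumC ω ≤ M * L := by
  classical
  unfold svNumC
  refine (Finset.card_filter_le _ _).trans ?_
  simp

/-- crude upper bound. -/
theorem br149_svZN_le {c : ℝ} (hc : 0 ≤ c) (M L n : ℕ) [NeZero M] [NeZero L] :
    svZN c M L n ≤ (4 * max 1 c) ^ (M * L) := by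
  classical
  rw [br149_svZN_eq_sum]
  have h1 : ∀ ω : ZMod M × ZMod L × Bool → Bool,
      (if svAdmN n ω then c ^ svNumC ω else 0) ≤ (max 1 c) ^ (M * L) := by
    intro ω
    have hm : (1 : ℝ) ≤ max 1 c := le_max_left _ _
    split_ifs
    · calc c ^ svNumC ω ≤ (max 1 c) ^ svNumC ω := pow_le_pow_left₀ hc (le_max_right _ _) _
        _ ≤ (max 1 c) ^ (M * L) := pow_le_pow_right₀ hm (br149_numC_le ω)
    · positivity
  refine (Finset.sum_le_sum fun ω _ => h1 ω).trans ?_
  rw [Finset.sum_const, Finset.card_univ, nsmul_eq_mul, mul_pow]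
  refine mul_le_mul_of_nonneg_right ?_ (by positivity)
  have : Fintype.card (ZMod M × ZMod L × Bool → Bool) = 4 ^ (M * L) := by
    rw [Fintype.card_fun, Fintype.card_prod, Fintype.card_prod, ZMod.card, ZMod.card,
      Fintype.card_bool]
    rw [show M * (L * 2) = 2 * (M * L) by ring, pow_mul]
    norm_num
  rw [this]
  push_cast
  exact le_rfl

/-- the free energy per site of every sector lies in `[0, log (4 max(1,c))]`. -/
theorem br149_log_svZN_bounds {c : ℝ} (hc : 0 ≤ c) (M L : ℕ) [NeZero M] [NeZero L] {n : ℕ}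
    (hn : n ≤ L) :
    0 ≤ Real.log (svZN c M L n) / ((M : ℝ) * L) ∧
      Real.log (svZN c M L n) / ((M : ℝ) * L) ≤ Real.log (4 * max 1 c) := by
  have hM : (0 : ℝ) < M := Nat.cast_pos.2 (Nat.pos_of_ne_zero (NeZero.ne M))
  have hL : (0 : ℝ) < L := Nat.cast_pos.2 (Nat.pos_of_ne_zero (NeZero.ne L))
  have h1 := br149_one_le_svZN hc M L hn
  constructor
  · exact div_nonneg (Real.log_nonneg h1) (by positivity)
  · rw [div_le_iff₀ (by positivity)]
    have h2 := Real.log_le_log (by linarith) (br149_svZN_le hc M L n)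
    rw [Real.log_pow] at h2
    push_cast at h2
    linarith

/-! ## 4. The frozen torus expectation -/

theorem br149_admN_half_iff {M l : ℕ} (ω : ZMod M × ZMod (2 * l) × Bool → Bool) :
    svAdmN l ω ↔ svAdmissible ω := by
  unfold svAdmN svAdmissible
  refine and_congr_right fun _ => forall_congr' fun i => ?_
  omega

open Classical in
/-- the frozen torus expectation is a quotient by the balanced sector. -/
theorem br149_torusExpect_eq (c : ℝ) (M l : ℕ) (X : (ZMod M × ZMod (2 * l) × Bool → Bool) → ℝ) :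
    svTorusExpect c M (2 * l) X =
      (∑' ω, if svAdmN l ω then c ^ svNumC ω * X ω else 0) / svZN c M (2 * l) l := by
  unfold svTorusExpect svZN
  simp only [br149_admN_half_iff]

end Claimed.Agent.R292
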