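import Claimed.Agent.R292.Defs.Bridge

/-!
# Row 292 (S0540), unit BRIDGE, Bridge/Cap209 : THE SMOOTH CAPACITARY TEST ON THE RECTANGLE      (pen helper209; prefix `brg209_`; 0 sorry)

Orders B-1 (helper27) and BR-1 (helper243).  To USE `AtFlatGFF t v` one must hand in a Jordan domain `D`, a smooth `φ` with compact support in `D`
and a solution `u` of `-Δ u = φ`, `u = 0` on the frontier.  Here `D = (0,ρ) × (0,1)` and we START from the potential:

* `brg209_step a b η`   smooth step `0 → 1` on `[a,b]` with derivative `plat / mass ≤ 1/(b-a-2η)`; energy `1/(b-a) ≤ en ≤ 1/(b-a-2η)`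
* `brg209_cut a b η ℓ`  `step x * step (ℓ - x)`; `∫ cut'^2 = 2 en`, `∫ cut cut'' = - 2 en`, `ℓ - 2b ≤ ∫ cut^2 ≤ ℓ`
* `brg209_w ρ d`        `w = χ(x) g(y)`: values in `[0,1]`, `= 1` on the plate `[3/4, ρ-3/4] × [1/2-d, 1/2+d]`, `= 0` off `K = [1/4, ρ-1/4] × [d, 1-d]`
* `brg209_phi ρ d`      `φ = -Δ w` (`brg209_lap`), smooth, supported in `K ⊆ D`
* `brg209_energy`       `∫_D φ w = E`;   `brg209_le_E`, `brg209_E_le` :  `4 (ρ - 3/2) ≤ E ≤ 4 ρ / (1 - 8 d) + 8`      (`Dir(H_A) ≤ 4ρ + C` of DKLM (484))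
* `brg209_flat`         `AtFlatGFF t v` ⟹ the pairing with `a • φ` has the Wick moments of variance `v a² E` (take `a = 1/E`: variance `v / E`).
* Sections 9, 10 (v2)   the same with the plate at height `y₀` (`brg209_wA`, `brg209_phiA`, `brg209_EA`, `brg209_flatA`):
                        `(ρ - 3/2) (1/y₀ + 1/(1-y₀)) ≤ EA ≤ ρ (1/(y₀-4d) + 1/(1-y₀-4d)) + 8`: with `y₀ = 1/(1+T)` the capacity per unit length, in units of the
                        rise distance, is `1 + 1/T`: the descent to the far side is almost free (needed for the SHARP constant in a nested scheme).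
-/

set_option autoImplicit false

namespace Claimed.Agent.R292

open MeasureTheory Filter Topology Set
open scoped ContDiff

/-! ## 1. The plateau and the smooth step -/

/-- smooth plateau: `0` outside `(a,b)`, `1` on `[a+η, b-η]`, values in `[0,1]`. -/
noncomputable def brg209_plat (a b η : ℝ) (y : ℝ) : ℝ :=
  Real.smoothTransition ((y - a) / η) * Real.smoothTransition ((b - y) / η)

theorem brg209_plat_contDiff (a b η : ℝ) : ContDiff ℝ ∞ (brg209_plat a b η) := by
  unfold brg209_plat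
  refine ContDiff.mul ?_ ?_
  · exact Real.smoothTransition.contDiff.comp ((contDiff_id.sub contDiff_const).div_const _)
  · exact Real.smoothTransition.contDiff.comp ((contDiff_const.sub contDiff_id).div_const _)

theorem brg209_plat_continuous (a b η : ℝ) : Continuous (brg209_plat a b η) :=
  (brg209_plat_contDiff a b η).continuous

theorem brg209_plat_nonneg (a b η y : ℝ) : 0 ≤ brg209_plat a b η y :=
  mul_nonneg (Real.smoothTransition.nonneg _) (Real.smoothTransition.nonneg _)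

theorem brg209_plat_le_one (a b η y : ℝ) : brg209_plat a b η y ≤ 1 :=
  mul_le_one₀ (Real.smoothTransition.le_one _) (Real.smoothTransition.nonneg _)
    (Real.smoothTransition.le_one _)

theorem brg209_plat_zero_left {a b η y : ℝ} (hη : 0 < η) (hy : y ≤ a) : brg209_plat a b η y = 0 := by
  unfold brg209_plat
  rw [Real.smoothTransition.zero_of_nonpos (div_nonpos_of_nonpos_of_nonneg (by linarith) hη.le),
    zero_mul]

theorem brg209_plat_zero_right {a b η y : ℝ} (hη : 0 < η) (hy : b ≤ y) : brg209_plat a b η y = 0 := by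
  unfold brg209_plat
  rw [Real.smoothTransition.zero_of_nonpos (x := (b - y) / η)
    (div_nonpos_of_nonpos_of_nonneg (by linarith) hη.le), mul_zero]

theorem brg209_plat_one {a b η y : ℝ} (hη : 0 < η) (h1 : a + η ≤ y) (h2 : y ≤ b - η) :
    brg209_plat a b η y = 1 := by
  unfold brg209_plat
  rw [Real.smoothTransition.one_of_one_le ((one_le_div hη).2 (by linarith)),
    Real.smoothTransition.one_of_one_le ((one_le_div hη).2 (by linarith)), one_mul]

/-- mass of the plateau -/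
noncomputable def brg209_mass (a b η : ℝ) : ℝ := ∫ y in a..b, brg209_plat a b η y

theorem brg209_mass_le {a b η : ℝ} (hab : a ≤ b) : brg209_mass a b η ≤ b - a := by
  unfold brg209_mass
  have h : ∫ y in a..b, brg209_plat a b η y ≤ ∫ _y in a..b, (1 : ℝ) :=
    intervalIntegral.integral_mono_on hab
      ((brg209_plat_continuous a b η).intervalIntegrable _ _) intervalIntegrable_const
      (fun y _ => brg209_plat_le_one a b η y)
  simpa using h

theorem brg209_le_mass {a b η : ℝ} (hη : 0 < η) (hab : a + 2 * η ≤ b) :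
    b - a - 2 * η ≤ brg209_mass a b η := by
  unfold brg209_mass
  have hc := brg209_plat_continuous a b η
  have e : ∫ y in a..b, brg209_plat a b η y
      = (∫ y in a..(a + η), brg209_plat a b η y) + (∫ y in (a + η)..(b - η), brg209_plat a b η y)
        + ∫ y in (b - η)..b, brg209_plat a b η y := by
    rw [intervalIntegral.integral_add_adjacent_intervals (hc.intervalIntegrable _ _)
      (hc.intervalIntegrable _ _), intervalIntegral.integral_add_adjacent_intervals
      (hc.intervalIntegrable _ _) (hc.intervalIntegrable _ _)]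
  have h1 : 0 ≤ ∫ y in a..(a + η), brg209_plat a b η y :=
    intervalIntegral.integral_nonneg (by linarith) (fun y _ => brg209_plat_nonneg a b η y)
  have h3 : 0 ≤ ∫ y in (b - η)..b, brg209_plat a b η y :=
    intervalIntegral.integral_nonneg (by linarith) (fun y _ => brg209_plat_nonneg a b η y)
  have h2 : ∫ y in (a + η)..(b - η), brg209_plat a b η y = b - a - 2 * η := by
    have : ∫ y in (a + η)..(b - η), brg209_plat a b η y = ∫ _y in (a + η)..(b - η), (1 : ℝ) := by
      refine intervalIntegral.integral_congr (fun y hy => ?_)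
      rw [uIcc_of_le (by linarith)] at hy
      exact brg209_plat_one hη hy.1 hy.2
    rw [this]; simp; ring
  rw [e, h2]; linarith

theorem brg209_mass_pos {a b η : ℝ} (hη : 0 < η) (hab : a + 2 * η < b) : 0 < brg209_mass a b η :=
  lt_of_lt_of_le (by linarith) (brg209_le_mass hη hab.le)

/-- the smooth step: `0` on `(-∞,a]`, `1` on `[b,∞)`, derivative `plat / mass`. -/
noncomputable def brg209_step (a b η : ℝ) (y : ℝ) : ℝ :=
  (∫ t in a..y, brg209_plat a b η t) / brg209_mass a b η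

theorem brg209_step_hasDerivAt (a b η y : ℝ) :
    HasDerivAt (brg209_step a b η) (brg209_plat a b η y / brg209_mass a b η) y := by
  unfold brg209_step
  refine HasDerivAt.div_const ?_ _
  exact intervalIntegral.integral_hasDerivAt_right
    ((brg209_plat_continuous a b η).intervalIntegrable _ _)
    ((brg209_plat_continuous a b η).stronglyMeasurableAtFilter _ _)
    (brg209_plat_continuous a b η).continuousAt

theorem brg209_step_deriv (a b η : ℝ) :
    deriv (brg209_step a b η) = fun y => brg209_plat a b η y / brg209_mass a b η :=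
  funext fun y => (brg209_step_hasDerivAt a b η y).deriv

theorem brg209_step_contDiff (a b η : ℝ) : ContDiff ℝ ∞ (brg209_step a b η) := by
  rw [contDiff_infty_iff_deriv]
  refine ⟨fun y => (brg209_step_hasDerivAt a b η y).differentiableAt, ?_⟩
  rw [brg209_step_deriv]
  exact (brg209_plat_contDiff a b η).div_const _

theorem brg209_step_zero {a b η y : ℝ} (hη : 0 < η) (hy : y ≤ a) : brg209_step a b η y = 0 := by
  unfold brg209_step
  have : ∫ t in a..y, brg209_plat a b η t = ∫ _t in a..y, (0 : ℝ) := by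
    refine intervalIntegral.integral_congr (fun t ht => ?_)
    rw [uIcc_of_ge hy] at ht
    exact brg209_plat_zero_left hη ht.2
  rw [this]; simp

theorem brg209_step_one {a b η y : ℝ} (hη : 0 < η) (hab : a + 2 * η < b) (hy : b ≤ y) :
    brg209_step a b η y = 1 := by
  unfold brg209_step
  have hc := brg209_plat_continuous a b η
  have : ∫ t in b..y, brg209_plat a b η t = ∫ _t in b..y, (0 : ℝ) := by
    refine intervalIntegral.integral_congr (fun t ht => ?_)
    rw [uIcc_of_le hy] at ht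
    exact brg209_plat_zero_right hη ht.1
  rw [← intervalIntegral.integral_add_adjacent_intervals (hc.intervalIntegrable a b)
    (hc.intervalIntegrable b y), this]
  simp only [intervalIntegral.integral_zero, add_zero]
  exact div_self (brg209_mass_pos hη hab).ne'

theorem brg209_step_mono {a b η : ℝ} (hη : 0 < η) (hab : a + 2 * η < b) :
    Monotone (brg209_step a b η) := by
  refine monotone_of_deriv_nonneg (fun y => (brg209_step_hasDerivAt a b η y).differentiableAt) ?_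
  intro y
  rw [brg209_step_deriv]
  exact div_nonneg (brg209_plat_nonneg a b η y) (brg209_mass_pos hη hab).le

theorem brg209_step_nonneg {a b η : ℝ} (hη : 0 < η) (hab : a + 2 * η < b) (y : ℝ) :
    0 ≤ brg209_step a b η y := by
  rcases le_total y a with h | h
  · rw [brg209_step_zero hη h]
  · rw [← brg209_step_zero (a := a) (b := b) hη le_rfl]; exact brg209_step_mono hη hab h

theorem brg209_step_le_one {a b η : ℝ} (hη : 0 < η) (hab : a + 2 * η < b) (y : ℝ) :
    brg209_step a b η y ≤ 1 := by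
  rcases le_total b y with h | h
  · rw [brg209_step_one hη hab h]
  · rw [← brg209_step_one (a := a) (b := b) hη hab le_rfl]; exact brg209_step_mono hη hab h


/-! ## 2. Energy of the step -/

/-- Dirichlet energy of the step -/
noncomputable def brg209_en (a b η : ℝ) : ℝ :=
  ∫ y in a..b, (brg209_plat a b η y / brg209_mass a b η) ^ 2

theorem brg209_int_dstep {a b η : ℝ} (hη : 0 < η) (hab : a + 2 * η < b) :
    ∫ y in a..b, brg209_plat a b η y / brg209_mass a b η = 1 := by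
  rw [intervalIntegral.integral_div]
  exact div_self (brg209_mass_pos hη hab).ne'

theorem brg209_en_le {a b η : ℝ} (hη : 0 < η) (hab : a + 2 * η < b) :
    brg209_en a b η ≤ 1 / (b - a - 2 * η) := by
  have hm := brg209_mass_pos hη hab
  have hc := brg209_plat_continuous a b η
  have h1 : brg209_en a b η ≤ ∫ y in a..b, (1 / brg209_mass a b η) *
      (brg209_plat a b η y / brg209_mass a b η) := by
    unfold brg209_en
    refine intervalIntegral.integral_mono_on (by linarith)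
      (((hc.div_const _).pow 2).intervalIntegrable _ _)
      ((continuous_const.mul (hc.div_const _)).intervalIntegrable _ _) (fun y _ => ?_)
    rw [sq]
    refine mul_le_mul_of_nonneg_right ?_ (div_nonneg (brg209_plat_nonneg a b η y) hm.le)
    exact div_le_div_of_nonneg_right (brg209_plat_le_one a b η y) hm.le
  rw [intervalIntegral.integral_const_mul, brg209_int_dstep hη hab, mul_one] at h1
  refine h1.trans ?_
  exact one_div_le_one_div_of_le (by linarith) (brg209_le_mass hη hab.le)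

theorem brg209_le_en {a b η : ℝ} (hη : 0 < η) (hab : a + 2 * η < b) :
    1 / (b - a) ≤ brg209_en a b η := by
  have hm := brg209_mass_pos hη hab
  have hc := brg209_plat_continuous a b η
  have hba : 0 < b - a := by linarith
  have h0 : 0 ≤ ∫ y in a..b, (brg209_plat a b η y / brg209_mass a b η - 1 / (b - a)) ^ 2 :=
    intervalIntegral.integral_nonneg (by linarith) (fun y _ => sq_nonneg _)
  have e : ∫ y in a..b, (brg209_plat a b η y / brg209_mass a b η - 1 / (b - a)) ^ 2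
      = brg209_en a b η - 2 / (b - a) * 1 + (1 / (b - a)) ^ 2 * (b - a) := by
    have e1 : ∀ y, (brg209_plat a b η y / brg209_mass a b η - 1 / (b - a)) ^ 2
        = (brg209_plat a b η y / brg209_mass a b η) ^ 2
          - 2 / (b - a) * (brg209_plat a b η y / brg209_mass a b η) + (1 / (b - a)) ^ 2 := by
      intro y; ring
    simp_rw [e1]
    rw [intervalIntegral.integral_add, intervalIntegral.integral_sub,
      intervalIntegral.integral_const_mul, brg209_int_dstep hη hab]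
    · simp [brg209_en]
      ring
    · exact ((hc.div_const _).pow 2).intervalIntegrable _ _
    · exact (continuous_const.mul (hc.div_const _)).intervalIntegrable _ _
    · exact (((hc.div_const _).pow 2).sub (continuous_const.mul (hc.div_const _))).intervalIntegrable _ _
    · exact intervalIntegrable_const
  rw [e] at h0
  have : (1 / (b - a)) ^ 2 * (b - a) = 1 / (b - a) := by field_simp
  rw [this] at h0
  have h2 : 2 / (b - a) * 1 = 1 / (b - a) + 1 / (b - a) := by ring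
  linarith

/-! ## 3. The two-sided cutoff `cut = step(x) * step(ℓ - x)` -/

/-- `0` outside `(a, ℓ-a)`, `1` on `[b, ℓ-b]`. -/
noncomputable def brg209_cut (a b η ℓ : ℝ) (x : ℝ) : ℝ :=
  brg209_step a b η x * brg209_step a b η (ℓ - x)

/-- its derivative -/
noncomputable def brg209_dcut (a b η ℓ : ℝ) (x : ℝ) : ℝ :=
  brg209_plat a b η x / brg209_mass a b η - brg209_plat a b η (ℓ - x) / brg209_mass a b η

theorem brg209_cut_contDiff (a b η ℓ : ℝ) : ContDiff ℝ ∞ (brg209_cut a b η ℓ) := by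
  unfold brg209_cut
  exact (brg209_step_contDiff a b η).mul
    ((brg209_step_contDiff a b η).comp (contDiff_const.sub contDiff_id))

theorem brg209_dcut_contDiff (a b η ℓ : ℝ) : ContDiff ℝ ∞ (brg209_dcut a b η ℓ) := by
  unfold brg209_dcut
  exact ((brg209_plat_contDiff a b η).div_const _).sub
    (((brg209_plat_contDiff a b η).comp (contDiff_const.sub contDiff_id)).div_const _)

theorem brg209_cut_nonneg {a b η : ℝ} (hη : 0 < η) (hab : a + 2 * η < b) (ℓ x : ℝ) :
    0 ≤ brg209_cut a b η ℓ x :=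
  mul_nonneg (brg209_step_nonneg hη hab _) (brg209_step_nonneg hη hab _)

theorem brg209_cut_le_one {a b η : ℝ} (hη : 0 < η) (hab : a + 2 * η < b) (ℓ x : ℝ) :
    brg209_cut a b η ℓ x ≤ 1 :=
  mul_le_one₀ (brg209_step_le_one hη hab _) (brg209_step_nonneg hη hab _)
    (brg209_step_le_one hη hab _)

theorem brg209_cut_zero_left {a b η ℓ x : ℝ} (hη : 0 < η) (hx : x ≤ a) :
    brg209_cut a b η ℓ x = 0 := by
  unfold brg209_cut; rw [brg209_step_zero hη hx, zero_mul]

theorem brg209_cut_zero_right {a b η ℓ x : ℝ} (hη : 0 < η) (hx : ℓ - a ≤ x) :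
    brg209_cut a b η ℓ x = 0 := by
  unfold brg209_cut; rw [brg209_step_zero (y := ℓ - x) hη (by linarith), mul_zero]

theorem brg209_cut_one {a b η ℓ x : ℝ} (hη : 0 < η) (hab : a + 2 * η < b) (h1 : b ≤ x)
    (h2 : x ≤ ℓ - b) : brg209_cut a b η ℓ x = 1 := by
  unfold brg209_cut
  rw [brg209_step_one hη hab h1, brg209_step_one hη hab (by linarith), one_mul]

theorem brg209_cut_hasDerivAt {a b η ℓ : ℝ} (hη : 0 < η) (hab : a + 2 * η < b) (hℓ : 2 * b ≤ ℓ)
    (x : ℝ) : HasDerivAt (brg209_cut a b η ℓ) (brg209_dcut a b η ℓ x) x := by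
  have h1 := brg209_step_hasDerivAt a b η x
  have h2 : HasDerivAt (fun x => brg209_step a b η (ℓ - x))
      (-(brg209_plat a b η (ℓ - x) / brg209_mass a b η)) x := by
    have := (brg209_step_hasDerivAt a b η (ℓ - x)).comp x ((hasDerivAt_id x).const_sub ℓ)
    simpa [Function.comp_def] using this
  have h := h1.mul h2
  have e : brg209_plat a b η x / brg209_mass a b η * brg209_step a b η (ℓ - x)
      + brg209_step a b η x * -(brg209_plat a b η (ℓ - x) / brg209_mass a b η)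
      = brg209_dcut a b η ℓ x := by
    unfold brg209_dcut
    have e1 : brg209_plat a b η x / brg209_mass a b η * brg209_step a b η (ℓ - x)
        = brg209_plat a b η x / brg209_mass a b η := by
      rcases le_total b x with hx | hx
      · rw [brg209_plat_zero_right hη hx]; simp
      · rw [brg209_step_one hη hab (by linarith), mul_one]
    have e2 : brg209_step a b η x * (brg209_plat a b η (ℓ - x) / brg209_mass a b η)
        = brg209_plat a b η (ℓ - x) / brg209_mass a b η := by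
      rcases le_total b (ℓ - x) with hx | hx
      · rw [brg209_plat_zero_right hη hx]; simp
      · rw [brg209_step_one hη hab (by linarith), one_mul]
    rw [e1, mul_neg, e2]; ring
  rw [e] at h
  exact h

theorem brg209_cut_deriv {a b η ℓ : ℝ} (hη : 0 < η) (hab : a + 2 * η < b) (hℓ : 2 * b ≤ ℓ) :
    deriv (brg209_cut a b η ℓ) = brg209_dcut a b η ℓ :=
  funext fun x => (brg209_cut_hasDerivAt hη hab hℓ x).deriv

theorem brg209_dcut_sq {a b η ℓ : ℝ} (hη : 0 < η) (hℓ : 2 * b ≤ ℓ) (x : ℝ) :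
    brg209_dcut a b η ℓ x ^ 2 = (brg209_plat a b η x / brg209_mass a b η) ^ 2
      + (brg209_plat a b η (ℓ - x) / brg209_mass a b η) ^ 2 := by
  unfold brg209_dcut
  have : brg209_plat a b η x * brg209_plat a b η (ℓ - x) = 0 := by
    rcases le_total b x with hx | hx
    · rw [brg209_plat_zero_right hη hx, zero_mul]
    · rw [brg209_plat_zero_right (y := ℓ - x) hη (by linarith), mul_zero]
  have h2 : brg209_plat a b η x / brg209_mass a b η * (brg209_plat a b η (ℓ - x) / brg209_mass a b η)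
      = 0 := by
    rw [div_mul_div_comm, this, zero_div]
  nlinarith [h2]


/-! ## 4. One-dimensional integrals of the cutoff -/

theorem brg209_int_restrict {f : ℝ → ℝ} (hf : Continuous f) {a b p q : ℝ} (hpa : p ≤ a) (hbq : b ≤ q)
    (h1 : ∀ x, x ≤ a → f x = 0) (h2 : ∀ x, b ≤ x → f x = 0) :
    ∫ x in p..q, f x = ∫ x in a..b, f x := by
  rw [← intervalIntegral.integral_add_adjacent_intervals (hf.intervalIntegrable p a)
    (hf.intervalIntegrable a q), ← intervalIntegral.integral_add_adjacent_intervals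
    (hf.intervalIntegrable a b) (hf.intervalIntegrable b q)]
  have e1 : ∫ x in p..a, f x = ∫ _x in p..a, (0 : ℝ) := by
    refine intervalIntegral.integral_congr (fun x hx => ?_)
    rw [uIcc_of_le hpa] at hx
    exact h1 x hx.2
  have e2 : ∫ x in b..q, f x = ∫ _x in b..q, (0 : ℝ) := by
    refine intervalIntegral.integral_congr (fun x hx => ?_)
    rw [uIcc_of_le hbq] at hx
    exact h2 x hx.1
  rw [e1, e2]; simp

theorem brg209_int_dcut_sq {a b η ℓ : ℝ} (hη : 0 < η) (ha : 0 ≤ a) (hab : a + 2 * η < b)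
    (hℓ : 2 * b ≤ ℓ) : ∫ x in (0 : ℝ)..ℓ, brg209_dcut a b η ℓ x ^ 2 = 2 * brg209_en a b η := by
  have hc := brg209_plat_continuous a b η
  have hc2 : Continuous fun x => (brg209_plat a b η x / brg209_mass a b η) ^ 2 :=
    (hc.div_const _).pow 2
  have hc3 : Continuous fun x => (brg209_plat a b η (ℓ - x) / brg209_mass a b η) ^ 2 :=
    hc2.comp (continuous_const.sub continuous_id)
  simp_rw [brg209_dcut_sq hη hℓ]
  rw [intervalIntegral.integral_add (hc2.intervalIntegrable _ _) (hc3.intervalIntegrable _ _)]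
  have e2 : ∫ x in (0 : ℝ)..ℓ, (brg209_plat a b η (ℓ - x) / brg209_mass a b η) ^ 2
      = ∫ x in (0 : ℝ)..ℓ, (brg209_plat a b η x / brg209_mass a b η) ^ 2 := by
    rw [intervalIntegral.integral_comp_sub_left
      (fun x => (brg209_plat a b η x / brg209_mass a b η) ^ 2) ℓ]
    simp
  have e1 : ∫ x in (0 : ℝ)..ℓ, (brg209_plat a b η x / brg209_mass a b η) ^ 2 = brg209_en a b η := by
    unfold brg209_en
    refine brg209_int_restrict hc2 ha (by linarith) (fun x hx => ?_) (fun x hx => ?_)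
    · rw [brg209_plat_zero_left hη hx]; simp
    · rw [brg209_plat_zero_right hη hx]; simp
  rw [e2, e1]; ring

theorem brg209_int_cut_sq_le {a b η ℓ : ℝ} (hη : 0 < η) (hab : a + 2 * η < b) (hℓ : 0 ≤ ℓ) :
    ∫ x in (0 : ℝ)..ℓ, brg209_cut a b η ℓ x ^ 2 ≤ ℓ := by
  have hc := (brg209_cut_contDiff a b η ℓ).continuous
  have h : ∫ x in (0 : ℝ)..ℓ, brg209_cut a b η ℓ x ^ 2 ≤ ∫ _x in (0 : ℝ)..ℓ, (1 : ℝ) :=
    intervalIntegral.integral_mono_on hℓ ((hc.pow 2).intervalIntegrable _ _) intervalIntegrable_const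
      (fun x _ => pow_le_one₀ (brg209_cut_nonneg hη hab ℓ x) (brg209_cut_le_one hη hab ℓ x))
  simpa using h

theorem brg209_le_int_cut_sq {a b η ℓ : ℝ} (hη : 0 < η) (ha : 0 ≤ a) (hab : a + 2 * η < b)
    (hℓ : 2 * b ≤ ℓ) : ℓ - 2 * b ≤ ∫ x in (0 : ℝ)..ℓ, brg209_cut a b η ℓ x ^ 2 := by
  have hc : Continuous fun x => brg209_cut a b η ℓ x ^ 2 :=
    (brg209_cut_contDiff a b η ℓ).continuous.pow 2
  have hb : 0 ≤ b := by linarith
  rw [← intervalIntegral.integral_add_adjacent_intervals (hc.intervalIntegrable 0 b)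
    (hc.intervalIntegrable b ℓ), ← intervalIntegral.integral_add_adjacent_intervals
    (hc.intervalIntegrable b (ℓ - b)) (hc.intervalIntegrable (ℓ - b) ℓ)]
  have h1 : 0 ≤ ∫ x in (0 : ℝ)..b, brg209_cut a b η ℓ x ^ 2 :=
    intervalIntegral.integral_nonneg hb (fun x _ => sq_nonneg _)
  have h3 : 0 ≤ ∫ x in (ℓ - b)..ℓ, brg209_cut a b η ℓ x ^ 2 :=
    intervalIntegral.integral_nonneg (by linarith) (fun x _ => sq_nonneg _)
  have h2 : ∫ x in b..(ℓ - b), brg209_cut a b η ℓ x ^ 2 = ℓ - 2 * b := by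
    have : ∫ x in b..(ℓ - b), brg209_cut a b η ℓ x ^ 2 = ∫ _x in b..(ℓ - b), (1 : ℝ) := by
      refine intervalIntegral.integral_congr (fun x hx => ?_)
      rw [uIcc_of_le (by linarith)] at hx
      rw [brg209_cut_one hη hab hx.1 hx.2, one_pow]
    rw [this]; simp; ring
  rw [h2]; linarith

/-- integration by parts: `∫ cut * cut'' = - ∫ cut'^2`. -/
theorem brg209_int_cut_ddcut {a b η ℓ : ℝ} (hη : 0 < η) (ha : 0 ≤ a) (hab : a + 2 * η < b)
    (hℓ : 2 * b ≤ ℓ) :
    ∫ x in (0 : ℝ)..ℓ, brg209_cut a b η ℓ x * deriv (brg209_dcut a b η ℓ) x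
      = -(2 * brg209_en a b η) := by
  have hd := brg209_dcut_contDiff a b η ℓ
  have hdd : ContDiff ℝ ∞ (deriv (brg209_dcut a b η ℓ)) := (contDiff_infty_iff_deriv.1 hd).2
  have h := intervalIntegral.integral_mul_deriv_eq_deriv_mul (a := (0 : ℝ)) (b := ℓ)
    (u := brg209_cut a b η ℓ) (v := brg209_dcut a b η ℓ) (u' := brg209_dcut a b η ℓ)
    (v' := deriv (brg209_dcut a b η ℓ))
    (fun x _ => brg209_cut_hasDerivAt hη hab hℓ x)
    (fun x _ => ((contDiff_infty_iff_deriv.1 hd).1 x).hasDerivAt)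
    (hd.continuous.intervalIntegrable _ _) (hdd.continuous.intervalIntegrable _ _)
  rw [h, brg209_cut_zero_left hη ha, brg209_cut_zero_right hη (by linarith)]
  have : ∫ x in (0 : ℝ)..ℓ, brg209_dcut a b η ℓ x * brg209_dcut a b η ℓ x
      = ∫ x in (0 : ℝ)..ℓ, brg209_dcut a b η ℓ x ^ 2 := by
    refine intervalIntegral.integral_congr (fun x _ => ?_)
    ring
  rw [this, brg209_int_dcut_sq hη ha hab hℓ]; ring


theorem brg209_dcut_zero_left {a b η ℓ x : ℝ} (hη : 0 < η) (hab : a + 2 * η < b) (hℓ : 2 * b ≤ ℓ)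
    (hx : x ≤ a) : brg209_dcut a b η ℓ x = 0 := by
  unfold brg209_dcut
  rw [brg209_plat_zero_left hη hx, brg209_plat_zero_right (y := ℓ - x) hη (by linarith)]; simp

theorem brg209_dcut_zero_right {a b η ℓ x : ℝ} (hη : 0 < η) (hab : a + 2 * η < b) (hℓ : 2 * b ≤ ℓ)
    (hx : ℓ - a ≤ x) : brg209_dcut a b η ℓ x = 0 := by
  unfold brg209_dcut
  rw [brg209_plat_zero_right (y := x) hη (by linarith),
    brg209_plat_zero_left (y := ℓ - x) hη (by linarith)]; simp

theorem brg209_ddcut_zero_left {a b η ℓ x : ℝ} (hη : 0 < η) (hab : a + 2 * η < b) (hℓ : 2 * b ≤ ℓ)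
    (hx : x < a) : deriv (brg209_dcut a b η ℓ) x = 0 := by
  have : brg209_dcut a b η ℓ =ᶠ[𝓝 x] fun _ => (0 : ℝ) := by
    filter_upwards [Iio_mem_nhds hx] with y hy
    exact brg209_dcut_zero_left hη hab hℓ (le_of_lt hy)
  rw [this.deriv_eq]; simp

theorem brg209_ddcut_zero_right {a b η ℓ x : ℝ} (hη : 0 < η) (hab : a + 2 * η < b) (hℓ : 2 * b ≤ ℓ)
    (hx : ℓ - a < x) : deriv (brg209_dcut a b η ℓ) x = 0 := by
  have : brg209_dcut a b η ℓ =ᶠ[𝓝 x] fun _ => (0 : ℝ) := by
    filter_upwards [Ioi_mem_nhds hx] with y hy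
    exact brg209_dcut_zero_right hη hab hℓ (le_of_lt hy)
  rw [this.deriv_eq]; simp

theorem brg209_ddcut_contDiff (a b η ℓ : ℝ) : ContDiff ℝ ∞ (deriv (brg209_dcut a b η ℓ)) :=
  (contDiff_infty_iff_deriv.1 (brg209_dcut_contDiff a b η ℓ)).2

/-! ## 5. The capacitary test on the rectangle `(0,ρ) × (0,1)` -/

/-- the rectangle -/
def brg209_D (ρ : ℝ) : Set (ℝ × ℝ) := Ioo 0 ρ ×ˢ Ioo 0 1

/-- the compact core that carries the test -/
def brg209_K (ρ d : ℝ) : Set (ℝ × ℝ) := Icc (1 / 4) (ρ - 1 / 4) ×ˢ Icc d (1 - d)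

/-- horizontal cutoff: `1` on `[3/4, ρ - 3/4]`, `0` outside `(1/4, ρ - 1/4)` -/
noncomputable def brg209_chi (ρ : ℝ) : ℝ → ℝ := brg209_cut (1 / 4) (3 / 4) (1 / 8) ρ

/-- vertical profile: smoothed tent, `1` on `[1/2 - d, 1/2 + d]`, `0` outside `(d, 1 - d)`, slope `≤ 2/(1-8d)` -/
noncomputable def brg209_g (d : ℝ) : ℝ → ℝ := brg209_cut d (1 / 2 - d) d 1

noncomputable def brg209_chi2 (ρ : ℝ) : ℝ → ℝ := deriv (brg209_dcut (1 / 4) (3 / 4) (1 / 8) ρ)

noncomputable def brg209_g2 (d : ℝ) : ℝ → ℝ := deriv (brg209_dcut d (1 / 2 - d) d 1)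

/-- the smooth capacitary potential `w = χ(x) g(y)` -/
noncomputable def brg209_w (ρ d : ℝ) (z : ℝ × ℝ) : ℝ := brg209_chi ρ z.1 * brg209_g d z.2

/-- the test function `φ = -Δ w` -/
noncomputable def brg209_phi (ρ d : ℝ) (z : ℝ × ℝ) : ℝ :=
  -(brg209_chi2 ρ z.1 * brg209_g d z.2 + brg209_chi ρ z.1 * brg209_g2 d z.2)

/-- its Dirichlet energy -/
noncomputable def brg209_E (ρ d : ℝ) : ℝ :=
  2 * brg209_en (1 / 4) (3 / 4) (1 / 8) * (∫ y in (0 : ℝ)..1, brg209_g d y ^ 2)
    + (∫ x in (0 : ℝ)..ρ, brg209_chi ρ x ^ 2) * (2 * brg209_en d (1 / 2 - d) d)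

theorem brg209_w_contDiff (ρ d : ℝ) : ContDiff ℝ ∞ (brg209_w ρ d) := by
  unfold brg209_w
  exact ((brg209_cut_contDiff _ _ _ _).comp contDiff_fst).mul
    ((brg209_cut_contDiff _ _ _ _).comp contDiff_snd)

theorem brg209_phi_contDiff (ρ d : ℝ) : ContDiff ℝ ∞ (brg209_phi ρ d) := by
  unfold brg209_phi
  exact ((((brg209_ddcut_contDiff _ _ _ _).comp contDiff_fst).mul
    ((brg209_cut_contDiff _ _ _ _).comp contDiff_snd)).add
    (((brg209_cut_contDiff _ _ _ _).comp contDiff_fst).mul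
    ((brg209_ddcut_contDiff _ _ _ _).comp contDiff_snd))).neg

theorem brg209_K_compact (ρ d : ℝ) : IsCompact (brg209_K ρ d) := isCompact_Icc.prod isCompact_Icc

theorem brg209_K_subset {ρ d : ℝ} (hd : 0 < d) : brg209_K ρ d ⊆ brg209_D ρ := by
  rintro ⟨x, y⟩ ⟨⟨h1, h2⟩, ⟨h3, h4⟩⟩
  simp only at h1 h2 h3 h4
  exact ⟨⟨by linarith, by linarith⟩, ⟨by linarith, by linarith⟩⟩

theorem brg209_D_open (ρ : ℝ) : IsOpen (brg209_D ρ) := isOpen_Ioo.prod isOpen_Ioo

theorem brg209_D_bounded (ρ : ℝ) : Bornology.IsBounded (brg209_D ρ) :=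
  (Metric.isBounded_Ioo _ _).prod (Metric.isBounded_Ioo _ _)

theorem brg209_w_zero {ρ d : ℝ} (hd : 0 < d) {z : ℝ × ℝ} (hz : z ∉ brg209_K ρ d) :
    brg209_w ρ d z = 0 := by
  unfold brg209_w brg209_chi brg209_g
  by_cases h1 : z.1 ≤ 1 / 4
  · rw [brg209_cut_zero_left (by norm_num) h1, zero_mul]
  by_cases h2 : ρ - 1 / 4 ≤ z.1
  · rw [brg209_cut_zero_right (by norm_num) h2, zero_mul]
  by_cases h3 : z.2 ≤ d
  · rw [brg209_cut_zero_left (x := z.2) hd h3, mul_zero]
  by_cases h4 : 1 - d ≤ z.2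
  · rw [brg209_cut_zero_right (x := z.2) hd h4, mul_zero]
  exact absurd ⟨⟨by linarith, by linarith⟩, ⟨by linarith, by linarith⟩⟩ hz

theorem brg209_phi_zero {ρ d : ℝ} (hρ : 3 / 2 ≤ ρ) (hd : 0 < d) (hd' : d < 1 / 8) {z : ℝ × ℝ}
    (hz : z ∉ brg209_K ρ d) : brg209_phi ρ d z = 0 := by
  unfold brg209_phi brg209_chi brg209_g brg209_chi2 brg209_g2
  by_cases h1 : z.1 < 1 / 4
  · rw [brg209_cut_zero_left (by norm_num) h1.le,
      brg209_ddcut_zero_left (by norm_num) (by norm_num) (by linarith) h1]; simp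
  by_cases h2 : ρ - 1 / 4 < z.1
  · rw [brg209_cut_zero_right (by norm_num) h2.le,
      brg209_ddcut_zero_right (by norm_num) (by norm_num) (by linarith) h2]; simp
  by_cases h3 : z.2 < d
  · rw [brg209_cut_zero_left (x := z.2) hd h3.le,
      brg209_ddcut_zero_left (x := z.2) hd (by linarith) (by linarith) h3]; simp
  by_cases h4 : 1 - d < z.2
  · rw [brg209_cut_zero_right (x := z.2) hd h4.le,
      brg209_ddcut_zero_right (x := z.2) hd (by linarith) (by linarith) h4]; simp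
  exact absurd ⟨⟨by linarith, by linarith⟩, ⟨by linarith, by linarith⟩⟩ hz

theorem brg209_phi_tsupport {ρ d : ℝ} (hρ : 3 / 2 ≤ ρ) (hd : 0 < d) (hd' : d < 1 / 8) :
    tsupport (brg209_phi ρ d) ⊆ brg209_K ρ d := by
  refine closure_minimal (fun z hz => ?_) (brg209_K_compact ρ d).isClosed
  by_contra h
  exact hz (brg209_phi_zero hρ hd hd' h)

theorem brg209_phi_compact {ρ d : ℝ} (hρ : 3 / 2 ≤ ρ) (hd : 0 < d) (hd' : d < 1 / 8) :
    HasCompactSupport (brg209_phi ρ d) :=
  HasCompactSupport.intro (brg209_K_compact ρ d) (fun _ hz => brg209_phi_zero hρ hd hd' hz)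

theorem brg209_w_frontier {ρ d : ℝ} (hd : 0 < d) {z : ℝ × ℝ} (hz : z ∈ frontier (brg209_D ρ)) :
    brg209_w ρ d z = 0 := by
  rw [(brg209_D_open ρ).frontier_eq] at hz
  exact brg209_w_zero hd (fun h => hz.2 (brg209_K_subset hd h))

theorem brg209_lap {ρ d : ℝ} (hρ : 3 / 2 ≤ ρ) (hd : 0 < d) (hd' : d < 1 / 8) (z : ℝ × ℝ) :
    -Claims.C0468.lap2 (brg209_w ρ d) z = brg209_phi ρ d z := by
  unfold Claims.C0468.lap2 brg209_w brg209_phi brg209_chi2 brg209_g2
  have e1 : (fun s => deriv (fun t => brg209_chi ρ t * brg209_g d z.2) s)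
      = fun s => brg209_dcut (1 / 4) (3 / 4) (1 / 8) ρ s * brg209_g d z.2 := by
    funext s
    exact ((brg209_cut_hasDerivAt (by norm_num) (by norm_num) (by linarith) s).mul_const _).deriv
  have e2 : (fun s => deriv (fun t => brg209_chi ρ z.1 * brg209_g d t) s)
      = fun s => brg209_chi ρ z.1 * brg209_dcut d (1 / 2 - d) d 1 s := by
    funext s
    exact ((brg209_cut_hasDerivAt hd (by linarith) (by linarith) s).const_mul _).deriv
  simp only
  rw [e1, e2]
  rw [deriv_mul_const ((contDiff_infty_iff_deriv.1 (brg209_dcut_contDiff _ _ _ _)).1 _),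
    deriv_const_mul _ ((contDiff_infty_iff_deriv.1 (brg209_dcut_contDiff _ _ _ _)).1 _)]


theorem brg209_lap_smul {ρ d : ℝ} (hρ : 3 / 2 ≤ ρ) (hd : 0 < d) (hd' : d < 1 / 8) (a : ℝ)
    (z : ℝ × ℝ) :
    -Claims.C0468.lap2 (fun z => a * brg209_w ρ d z) z = a * brg209_phi ρ d z := by
  unfold Claims.C0468.lap2 brg209_w brg209_phi brg209_chi2 brg209_g2
  have e1 : (fun s => deriv (fun t => a * (brg209_chi ρ t * brg209_g d z.2)) s)
      = fun s => a * (brg209_dcut (1 / 4) (3 / 4) (1 / 8) ρ s * brg209_g d z.2) := by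
    funext s
    exact (((brg209_cut_hasDerivAt (by norm_num) (by norm_num) (by linarith) s).mul_const
      _).const_mul a).deriv
  have e2 : (fun s => deriv (fun t => a * (brg209_chi ρ z.1 * brg209_g d t)) s)
      = fun s => a * (brg209_chi ρ z.1 * brg209_dcut d (1 / 2 - d) d 1 s) := by
    funext s
    exact (((brg209_cut_hasDerivAt hd (by linarith) (by linarith) s).const_mul _).const_mul a).deriv
  have d1 : ∀ x, DifferentiableAt ℝ (brg209_dcut (1 / 4) (3 / 4) (1 / 8) ρ) x :=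
    (contDiff_infty_iff_deriv.1 (brg209_dcut_contDiff _ _ _ _)).1
  have d2 : ∀ x, DifferentiableAt ℝ (brg209_dcut d (1 / 2 - d) d 1) x :=
    (contDiff_infty_iff_deriv.1 (brg209_dcut_contDiff _ _ _ _)).1
  simp only
  rw [e1, e2]
  rw [deriv_const_mul _ ((d1 _).mul_const _), deriv_const_mul _ ((d2 _).const_mul _),
    deriv_mul_const (d1 _), deriv_const_mul _ (d2 _)]
  ring

/-! ## 6. The energy identity `∫_D φ w = E` and the bounds `4 (ρ - 3/2) ≤ E ≤ 4 ρ / (1 - 8 d) + 8` -/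

theorem brg209_setInt_Ioo {f : ℝ → ℝ} {a b : ℝ} (hab : a ≤ b) :
    ∫ x in Ioo a b, f x = ∫ x in a..b, f x := by
  rw [intervalIntegral.integral_of_le hab, integral_Ioc_eq_integral_Ioo]

theorem brg209_integrableOn_Ioo {f : ℝ → ℝ} (hf : Continuous f) (a b : ℝ) :
    Integrable f (volume.restrict (Ioo a b)) :=
  (hf.integrableOn_Icc (a := a) (b := b)).mono_set Ioo_subset_Icc_self

theorem brg209_energy {ρ d : ℝ} (hρ : 3 / 2 ≤ ρ) (hd : 0 < d) (hd' : d < 1 / 8) :
    ∫ z in brg209_D ρ, brg209_phi ρ d z * brg209_w ρ d z = brg209_E ρ d := by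
  have hvol : (volume : Measure (ℝ × ℝ)).restrict (brg209_D ρ)
      = (volume.restrict (Ioo 0 ρ)).prod (volume.restrict (Ioo 0 1)) := by
    rw [Measure.volume_eq_prod, Measure.prod_restrict]; rfl
  have cχ : Continuous (brg209_chi ρ) := (brg209_cut_contDiff _ _ _ _).continuous
  have cg : Continuous (brg209_g d) := (brg209_cut_contDiff _ _ _ _).continuous
  have cχ2 : Continuous (brg209_chi2 ρ) := (brg209_ddcut_contDiff _ _ _ _).continuous
  have cg2 : Continuous (brg209_g2 d) := (brg209_ddcut_contDiff _ _ _ _).continuous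
  have e : ∀ z : ℝ × ℝ, brg209_phi ρ d z * brg209_w ρ d z
      = (-(brg209_chi ρ z.1 * brg209_chi2 ρ z.1)) * (brg209_g d z.2 ^ 2)
        + (brg209_chi ρ z.1 ^ 2) * (-(brg209_g d z.2 * brg209_g2 d z.2)) := by
    intro z; unfold brg209_phi brg209_w; ring
  simp_rw [e]
  rw [hvol, integral_add,
    integral_prod_mul (fun x => -(brg209_chi ρ x * brg209_chi2 ρ x)) (fun y => brg209_g d y ^ 2),
    integral_prod_mul (fun x => brg209_chi ρ x ^ 2) (fun y => -(brg209_g d y * brg209_g2 d y))]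
  · rw [brg209_setInt_Ioo (by linarith), brg209_setInt_Ioo (by norm_num),
      brg209_setInt_Ioo (by linarith), brg209_setInt_Ioo (by norm_num)]
    rw [intervalIntegral.integral_neg, intervalIntegral.integral_neg]
    have h1 := brg209_int_cut_ddcut (a := 1 / 4) (b := 3 / 4) (η := 1 / 8) (ℓ := ρ) (by norm_num)
      (by norm_num) (by norm_num) (by linarith)
    have h2 := brg209_int_cut_ddcut (a := d) (b := 1 / 2 - d) (η := d) (ℓ := 1) hd hd.le
      (by linarith) (by linarith)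
    unfold brg209_chi brg209_chi2 brg209_g brg209_g2 brg209_E
    rw [h1, h2]
    unfold brg209_chi brg209_g
    ring
  · exact Integrable.mul_prod (brg209_integrableOn_Ioo (cχ.mul cχ2).neg _ _)
      (brg209_integrableOn_Ioo (cg.pow 2) _ _)
  · exact Integrable.mul_prod (brg209_integrableOn_Ioo (cχ.pow 2) _ _)
      (brg209_integrableOn_Ioo (cg.mul cg2).neg _ _)

theorem brg209_E_le {ρ d : ℝ} (hρ : 3 / 2 ≤ ρ) (hd : 0 < d) (hd' : d < 1 / 8) :
    brg209_E ρ d ≤ 4 * ρ / (1 - 8 * d) + 8 := by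
  unfold brg209_E
  have a1 : brg209_en (1 / 4) (3 / 4) (1 / 8) ≤ 4 := by
    have := brg209_en_le (a := 1 / 4) (b := 3 / 4) (η := 1 / 8) (by norm_num) (by norm_num)
    norm_num at this ⊢; exact this
  have a0 : 0 ≤ brg209_en (1 / 4) (3 / 4) (1 / 8) :=
    le_trans (by norm_num) (brg209_le_en (a := 1 / 4) (b := 3 / 4) (η := 1 / 8) (by norm_num)
      (by norm_num))
  have b1 : brg209_en d (1 / 2 - d) d ≤ 2 / (1 - 8 * d) := by
    have := brg209_en_le (a := d) (b := 1 / 2 - d) (η := d) hd (by linarith)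
    have e : 1 / (1 / 2 - d - d - 2 * d) = 2 / (1 - 8 * d) := by
      have h1 : (1 - 8 * d) ≠ 0 := by linarith
      have h2 : (1 / 2 - d - d - 2 * d) ≠ 0 := by linarith
      field_simp; ring
    rwa [e] at this
  have b0 : 0 ≤ brg209_en d (1 / 2 - d) d :=
    le_trans (one_div_nonneg.2 (by linarith)) (brg209_le_en (a := d) (b := 1 / 2 - d) (η := d) hd
      (by linarith))
  have c1 : ∫ y in (0 : ℝ)..1, brg209_g d y ^ 2 ≤ 1 :=
    brg209_int_cut_sq_le hd (by linarith) (by norm_num)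
  have c0 : 0 ≤ ∫ y in (0 : ℝ)..1, brg209_g d y ^ 2 :=
    intervalIntegral.integral_nonneg (by norm_num) (fun _ _ => sq_nonneg _)
  have d1 : ∫ x in (0 : ℝ)..ρ, brg209_chi ρ x ^ 2 ≤ ρ :=
    brg209_int_cut_sq_le (by norm_num) (by norm_num) (by linarith)
  have d0 : 0 ≤ ∫ x in (0 : ℝ)..ρ, brg209_chi ρ x ^ 2 :=
    intervalIntegral.integral_nonneg (by linarith) (fun _ _ => sq_nonneg _)
  have t1 : 2 * brg209_en (1 / 4) (3 / 4) (1 / 8) * (∫ y in (0 : ℝ)..1, brg209_g d y ^ 2) ≤ 8 * 1 :=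
    mul_le_mul (by linarith) c1 c0 (by norm_num)
  have t2 : (∫ x in (0 : ℝ)..ρ, brg209_chi ρ x ^ 2) * (2 * brg209_en d (1 / 2 - d) d)
      ≤ ρ * (2 * (2 / (1 - 8 * d))) := mul_le_mul d1 (by linarith) (by linarith) (by linarith)
  have e : ρ * (2 * (2 / (1 - 8 * d))) = 4 * ρ / (1 - 8 * d) := by ring
  linarith

theorem brg209_le_E {ρ d : ℝ} (hρ : 3 / 2 ≤ ρ) (hd : 0 < d) (hd' : d < 1 / 8) :
    4 * (ρ - 3 / 2) ≤ brg209_E ρ d := by
  unfold brg209_E
  have a0 : 0 ≤ brg209_en (1 / 4) (3 / 4) (1 / 8) :=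
    le_trans (by norm_num) (brg209_le_en (a := 1 / 4) (b := 3 / 4) (η := 1 / 8) (by norm_num)
      (by norm_num))
  have b1 : 2 ≤ brg209_en d (1 / 2 - d) d := by
    have := brg209_le_en (a := d) (b := 1 / 2 - d) (η := d) hd (by linarith)
    refine le_trans ?_ this
    rw [le_div_iff₀ (by linarith)]; linarith
  have c0 : 0 ≤ ∫ y in (0 : ℝ)..1, brg209_g d y ^ 2 :=
    intervalIntegral.integral_nonneg (by norm_num) (fun _ _ => sq_nonneg _)
  have d1 : ρ - 2 * (3 / 4) ≤ ∫ x in (0 : ℝ)..ρ, brg209_chi ρ x ^ 2 :=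
    brg209_le_int_cut_sq (by norm_num) (by norm_num) (by norm_num) (by linarith)
  have t2 : (ρ - 2 * (3 / 4)) * 4 ≤ (∫ x in (0 : ℝ)..ρ, brg209_chi ρ x ^ 2)
      * (2 * brg209_en d (1 / 2 - d) d) := mul_le_mul d1 (by linarith) (by norm_num) (by linarith)
  have t1 : 0 ≤ 2 * brg209_en (1 / 4) (3 / 4) (1 / 8) * (∫ y in (0 : ℝ)..1, brg209_g d y ^ 2) :=
    mul_nonneg (by linarith) c0
  linarith

theorem brg209_E_pos {ρ d : ℝ} (hρ : 3 / 2 < ρ) (hd : 0 < d) (hd' : d < 1 / 8) : 0 < brg209_E ρ d :=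
  lt_of_lt_of_le (by linarith) (brg209_le_E hρ.le hd hd')

/-! ## 7. Shape of `w` -/

theorem brg209_w_nonneg {ρ d : ℝ} (hd : 0 < d) (hd' : d < 1 / 8) (z : ℝ × ℝ) : 0 ≤ brg209_w ρ d z :=
  mul_nonneg (brg209_cut_nonneg (by norm_num) (by norm_num) _ _)
    (brg209_cut_nonneg hd (by linarith) _ _)

theorem brg209_w_le_one {ρ d : ℝ} (hd : 0 < d) (hd' : d < 1 / 8) (z : ℝ × ℝ) : brg209_w ρ d z ≤ 1 :=
  mul_le_one₀ (brg209_cut_le_one (by norm_num) (by norm_num) _ _)
    (brg209_cut_nonneg hd (by linarith) _ _) (brg209_cut_le_one hd (by linarith) _ _)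

/-- `w = 1` on the plate `[3/4, ρ - 3/4] × [1/2 - d, 1/2 + d]`. -/
theorem brg209_w_one {ρ d : ℝ} (hd : 0 < d) (hd' : d < 1 / 8) {z : ℝ × ℝ}
    (h1 : 3 / 4 ≤ z.1) (h2 : z.1 ≤ ρ - 3 / 4) (h3 : 1 / 2 - d ≤ z.2) (h4 : z.2 ≤ 1 / 2 + d) :
    brg209_w ρ d z = 1 := by
  unfold brg209_w brg209_chi brg209_g
  rw [brg209_cut_one (by norm_num) (by norm_num) h1 h2,
    brg209_cut_one hd (by linarith) h3 (by linarith), one_mul]

/-! ## 8. Instantiation of `AtFlatGFF` -/

/-- **The capacitary test in the flat limit.**  The pairing with `a • φ`, `φ = -Δ w`, has in the limit the Wick moments of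
variance `v a² E`, `4 (ρ - 3/2) ≤ E ≤ 4 ρ / (1 - 8 d) + 8`.  (`a = 1 / E`: variance `v / E`, the normalised test.) -/
theorem brg209_flat {t v : ℝ} (h : AtFlatGFF t v) {ρ d : ℝ} (hρ : 3 / 2 ≤ ρ) (hd : 0 < d)
    (hd' : d < 1 / 8)
    (hJ : ∃ γ : Circle → ℝ × ℝ, Continuous γ ∧ Function.Injective γ ∧
      Set.range γ = frontier (brg209_D ρ))
    (δ : ℕ → ℝ) (F : ℕ → Finset (ℤ × ℤ)) (happ : Claims.C0468.IsAdmissibleApprox (brg209_D ρ) δ F)
    (a : ℝ) (k : ℕ) :
    Tendsto (fun n => Claims.C0468.atExpect t (δ n) (F n) (fun z => a * brg209_phi ρ d z)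
      (fun s => s ^ k)) atTop (𝓝 (Claimed.Agent.R291.tmmWick (v * (a ^ 2 * brg209_E ρ d)) k)) := by
  have H := h (brg209_D ρ) (brg209_D_open ρ) (brg209_D_bounded ρ) hJ δ F happ
    (fun z => a * brg209_phi ρ d z) (contDiff_const.mul (brg209_phi_contDiff ρ d))
    ((brg209_phi_compact hρ hd hd').mul_left)
    ((tsupport_mul_subset_right).trans ((brg209_phi_tsupport hρ hd hd').trans (brg209_K_subset hd)))
    (fun z => a * brg209_w ρ d z)
    ((contDiff_const.mul (brg209_w_contDiff ρ d)).contDiffOn.of_le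
      (WithTop.coe_le_coe.2 le_top))
    (continuous_const.mul (brg209_w_contDiff ρ d).continuous).continuousOn
    (fun z hz => by rw [brg209_w_frontier hd hz, mul_zero])
    (fun z _ => ?_) k
  · have e : ∫ z in brg209_D ρ, a * brg209_phi ρ d z * (a * brg209_w ρ d z)
        = a ^ 2 * brg209_E ρ d := by
      rw [← brg209_energy hρ hd hd', ← integral_const_mul]
      congr 1; funext z; ring
    rwa [e] at H
  · exact brg209_lap_smul hρ hd hd' a z

/-! ## 9. The asymmetric cutoff `cutA = step a b η x * step a' b' η' (ℓ - x)` -/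

noncomputable def brg209_cutA (a b η a' b' η' ℓ : ℝ) (x : ℝ) : ℝ :=
  brg209_step a b η x * brg209_step a' b' η' (ℓ - x)

noncomputable def brg209_dcutA (a b η a' b' η' ℓ : ℝ) (x : ℝ) : ℝ :=
  brg209_plat a b η x / brg209_mass a b η - brg209_plat a' b' η' (ℓ - x) / brg209_mass a' b' η'

theorem brg209_cutA_contDiff (a b η a' b' η' ℓ : ℝ) :
    ContDiff ℝ ∞ (brg209_cutA a b η a' b' η' ℓ) := by
  unfold brg209_cutA
  exact (brg209_step_contDiff a b η).mul
    ((brg209_step_contDiff a' b' η').comp (contDiff_const.sub contDiff_id))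

theorem brg209_dcutA_contDiff (a b η a' b' η' ℓ : ℝ) :
    ContDiff ℝ ∞ (brg209_dcutA a b η a' b' η' ℓ) := by
  unfold brg209_dcutA
  exact ((brg209_plat_contDiff a b η).div_const _).sub
    (((brg209_plat_contDiff a' b' η').comp (contDiff_const.sub contDiff_id)).div_const _)

theorem brg209_ddcutA_contDiff (a b η a' b' η' ℓ : ℝ) :
    ContDiff ℝ ∞ (deriv (brg209_dcutA a b η a' b' η' ℓ)) :=
  (contDiff_infty_iff_deriv.1 (brg209_dcutA_contDiff a b η a' b' η' ℓ)).2

section asym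

variable {a b η a' b' η' ℓ : ℝ}

theorem brg209_cutA_nonneg (hη : 0 < η) (hab : a + 2 * η < b) (hη' : 0 < η') (hab' : a' + 2 * η' < b')
    (ℓ x : ℝ) : 0 ≤ brg209_cutA a b η a' b' η' ℓ x :=
  mul_nonneg (brg209_step_nonneg hη hab _) (brg209_step_nonneg hη' hab' _)

theorem brg209_cutA_le_one (hη : 0 < η) (hab : a + 2 * η < b) (hη' : 0 < η') (hab' : a' + 2 * η' < b')
    (ℓ x : ℝ) : brg209_cutA a b η a' b' η' ℓ x ≤ 1 :=
  mul_le_one₀ (brg209_step_le_one hη hab _) (brg209_step_nonneg hη' hab' _)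
    (brg209_step_le_one hη' hab' _)

theorem brg209_cutA_zero_left {x : ℝ} (hη : 0 < η) (hx : x ≤ a) :
    brg209_cutA a b η a' b' η' ℓ x = 0 := by
  unfold brg209_cutA; rw [brg209_step_zero hη hx, zero_mul]

theorem brg209_cutA_zero_right {x : ℝ} (hη' : 0 < η') (hx : ℓ - a' ≤ x) :
    brg209_cutA a b η a' b' η' ℓ x = 0 := by
  unfold brg209_cutA; rw [brg209_step_zero (y := ℓ - x) hη' (by linarith), mul_zero]

theorem brg209_cutA_one {x : ℝ} (hη : 0 < η) (hab : a + 2 * η < b) (hη' : 0 < η')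
    (hab' : a' + 2 * η' < b') (h1 : b ≤ x) (h2 : x ≤ ℓ - b') :
    brg209_cutA a b η a' b' η' ℓ x = 1 := by
  unfold brg209_cutA
  rw [brg209_step_one hη hab h1, brg209_step_one hη' hab' (by linarith), one_mul]

theorem brg209_cutA_hasDerivAt (hη : 0 < η) (hab : a + 2 * η < b) (hη' : 0 < η')
    (hab' : a' + 2 * η' < b') (hℓ : b + b' ≤ ℓ) (x : ℝ) :
    HasDerivAt (brg209_cutA a b η a' b' η' ℓ) (brg209_dcutA a b η a' b' η' ℓ x) x := by
  have h1 := brg209_step_hasDerivAt a b η x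
  have h2 : HasDerivAt (fun x => brg209_step a' b' η' (ℓ - x))
      (-(brg209_plat a' b' η' (ℓ - x) / brg209_mass a' b' η')) x := by
    have := (brg209_step_hasDerivAt a' b' η' (ℓ - x)).comp x ((hasDerivAt_id x).const_sub ℓ)
    simpa [Function.comp_def] using this
  have h := h1.mul h2
  have e : brg209_plat a b η x / brg209_mass a b η * brg209_step a' b' η' (ℓ - x)
      + brg209_step a b η x * -(brg209_plat a' b' η' (ℓ - x) / brg209_mass a' b' η')
      = brg209_dcutA a b η a' b' η' ℓ x := by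
    unfold brg209_dcutA
    have e1 : brg209_plat a b η x / brg209_mass a b η * brg209_step a' b' η' (ℓ - x)
        = brg209_plat a b η x / brg209_mass a b η := by
      rcases le_total b x with hx | hx
      · rw [brg209_plat_zero_right hη hx]; simp
      · rw [brg209_step_one hη' hab' (by linarith), mul_one]
    have e2 : brg209_step a b η x * (brg209_plat a' b' η' (ℓ - x) / brg209_mass a' b' η')
        = brg209_plat a' b' η' (ℓ - x) / brg209_mass a' b' η' := by
      rcases le_total b' (ℓ - x) with hx | hx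
      · rw [brg209_plat_zero_right hη' hx]; simp
      · rw [brg209_step_one hη hab (by linarith), one_mul]
    rw [e1, mul_neg, e2]; ring
  rw [e] at h
  exact h

theorem brg209_dcutA_sq (hη : 0 < η) (hη' : 0 < η') (hℓ : b + b' ≤ ℓ) (x : ℝ) :
    brg209_dcutA a b η a' b' η' ℓ x ^ 2 = (brg209_plat a b η x / brg209_mass a b η) ^ 2
      + (brg209_plat a' b' η' (ℓ - x) / brg209_mass a' b' η') ^ 2 := by
  unfold brg209_dcutA
  have : brg209_plat a b η x * brg209_plat a' b' η' (ℓ - x) = 0 := by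
    rcases le_total b x with hx | hx
    · rw [brg209_plat_zero_right hη hx, zero_mul]
    · rw [brg209_plat_zero_right (y := ℓ - x) hη' (by linarith), mul_zero]
  have h2 : brg209_plat a b η x / brg209_mass a b η
      * (brg209_plat a' b' η' (ℓ - x) / brg209_mass a' b' η') = 0 := by
    rw [div_mul_div_comm, this, zero_div]
  nlinarith [h2]

theorem brg209_int_plat_sq (hη : 0 < η) (ha : 0 ≤ a) (hb : b ≤ ℓ) :
    ∫ x in (0 : ℝ)..ℓ, (brg209_plat a b η x / brg209_mass a b η) ^ 2 = brg209_en a b η := by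
  unfold brg209_en
  have hc2 : Continuous fun x => (brg209_plat a b η x / brg209_mass a b η) ^ 2 :=
    ((brg209_plat_continuous a b η).div_const _).pow 2
  refine brg209_int_restrict hc2 ha hb (fun x hx => ?_) (fun x hx => ?_)
  · rw [brg209_plat_zero_left hη hx]; simp
  · rw [brg209_plat_zero_right hη hx]; simp

theorem brg209_int_dcutA_sq (hη : 0 < η) (ha : 0 ≤ a) (hab : a + 2 * η < b) (hη' : 0 < η')
    (ha' : 0 ≤ a') (hab' : a' + 2 * η' < b') (hℓ : b + b' ≤ ℓ) :
    ∫ x in (0 : ℝ)..ℓ, brg209_dcutA a b η a' b' η' ℓ x ^ 2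
      = brg209_en a b η + brg209_en a' b' η' := by
  have hc2 : Continuous fun x => (brg209_plat a b η x / brg209_mass a b η) ^ 2 :=
    ((brg209_plat_continuous a b η).div_const _).pow 2
  have hc2' : Continuous fun x => (brg209_plat a' b' η' x / brg209_mass a' b' η') ^ 2 :=
    ((brg209_plat_continuous a' b' η').div_const _).pow 2
  have hc3 : Continuous fun x => (brg209_plat a' b' η' (ℓ - x) / brg209_mass a' b' η') ^ 2 :=
    hc2'.comp (continuous_const.sub continuous_id)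
  simp_rw [brg209_dcutA_sq hη hη' hℓ]
  rw [intervalIntegral.integral_add (hc2.intervalIntegrable _ _) (hc3.intervalIntegrable _ _)]
  have e2 : ∫ x in (0 : ℝ)..ℓ, (brg209_plat a' b' η' (ℓ - x) / brg209_mass a' b' η') ^ 2
      = ∫ x in (0 : ℝ)..ℓ, (brg209_plat a' b' η' x / brg209_mass a' b' η') ^ 2 := by
    rw [intervalIntegral.integral_comp_sub_left
      (fun x => (brg209_plat a' b' η' x / brg209_mass a' b' η') ^ 2) ℓ]
    simp
  rw [e2, brg209_int_plat_sq hη ha (by linarith), brg209_int_plat_sq hη' ha' (by linarith)]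

theorem brg209_int_cutA_sq_le (hη : 0 < η) (hab : a + 2 * η < b) (hη' : 0 < η')
    (hab' : a' + 2 * η' < b') (hℓ : 0 ≤ ℓ) :
    ∫ x in (0 : ℝ)..ℓ, brg209_cutA a b η a' b' η' ℓ x ^ 2 ≤ ℓ := by
  have hc := (brg209_cutA_contDiff a b η a' b' η' ℓ).continuous
  have h : ∫ x in (0 : ℝ)..ℓ, brg209_cutA a b η a' b' η' ℓ x ^ 2 ≤ ∫ _x in (0 : ℝ)..ℓ, (1 : ℝ) :=
    intervalIntegral.integral_mono_on hℓ ((hc.pow 2).intervalIntegrable _ _) intervalIntegrable_const
      (fun x _ => pow_le_one₀ (brg209_cutA_nonneg hη hab hη' hab' ℓ x)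
        (brg209_cutA_le_one hη hab hη' hab' ℓ x))
  simpa using h

theorem brg209_int_cutA_ddcutA (hη : 0 < η) (ha : 0 ≤ a) (hab : a + 2 * η < b) (hη' : 0 < η')
    (ha' : 0 ≤ a') (hab' : a' + 2 * η' < b') (hℓ : b + b' ≤ ℓ) :
    ∫ x in (0 : ℝ)..ℓ, brg209_cutA a b η a' b' η' ℓ x * deriv (brg209_dcutA a b η a' b' η' ℓ) x
      = -(brg209_en a b η + brg209_en a' b' η') := by
  have hd := brg209_dcutA_contDiff a b η a' b' η' ℓ
  have hdd := brg209_ddcutA_contDiff a b η a' b' η' ℓ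
  have h := intervalIntegral.integral_mul_deriv_eq_deriv_mul (a := (0 : ℝ)) (b := ℓ)
    (u := brg209_cutA a b η a' b' η' ℓ) (v := brg209_dcutA a b η a' b' η' ℓ)
    (u' := brg209_dcutA a b η a' b' η' ℓ) (v' := deriv (brg209_dcutA a b η a' b' η' ℓ))
    (fun x _ => brg209_cutA_hasDerivAt hη hab hη' hab' hℓ x)
    (fun x _ => ((contDiff_infty_iff_deriv.1 hd).1 x).hasDerivAt)
    (hd.continuous.intervalIntegrable _ _) (hdd.continuous.intervalIntegrable _ _)
  rw [h, brg209_cutA_zero_left hη ha, brg209_cutA_zero_right hη' (by linarith)]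
  have : ∫ x in (0 : ℝ)..ℓ, brg209_dcutA a b η a' b' η' ℓ x * brg209_dcutA a b η a' b' η' ℓ x
      = ∫ x in (0 : ℝ)..ℓ, brg209_dcutA a b η a' b' η' ℓ x ^ 2 := by
    refine intervalIntegral.integral_congr (fun x _ => ?_)
    ring
  rw [this, brg209_int_dcutA_sq hη ha hab hη' ha' hab' hℓ]; ring

theorem brg209_dcutA_zero_left {x : ℝ} (hη : 0 < η) (hab : a + 2 * η < b) (hη' : 0 < η')
    (hℓ : b + b' ≤ ℓ) (hx : x ≤ a) : brg209_dcutA a b η a' b' η' ℓ x = 0 := by
  unfold brg209_dcutA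
  rw [brg209_plat_zero_left hη hx, brg209_plat_zero_right (y := ℓ - x) hη' (by linarith)]; simp

theorem brg209_dcutA_zero_right {x : ℝ} (hη : 0 < η) (hη' : 0 < η') (hab' : a' + 2 * η' < b')
    (hℓ : b + b' ≤ ℓ) (hx : ℓ - a' ≤ x) : brg209_dcutA a b η a' b' η' ℓ x = 0 := by
  unfold brg209_dcutA
  rw [brg209_plat_zero_right (y := x) hη (by linarith),
    brg209_plat_zero_left (y := ℓ - x) hη' (by linarith)]; simp

theorem brg209_ddcutA_zero_left {x : ℝ} (hη : 0 < η) (hab : a + 2 * η < b) (hη' : 0 < η')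
    (hℓ : b + b' ≤ ℓ) (hx : x < a) : deriv (brg209_dcutA a b η a' b' η' ℓ) x = 0 := by
  have : brg209_dcutA a b η a' b' η' ℓ =ᶠ[𝓝 x] fun _ => (0 : ℝ) := by
    filter_upwards [Iio_mem_nhds hx] with y hy
    exact brg209_dcutA_zero_left hη hab hη' hℓ (le_of_lt hy)
  rw [this.deriv_eq]; simp

theorem brg209_ddcutA_zero_right {x : ℝ} (hη : 0 < η) (hη' : 0 < η') (hab' : a' + 2 * η' < b')
    (hℓ : b + b' ≤ ℓ) (hx : ℓ - a' < x) : deriv (brg209_dcutA a b η a' b' η' ℓ) x = 0 := by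
  have : brg209_dcutA a b η a' b' η' ℓ =ᶠ[𝓝 x] fun _ => (0 : ℝ) := by
    filter_upwards [Ioi_mem_nhds hx] with y hy
    exact brg209_dcutA_zero_right hη hη' hab' hℓ (le_of_lt hy)
  rw [this.deriv_eq]; simp

end asym

/-! ## 10. The capacitary test with the plate at height `y₀` : capacity `ρ (1/y₀ + 1/(1-y₀)) + O(1)` -/

/-- vertical profile: `0 → 1` on `[d, y₀ - d]`, `1` on `[y₀ - d, y₀ + d]`, `1 → 0` on `[y₀ + d, 1 - d]` -/
noncomputable def brg209_gA (d y₀ : ℝ) : ℝ → ℝ := brg209_cutA d (y₀ - d) d d (1 - y₀ - d) d 1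

noncomputable def brg209_gA2 (d y₀ : ℝ) : ℝ → ℝ :=
  deriv (brg209_dcutA d (y₀ - d) d d (1 - y₀ - d) d 1)

noncomputable def brg209_wA (ρ d y₀ : ℝ) (z : ℝ × ℝ) : ℝ := brg209_chi ρ z.1 * brg209_gA d y₀ z.2

noncomputable def brg209_phiA (ρ d y₀ : ℝ) (z : ℝ × ℝ) : ℝ :=
  -(brg209_chi2 ρ z.1 * brg209_gA d y₀ z.2 + brg209_chi ρ z.1 * brg209_gA2 d y₀ z.2)

noncomputable def brg209_EA (ρ d y₀ : ℝ) : ℝ :=
  2 * brg209_en (1 / 4) (3 / 4) (1 / 8) * (∫ y in (0 : ℝ)..1, brg209_gA d y₀ y ^ 2)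
    + (∫ x in (0 : ℝ)..ρ, brg209_chi ρ x ^ 2)
      * (brg209_en d (y₀ - d) d + brg209_en d (1 - y₀ - d) d)

theorem brg209_wA_contDiff (ρ d y₀ : ℝ) : ContDiff ℝ ∞ (brg209_wA ρ d y₀) := by
  unfold brg209_wA
  exact ((brg209_cut_contDiff _ _ _ _).comp contDiff_fst).mul
    ((brg209_cutA_contDiff _ _ _ _ _ _ _).comp contDiff_snd)

theorem brg209_phiA_contDiff (ρ d y₀ : ℝ) : ContDiff ℝ ∞ (brg209_phiA ρ d y₀) := by
  unfold brg209_phiA
  exact ((((brg209_ddcut_contDiff _ _ _ _).comp contDiff_fst).mul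
    ((brg209_cutA_contDiff _ _ _ _ _ _ _).comp contDiff_snd)).add
    (((brg209_cut_contDiff _ _ _ _).comp contDiff_fst).mul
    ((brg209_ddcutA_contDiff _ _ _ _ _ _ _).comp contDiff_snd))).neg

section plate

variable {ρ d y₀ : ℝ}

theorem brg209_wA_zero (hd : 0 < d) {z : ℝ × ℝ} (hz : z ∉ brg209_K ρ d) :
    brg209_wA ρ d y₀ z = 0 := by
  unfold brg209_wA brg209_chi brg209_gA
  by_cases h1 : z.1 ≤ 1 / 4
  · rw [brg209_cut_zero_left (by norm_num) h1, zero_mul]
  by_cases h2 : ρ - 1 / 4 ≤ z.1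
  · rw [brg209_cut_zero_right (by norm_num) h2, zero_mul]
  by_cases h3 : z.2 ≤ d
  · rw [brg209_cutA_zero_left (x := z.2) hd h3, mul_zero]
  by_cases h4 : 1 - d ≤ z.2
  · rw [brg209_cutA_zero_right (x := z.2) hd h4, mul_zero]
  exact absurd ⟨⟨by linarith, by linarith⟩, ⟨by linarith, by linarith⟩⟩ hz

theorem brg209_phiA_zero (hρ : 3 / 2 ≤ ρ) (hd : 0 < d) (h1d : 4 * d < y₀) (h2d : 4 * d < 1 - y₀)
    {z : ℝ × ℝ} (hz : z ∉ brg209_K ρ d) : brg209_phiA ρ d y₀ z = 0 := by
  unfold brg209_phiA brg209_chi brg209_gA brg209_chi2 brg209_gA2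
  by_cases h1 : z.1 < 1 / 4
  · rw [brg209_cut_zero_left (by norm_num) h1.le,
      brg209_ddcut_zero_left (by norm_num) (by norm_num) (by linarith) h1]; simp
  by_cases h2 : ρ - 1 / 4 < z.1
  · rw [brg209_cut_zero_right (by norm_num) h2.le,
      brg209_ddcut_zero_right (by norm_num) (by norm_num) (by linarith) h2]; simp
  by_cases h3 : z.2 < d
  · rw [brg209_cutA_zero_left (x := z.2) hd h3.le,
      brg209_ddcutA_zero_left (x := z.2) hd (by linarith) hd (by linarith) h3]; simp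
  by_cases h4 : 1 - d < z.2
  · rw [brg209_cutA_zero_right (x := z.2) hd h4.le,
      brg209_ddcutA_zero_right (x := z.2) hd hd (by linarith) (by linarith) h4]; simp
  exact absurd ⟨⟨by linarith, by linarith⟩, ⟨by linarith, by linarith⟩⟩ hz

theorem brg209_phiA_tsupport (hρ : 3 / 2 ≤ ρ) (hd : 0 < d) (h1d : 4 * d < y₀)
    (h2d : 4 * d < 1 - y₀) : tsupport (brg209_phiA ρ d y₀) ⊆ brg209_K ρ d := by
  refine closure_minimal (fun z hz => ?_) (brg209_K_compact ρ d).isClosed
  by_contra h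
  exact hz (brg209_phiA_zero hρ hd h1d h2d h)

theorem brg209_phiA_compact (hρ : 3 / 2 ≤ ρ) (hd : 0 < d) (h1d : 4 * d < y₀)
    (h2d : 4 * d < 1 - y₀) : HasCompactSupport (brg209_phiA ρ d y₀) :=
  HasCompactSupport.intro (brg209_K_compact ρ d) (fun _ hz => brg209_phiA_zero hρ hd h1d h2d hz)

theorem brg209_wA_frontier (hd : 0 < d) {z : ℝ × ℝ} (hz : z ∈ frontier (brg209_D ρ)) :
    brg209_wA ρ d y₀ z = 0 := by
  rw [(brg209_D_open ρ).frontier_eq] at hz
  exact brg209_wA_zero hd (fun h => hz.2 (brg209_K_subset hd h))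

theorem brg209_lapA_smul (hρ : 3 / 2 ≤ ρ) (hd : 0 < d) (h1d : 4 * d < y₀) (h2d : 4 * d < 1 - y₀)
    (a : ℝ) (z : ℝ × ℝ) :
    -Claims.C0468.lap2 (fun z => a * brg209_wA ρ d y₀ z) z = a * brg209_phiA ρ d y₀ z := by
  unfold Claims.C0468.lap2 brg209_wA brg209_phiA brg209_chi2 brg209_gA2
  have e1 : (fun s => deriv (fun t => a * (brg209_chi ρ t * brg209_gA d y₀ z.2)) s)
      = fun s => a * (brg209_dcut (1 / 4) (3 / 4) (1 / 8) ρ s * brg209_gA d y₀ z.2) := by
    funext s
    exact (((brg209_cut_hasDerivAt (by norm_num) (by norm_num) (by linarith) s).mul_const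
      _).const_mul a).deriv
  have e2 : (fun s => deriv (fun t => a * (brg209_chi ρ z.1 * brg209_gA d y₀ t)) s)
      = fun s => a * (brg209_chi ρ z.1 * brg209_dcutA d (y₀ - d) d d (1 - y₀ - d) d 1 s) := by
    funext s
    exact (((brg209_cutA_hasDerivAt hd (by linarith) hd (by linarith) (by linarith) s).const_mul
      _).const_mul a).deriv
  have d1 : ∀ x, DifferentiableAt ℝ (brg209_dcut (1 / 4) (3 / 4) (1 / 8) ρ) x :=
    (contDiff_infty_iff_deriv.1 (brg209_dcut_contDiff _ _ _ _)).1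
  have d2 : ∀ x, DifferentiableAt ℝ (brg209_dcutA d (y₀ - d) d d (1 - y₀ - d) d 1) x :=
    (contDiff_infty_iff_deriv.1 (brg209_dcutA_contDiff _ _ _ _ _ _ _)).1
  simp only
  rw [e1, e2]
  rw [deriv_const_mul _ ((d1 _).mul_const _), deriv_const_mul _ ((d2 _).const_mul _),
    deriv_mul_const (d1 _), deriv_const_mul _ (d2 _)]
  ring

theorem brg209_energyA (hρ : 3 / 2 ≤ ρ) (hd : 0 < d) (h1d : 4 * d < y₀) (h2d : 4 * d < 1 - y₀) :
    ∫ z in brg209_D ρ, brg209_phiA ρ d y₀ z * brg209_wA ρ d y₀ z = brg209_EA ρ d y₀ := by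
  have hvol : (volume : Measure (ℝ × ℝ)).restrict (brg209_D ρ)
      = (volume.restrict (Ioo 0 ρ)).prod (volume.restrict (Ioo 0 1)) := by
    rw [Measure.volume_eq_prod, Measure.prod_restrict]; rfl
  have cχ : Continuous (brg209_chi ρ) := (brg209_cut_contDiff _ _ _ _).continuous
  have cg : Continuous (brg209_gA d y₀) := (brg209_cutA_contDiff _ _ _ _ _ _ _).continuous
  have cχ2 : Continuous (brg209_chi2 ρ) := (brg209_ddcut_contDiff _ _ _ _).continuous
  have cg2 : Continuous (brg209_gA2 d y₀) := (brg209_ddcutA_contDiff _ _ _ _ _ _ _).continuous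
  have e : ∀ z : ℝ × ℝ, brg209_phiA ρ d y₀ z * brg209_wA ρ d y₀ z
      = (-(brg209_chi ρ z.1 * brg209_chi2 ρ z.1)) * (brg209_gA d y₀ z.2 ^ 2)
        + (brg209_chi ρ z.1 ^ 2) * (-(brg209_gA d y₀ z.2 * brg209_gA2 d y₀ z.2)) := by
    intro z; unfold brg209_phiA brg209_wA; ring
  simp_rw [e]
  rw [hvol, integral_add,
    integral_prod_mul (fun x => -(brg209_chi ρ x * brg209_chi2 ρ x))
      (fun y => brg209_gA d y₀ y ^ 2),
    integral_prod_mul (fun x => brg209_chi ρ x ^ 2)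
      (fun y => -(brg209_gA d y₀ y * brg209_gA2 d y₀ y))]
  · rw [brg209_setInt_Ioo (by linarith), brg209_setInt_Ioo (by norm_num),
      brg209_setInt_Ioo (by linarith), brg209_setInt_Ioo (by norm_num)]
    rw [intervalIntegral.integral_neg, intervalIntegral.integral_neg]
    have h1 := brg209_int_cut_ddcut (a := 1 / 4) (b := 3 / 4) (η := 1 / 8) (ℓ := ρ) (by norm_num)
      (by norm_num) (by norm_num) (by linarith)
    have h2 := brg209_int_cutA_ddcutA (a := d) (b := y₀ - d) (η := d) (a' := d)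
      (b' := 1 - y₀ - d) (η' := d) (ℓ := 1) hd hd.le (by linarith) hd hd.le (by linarith)
      (by linarith)
    unfold brg209_chi brg209_chi2 brg209_gA brg209_gA2 brg209_EA
    rw [h1, h2]
    unfold brg209_chi brg209_gA
    ring
  · exact Integrable.mul_prod (brg209_integrableOn_Ioo (cχ.mul cχ2).neg _ _)
      (brg209_integrableOn_Ioo (cg.pow 2) _ _)
  · exact Integrable.mul_prod (brg209_integrableOn_Ioo (cχ.pow 2) _ _)
      (brg209_integrableOn_Ioo (cg.mul cg2).neg _ _)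

theorem brg209_EA_le (hρ : 3 / 2 ≤ ρ) (hd : 0 < d) (h1d : 4 * d < y₀) (h2d : 4 * d < 1 - y₀) :
    brg209_EA ρ d y₀ ≤ ρ * (1 / (y₀ - 4 * d) + 1 / (1 - y₀ - 4 * d)) + 8 := by
  unfold brg209_EA
  have a1 : brg209_en (1 / 4) (3 / 4) (1 / 8) ≤ 4 := by
    have := brg209_en_le (a := 1 / 4) (b := 3 / 4) (η := 1 / 8) (by norm_num) (by norm_num)
    norm_num at this ⊢; exact this
  have a0 : 0 ≤ brg209_en (1 / 4) (3 / 4) (1 / 8) :=
    le_trans (by norm_num) (brg209_le_en (a := 1 / 4) (b := 3 / 4) (η := 1 / 8) (by norm_num)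
      (by norm_num))
  have b1 : brg209_en d (y₀ - d) d ≤ 1 / (y₀ - 4 * d) := by
    have := brg209_en_le (a := d) (b := y₀ - d) (η := d) hd (by linarith)
    have e : y₀ - d - d - 2 * d = y₀ - 4 * d := by ring
    rwa [e] at this
  have b2 : brg209_en d (1 - y₀ - d) d ≤ 1 / (1 - y₀ - 4 * d) := by
    have := brg209_en_le (a := d) (b := 1 - y₀ - d) (η := d) hd (by linarith)
    have e : 1 - y₀ - d - d - 2 * d = 1 - y₀ - 4 * d := by ring
    rwa [e] at this
  have b0 : 0 ≤ brg209_en d (y₀ - d) d :=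
    le_trans (one_div_nonneg.2 (by linarith)) (brg209_le_en (a := d) (b := y₀ - d) (η := d) hd
      (by linarith))
  have b0' : 0 ≤ brg209_en d (1 - y₀ - d) d :=
    le_trans (one_div_nonneg.2 (by linarith)) (brg209_le_en (a := d) (b := 1 - y₀ - d) (η := d) hd
      (by linarith))
  have c1 : ∫ y in (0 : ℝ)..1, brg209_gA d y₀ y ^ 2 ≤ 1 :=
    brg209_int_cutA_sq_le hd (by linarith) hd (by linarith) (by norm_num)
  have c0 : 0 ≤ ∫ y in (0 : ℝ)..1, brg209_gA d y₀ y ^ 2 :=
    intervalIntegral.integral_nonneg (by norm_num) (fun _ _ => sq_nonneg _)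
  have d1 : ∫ x in (0 : ℝ)..ρ, brg209_chi ρ x ^ 2 ≤ ρ :=
    brg209_int_cut_sq_le (by norm_num) (by norm_num) (by linarith)
  have t1 : 2 * brg209_en (1 / 4) (3 / 4) (1 / 8) * (∫ y in (0 : ℝ)..1, brg209_gA d y₀ y ^ 2)
      ≤ 8 * 1 := mul_le_mul (by linarith) c1 c0 (by norm_num)
  have t2 : (∫ x in (0 : ℝ)..ρ, brg209_chi ρ x ^ 2)
      * (brg209_en d (y₀ - d) d + brg209_en d (1 - y₀ - d) d)
      ≤ ρ * (1 / (y₀ - 4 * d) + 1 / (1 - y₀ - 4 * d)) :=
    mul_le_mul d1 (by linarith) (by linarith) (by linarith)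
  linarith

theorem brg209_le_EA (hρ : 3 / 2 ≤ ρ) (hd : 0 < d) (h1d : 4 * d < y₀) (h2d : 4 * d < 1 - y₀) :
    (ρ - 3 / 2) * (1 / y₀ + 1 / (1 - y₀)) ≤ brg209_EA ρ d y₀ := by
  unfold brg209_EA
  have a0 : 0 ≤ brg209_en (1 / 4) (3 / 4) (1 / 8) :=
    le_trans (by norm_num) (brg209_le_en (a := 1 / 4) (b := 3 / 4) (η := 1 / 8) (by norm_num)
      (by norm_num))
  have b1 : 1 / y₀ ≤ brg209_en d (y₀ - d) d := by
    refine le_trans ?_ (brg209_le_en (a := d) (b := y₀ - d) (η := d) hd (by linarith))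
    exact one_div_le_one_div_of_le (by linarith) (by linarith)
  have b2 : 1 / (1 - y₀) ≤ brg209_en d (1 - y₀ - d) d := by
    refine le_trans ?_ (brg209_le_en (a := d) (b := 1 - y₀ - d) (η := d) hd (by linarith))
    exact one_div_le_one_div_of_le (by linarith) (by linarith)
  have p1 : 0 ≤ 1 / y₀ := one_div_nonneg.2 (by linarith)
  have p2 : 0 ≤ 1 / (1 - y₀) := one_div_nonneg.2 (by linarith)
  have c0 : 0 ≤ ∫ y in (0 : ℝ)..1, brg209_gA d y₀ y ^ 2 :=
    intervalIntegral.integral_nonneg (by norm_num) (fun _ _ => sq_nonneg _)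
  have d1 : ρ - 2 * (3 / 4) ≤ ∫ x in (0 : ℝ)..ρ, brg209_chi ρ x ^ 2 :=
    brg209_le_int_cut_sq (by norm_num) (by norm_num) (by norm_num) (by linarith)
  have t2 : (ρ - 2 * (3 / 4)) * (1 / y₀ + 1 / (1 - y₀)) ≤ (∫ x in (0 : ℝ)..ρ, brg209_chi ρ x ^ 2)
      * (brg209_en d (y₀ - d) d + brg209_en d (1 - y₀ - d) d) :=
    mul_le_mul d1 (by linarith) (by linarith) (by linarith)
  have t1 : 0 ≤ 2 * brg209_en (1 / 4) (3 / 4) (1 / 8)
      * (∫ y in (0 : ℝ)..1, brg209_gA d y₀ y ^ 2) := mul_nonneg (by linarith) c0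
  have e : ρ - 2 * (3 / 4) = ρ - 3 / 2 := by ring
  rw [e] at t2
  linarith

theorem brg209_wA_nonneg (hd : 0 < d) (h1d : 4 * d < y₀) (h2d : 4 * d < 1 - y₀) (z : ℝ × ℝ) :
    0 ≤ brg209_wA ρ d y₀ z :=
  mul_nonneg (brg209_cut_nonneg (by norm_num) (by norm_num) _ _)
    (brg209_cutA_nonneg hd (by linarith) hd (by linarith) _ _)

theorem brg209_wA_le_one (hd : 0 < d) (h1d : 4 * d < y₀) (h2d : 4 * d < 1 - y₀) (z : ℝ × ℝ) :
    brg209_wA ρ d y₀ z ≤ 1 :=
  mul_le_one₀ (brg209_cut_le_one (by norm_num) (by norm_num) _ _)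
    (brg209_cutA_nonneg hd (by linarith) hd (by linarith) _ _)
    (brg209_cutA_le_one hd (by linarith) hd (by linarith) _ _)

/-- `wA = 1` on the plate `[3/4, ρ - 3/4] × [y₀ - d, y₀ + d]`. -/
theorem brg209_wA_one (hd : 0 < d) (h1d : 4 * d < y₀) (h2d : 4 * d < 1 - y₀) {z : ℝ × ℝ}
    (h1 : 3 / 4 ≤ z.1) (h2 : z.1 ≤ ρ - 3 / 4) (h3 : y₀ - d ≤ z.2) (h4 : z.2 ≤ y₀ + d) :
    brg209_wA ρ d y₀ z = 1 := by
  unfold brg209_wA brg209_chi brg209_gA
  rw [brg209_cut_one (by norm_num) (by norm_num) h1 h2,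
    brg209_cutA_one hd (by linarith) hd (by linarith) h3 (by linarith), one_mul]

/-- **The capacitary test with the plate at height `y₀`, in the flat limit.**
`(ρ - 3/2) (1/y₀ + 1/(1-y₀)) ≤ EA ≤ ρ (1/(y₀-4d) + 1/(1-y₀-4d)) + 8`. -/
theorem brg209_flatA {t v : ℝ} (h : AtFlatGFF t v) (hρ : 3 / 2 ≤ ρ) (hd : 0 < d)
    (h1d : 4 * d < y₀) (h2d : 4 * d < 1 - y₀)
    (hJ : ∃ γ : Circle → ℝ × ℝ, Continuous γ ∧ Function.Injective γ ∧
      Set.range γ = frontier (brg209_D ρ))
    (δ : ℕ → ℝ) (F : ℕ → Finset (ℤ × ℤ)) (happ : Claims.C0468.IsAdmissibleApprox (brg209_D ρ) δ F)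
    (a : ℝ) (k : ℕ) :
    Tendsto (fun n => Claims.C0468.atExpect t (δ n) (F n) (fun z => a * brg209_phiA ρ d y₀ z)
      (fun s => s ^ k)) atTop
      (𝓝 (Claimed.Agent.R291.tmmWick (v * (a ^ 2 * brg209_EA ρ d y₀)) k)) := by
  have H := h (brg209_D ρ) (brg209_D_open ρ) (brg209_D_bounded ρ) hJ δ F happ
    (fun z => a * brg209_phiA ρ d y₀ z) (contDiff_const.mul (brg209_phiA_contDiff ρ d y₀))
    ((brg209_phiA_compact hρ hd h1d h2d).mul_left)
    ((tsupport_mul_subset_right).trans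
      ((brg209_phiA_tsupport hρ hd h1d h2d).trans (brg209_K_subset hd)))
    (fun z => a * brg209_wA ρ d y₀ z)
    ((contDiff_const.mul (brg209_wA_contDiff ρ d y₀)).contDiffOn.of_le
      (WithTop.coe_le_coe.2 le_top))
    (continuous_const.mul (brg209_wA_contDiff ρ d y₀).continuous).continuousOn
    (fun z hz => by rw [brg209_wA_frontier hd hz, mul_zero])
    (fun z _ => brg209_lapA_smul hρ hd h1d h2d a z) k
  have e : ∫ z in brg209_D ρ, a * brg209_phiA ρ d y₀ z * (a * brg209_wA ρ d y₀ z)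
      = a ^ 2 * brg209_EA ρ d y₀ := by
    rw [← brg209_energyA hρ hd h1d h2d, ← integral_const_mul]
    congr 1; funext z; ring
  rwa [e] at H

end plate

end Claimed.Agent.R292
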