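import Claimed.Agent.R290.Hub
import Claimed.Agent.R290.SvaHeight
import Claimed.Agent.R292.AtHeight

/-!
# Row 292, unit BRIDGE: the 45-degree dictionary   (helper109, prefix `brg109`)

Ashkin-Teller spins `s` (corners `ℤ²`) and `s'` (faces `ℤ²`, the face `f` has lower left corner `f`)
are read as ONE field `σ` on the sites of the corner graph, in the rotated coordinates

  corner `(p,q) ↦ (p+q, q-p)`,     face `(p,q) ↦ (p+q+1, q-p)`

(all of `ℤ²`; corners = even sites).  These sites are the FACES of the six-vertex lattice of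
`Def_0466` (the face `(x,y)` has lower left corner `(x,y)`), its vertices are the edges of the
Ashkin-Teller lattice (`brg109MH`, `brg109MV`).  The unit-step height `K = 2 H` has the increments
`K y - K x = ε(x) σ(x) σ(y)`, `ε = +1` on corners and `-1` on faces; the arrows are read off with the
convention of `svIncrement` (`brg109Arrow`, in the plane encoding `ℤ × ℤ × Bool → Bool` of
`svhub_lift`).

* `brg109_ice_H/V`   ice rule at the medial vertex  ⟺  the Ashkin-Teller constraint at the edge;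
* `brg109_isC_H/V`   `c`-vertex  ⟺  no disagreement at the edge and at its dual edge;
* `brg109_inc`, `brg109_inc_AT`   `svhub_inc` of the arrows = increment of `K = 2 H`;
* `brg109_ice_all`, `brg109_weight`   for the frozen finite-volume objects of `Def_0468`:
  `t ^ atDisagreements = t ^ #(inner edges) * (t⁻¹) ^ #(c-vertices at inner edges)`;
* `brg109_height_frozen`   `svhub_inc` between two corners = increment of `2 * atHeight`
  (existence and uniqueness of the height: `AtHeight.lean` of helper212).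
-/

set_option autoImplicit false

namespace Claimed.Agent.R292

open Claims Claimed.Agent.R290

/-! ## 1. Plane forms of the local predicates of `Def_0466` -/

/-- `svInCount` for a plane configuration. -/
def brg109InCount (η : ℤ × ℤ × Bool → Bool) (a b : ℤ) : ℕ :=
  (if η (a - 1, b, false) then 1 else 0) + (if η (a, b, false) then 0 else 1) +
    (if η (a, b - 1, true) then 1 else 0) + (if η (a, b, true) then 0 else 1)

/-- `svIsC` for a plane configuration. -/
def brg109IsC (η : ℤ × ℤ × Bool → Bool) (a b : ℤ) : Prop :=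
  (η (a - 1, b, false) = true ∧ η (a, b, false) = false) ∨
    (η (a - 1, b, false) = false ∧ η (a, b, false) = true)

theorem brg109_inCount_lift {M L : ℕ} (ω : ZMod M × ZMod L × Bool → Bool) (a b : ℤ) :
    C0466.svInCount ω a b = brg109InCount (svhub_lift ω) a b := rfl

theorem brg109_isC_lift {M L : ℕ} (ω : ZMod M × ZMod L × Bool → Bool) (a b : ℤ) :
    C0466.svIsC ω a b ↔ brg109IsC (svhub_lift ω) a b := Iff.rfl

/-! ## 2. Signs, arrows -/

/-- `+1` on even sites (corners), `-1` on odd sites (faces). -/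
def brg109Sgn (x : ℤ × ℤ) : ℤ := if (x.1 + x.2) % 2 = 0 then 1 else -1

theorem brg109_sgn_pm (x : ℤ × ℤ) : brg109Sgn x = 1 ∨ brg109Sgn x = -1 := by
  unfold brg109Sgn; split_ifs <;> simp

theorem brg109_sgn_left (a b : ℤ) : brg109Sgn (a - 1, b) = - brg109Sgn (a, b) := by
  unfold brg109Sgn; simp only; split_ifs <;> omega

theorem brg109_sgn_down (a b : ℤ) : brg109Sgn (a, b - 1) = - brg109Sgn (a, b) := by
  unfold brg109Sgn; simp only; split_ifs <;> omega

theorem brg109_sgn_diag (a b : ℤ) : brg109Sgn (a - 1, b - 1) = brg109Sgn (a, b) := by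
  unfold brg109Sgn; simp only; split_ifs <;> omega

/-- a field with values `±1`. -/
def brg109Pm (σ : ℤ × ℤ → ℤ) : Prop := ∀ x, σ x = 1 ∨ σ x = -1

/-- the arrows of a site field: the vertical edge `(a,b,true)` separates the faces `(a-1,b)`, `(a,b)`
and points up iff `K` decreases to the right; the horizontal edge `(a,b,false)` separates the faces
`(a,b-1)`, `(a,b)` and points right iff `K` increases upwards. -/
def brg109Arrow (σ : ℤ × ℤ → ℤ) (e : ℤ × ℤ × Bool) : Bool :=
  if e.2.2 then decide (brg109Sgn (e.1 - 1, e.2.1) * σ (e.1 - 1, e.2.1) * σ (e.1, e.2.1) = -1)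
  else decide (brg109Sgn (e.1, e.2.1 - 1) * σ (e.1, e.2.1 - 1) * σ (e.1, e.2.1) = 1)

theorem brg109_arrow_V (σ : ℤ × ℤ → ℤ) (a b : ℤ) :
    brg109Arrow σ (a, b, true) = true ↔ brg109Sgn (a - 1, b) * σ (a - 1, b) * σ (a, b) = -1 := by
  simp [brg109Arrow]

theorem brg109_arrow_H (σ : ℤ × ℤ → ℤ) (a b : ℤ) :
    brg109Arrow σ (a, b, false) = true ↔ brg109Sgn (a, b - 1) * σ (a, b - 1) * σ (a, b) = 1 := by
  simp [brg109Arrow]

/-! ## 3. The local dictionary at a six-vertex vertex -/

theorem brg109_core_ice {e sw se nw ne : ℤ} (he : e = 1 ∨ e = -1) (h1 : sw = 1 ∨ sw = -1)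
    (h2 : se = 1 ∨ se = -1) (h3 : nw = 1 ∨ nw = -1) (h4 : ne = 1 ∨ ne = -1) :
    ((if e * sw * nw = 1 then 1 else 0) + (if -e * se * ne = 1 then 0 else 1) +
      (if e * sw * se = -1 then 1 else 0) + (if -e * nw * ne = -1 then 0 else 1) : ℕ) = 2 ↔
      (sw - ne) * (se - nw) = 0 := by
  rcases he with rfl | rfl <;> rcases h1 with rfl | rfl <;> rcases h2 with rfl | rfl <;>
    rcases h3 with rfl | rfl <;> rcases h4 with rfl | rfl <;> norm_num

theorem brg109_core_isC {e sw se nw ne : ℤ} (he : e = 1 ∨ e = -1) (h1 : sw = 1 ∨ sw = -1)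
    (h2 : se = 1 ∨ se = -1) (h3 : nw = 1 ∨ nw = -1) (h4 : ne = 1 ∨ ne = -1)
    (hice : (sw - ne) * (se - nw) = 0) :
    ((e * sw * nw = 1 ∧ ¬ (-e * se * ne = 1)) ∨ (¬ (e * sw * nw = 1) ∧ -e * se * ne = 1)) ↔
      (sw = ne ∧ se = nw) := by
  rcases he with rfl | rfl <;> rcases h1 with rfl | rfl <;> rcases h2 with rfl | rfl <;>
    rcases h3 with rfl | rfl <;> rcases h4 with rfl | rfl <;> revert hice <;> norm_num

/-- **ice rule** at the vertex `(a,b)` ⟺ one of the two diagonals of the plaquette is flat. -/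
theorem brg109_ice {σ : ℤ × ℤ → ℤ} (hσ : brg109Pm σ) (a b : ℤ) :
    brg109InCount (brg109Arrow σ) a b = 2 ↔
      (σ (a - 1, b - 1) - σ (a, b)) * (σ (a, b - 1) - σ (a - 1, b)) = 0 := by
  rw [← brg109_core_ice (brg109_sgn_pm (a, b)) (hσ (a - 1, b - 1)) (hσ (a, b - 1))
    (hσ (a - 1, b)) (hσ (a, b))]
  unfold brg109InCount
  simp only [brg109_arrow_V, brg109_arrow_H, brg109_sgn_left, brg109_sgn_down, neg_neg]

/-- **`c`-vertices** are the plaquettes with both diagonals flat. -/
theorem brg109_isC {σ : ℤ × ℤ → ℤ} (hσ : brg109Pm σ) (a b : ℤ)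
    (hice : (σ (a - 1, b - 1) - σ (a, b)) * (σ (a, b - 1) - σ (a - 1, b)) = 0) :
    brg109IsC (brg109Arrow σ) a b ↔
      (σ (a - 1, b - 1) = σ (a, b) ∧ σ (a, b - 1) = σ (a - 1, b)) := by
  rw [← brg109_core_isC (brg109_sgn_pm (a, b)) (hσ (a - 1, b - 1)) (hσ (a, b - 1))
    (hσ (a - 1, b)) (hσ (a, b)) hice]
  unfold brg109IsC
  simp only [← Bool.not_eq_true, brg109_arrow_H, brg109_sgn_down, brg109_sgn_left, neg_neg]

/-! ## 4. The rotation -/

/-- the site of the corner `v`. -/
def brg109RotC (v : ℤ × ℤ) : ℤ × ℤ := (v.1 + v.2, v.2 - v.1)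

/-- the site of the face `f`. -/
def brg109RotF (f : ℤ × ℤ) : ℤ × ℤ := (f.1 + f.2 + 1, f.2 - f.1)

/-- one field on the sites out of a field on the corners and a field on the faces. -/
def brg109Site {α : Type} (s s' : ℤ × ℤ → α) (x : ℤ × ℤ) : α :=
  if (x.1 + x.2) % 2 = 0 then s ((x.1 - x.2) / 2, (x.1 + x.2) / 2)
  else s' ((x.1 - x.2 - 1) / 2, (x.1 + x.2 - 1) / 2)

theorem brg109_site_C {α : Type} (s s' : ℤ × ℤ → α) (p q : ℤ) :
    brg109Site s s' (p + q, q - p) = s (p, q) := by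
  unfold brg109Site
  have h1 : (p + q + (q - p)) % 2 = 0 := by omega
  have h2 : (p + q - (q - p)) / 2 = p := by omega
  have h3 : (p + q + (q - p)) / 2 = q := by omega
  simp only [h1, h2, h3, if_true]

theorem brg109_site_F {α : Type} (s s' : ℤ × ℤ → α) (p q : ℤ) :
    brg109Site s s' (p + q + 1, q - p) = s' (p, q) := by
  unfold brg109Site
  have h1 : ¬ (p + q + 1 + (q - p)) % 2 = 0 := by omega
  have h2 : (p + q + 1 - (q - p) - 1) / 2 = p := by omega
  have h3 : (p + q + 1 + (q - p) - 1) / 2 = q := by omega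
  simp only [h1, h2, h3, if_false]

theorem brg109_site_rotC {α : Type} (s s' : ℤ × ℤ → α) (v : ℤ × ℤ) :
    brg109Site s s' (brg109RotC v) = s v := brg109_site_C s s' v.1 v.2

theorem brg109_site_rotF {α : Type} (s s' : ℤ × ℤ → α) (f : ℤ × ℤ) :
    brg109Site s s' (brg109RotF f) = s' f := brg109_site_F s s' f.1 f.2

theorem brg109_sgn_rotC (v : ℤ × ℤ) : brg109Sgn (brg109RotC v) = 1 := by
  unfold brg109Sgn brg109RotC
  have h1 : (v.1 + v.2 + (v.2 - v.1)) % 2 = 0 := by omega
  simp only [h1, if_true]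

theorem brg109_sgn_rotF (f : ℤ × ℤ) : brg109Sgn (brg109RotF f) = -1 := by
  unfold brg109Sgn brg109RotF
  have h1 : ¬ (f.1 + f.2 + 1 + (f.2 - f.1)) % 2 = 0 := by omega
  simp only [h1, if_false]

/-- every site is a corner or a face. -/
theorem brg109_rot_cases (x : ℤ × ℤ) :
    (∃ v, x = brg109RotC v) ∨ (∃ f, x = brg109RotF f) := by
  rcases Int.emod_two_eq_zero_or_one (x.1 + x.2) with h | h
  · refine Or.inl ⟨((x.1 - x.2) / 2, (x.1 + x.2) / 2), ?_⟩
    unfold brg109RotC
    ext <;> simp only <;> omega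
  · refine Or.inr ⟨((x.1 - x.2 - 1) / 2, (x.1 + x.2 - 1) / 2), ?_⟩
    unfold brg109RotF
    ext <;> simp only <;> omega

theorem brg109_rotC_injective : Function.Injective brg109RotC := by
  intro v w h
  unfold brg109RotC at h
  have h1 := congrArg Prod.fst h
  have h2 := congrArg Prod.snd h
  simp only at h1 h2
  ext <;> omega

theorem brg109_rotF_injective : Function.Injective brg109RotF := by
  intro v w h
  unfold brg109RotF at h
  have h1 := congrArg Prod.fst h
  have h2 := congrArg Prod.snd h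
  simp only at h1 h2
  ext <;> omega

theorem brg109_site_pm {s s' : ℤ × ℤ → ℤ} (hs : brg109Pm s) (hs' : brg109Pm s') :
    brg109Pm (brg109Site s s') := by
  intro x
  unfold brg109Site
  split_ifs
  · exact hs _
  · exact hs' _

/-- the six-vertex vertex at the horizontal edge `v — v + (1,0)`. -/
def brg109MH (v : ℤ × ℤ) : ℤ × ℤ := (v.1 + v.2 + 1, v.2 - v.1)

/-- the six-vertex vertex at the vertical edge `v — v + (0,1)`. -/
def brg109MV (v : ℤ × ℤ) : ℤ × ℤ := (v.1 + v.2 + 1, v.2 - v.1 + 1)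

/-- every six-vertex vertex is an edge of the Ashkin-Teller lattice. -/
theorem brg109_medial_cases (x : ℤ × ℤ) :
    (∃ v, x = brg109MH v) ∨ (∃ v, x = brg109MV v) := by
  rcases Int.emod_two_eq_zero_or_one (x.1 + x.2) with h | h
  · refine Or.inr ⟨((x.1 - x.2) / 2, (x.1 + x.2) / 2 - 1), ?_⟩
    unfold brg109MV
    ext <;> simp only <;> omega
  · refine Or.inl ⟨((x.1 - x.2 - 1) / 2, (x.1 + x.2 - 1) / 2), ?_⟩
    unfold brg109MH
    ext <;> simp only <;> omega

theorem brg109_MH_injective : Function.Injective brg109MH := brg109_rotF_injective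

theorem brg109_MV_injective : Function.Injective brg109MV := by
  intro v w h
  unfold brg109MV at h
  have h1 := congrArg Prod.fst h
  have h2 := congrArg Prod.snd h
  simp only at h1 h2
  ext <;> omega

theorem brg109_MH_ne_MV (v w : ℤ × ℤ) : brg109MH v ≠ brg109MV w := by
  intro h
  unfold brg109MH brg109MV at h
  have h1 := congrArg Prod.fst h
  have h2 := congrArg Prod.snd h
  simp only at h1 h2
  omega

/-- the four sites around the vertex of a horizontal edge. -/
theorem brg109_around_H {α : Type} (s s' : ℤ × ℤ → α) (v : ℤ × ℤ) :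
    brg109Site s s' ((brg109MH v).1 - 1, (brg109MH v).2 - 1) = s' (v.1, v.2 - 1) ∧
    brg109Site s s' ((brg109MH v).1, (brg109MH v).2) = s' v ∧
    brg109Site s s' ((brg109MH v).1, (brg109MH v).2 - 1) = s (v.1 + 1, v.2) ∧
    brg109Site s s' ((brg109MH v).1 - 1, (brg109MH v).2) = s v := by
  obtain ⟨p, q⟩ := v
  unfold brg109MH
  simp only
  refine ⟨?_, brg109_site_F s s' p q, ?_, ?_⟩
  · have := brg109_site_F s s' p (q - 1)
    have e1 : p + (q - 1) + 1 = p + q + 1 - 1 := by ring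
    have e2 : q - 1 - p = q - p - 1 := by ring
    rwa [e1, e2] at this
  · have := brg109_site_C s s' (p + 1) q
    have e1 : p + 1 + q = p + q + 1 := by ring
    have e2 : q - (p + 1) = q - p - 1 := by ring
    rwa [e1, e2] at this
  · have := brg109_site_C s s' p q
    have e1 : p + q = p + q + 1 - 1 := by ring
    rwa [e1] at this

/-- the four sites around the vertex of a vertical edge. -/
theorem brg109_around_V {α : Type} (s s' : ℤ × ℤ → α) (v : ℤ × ℤ) :
    brg109Site s s' ((brg109MV v).1 - 1, (brg109MV v).2 - 1) = s v ∧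
    brg109Site s s' ((brg109MV v).1, (brg109MV v).2) = s (v.1, v.2 + 1) ∧
    brg109Site s s' ((brg109MV v).1, (brg109MV v).2 - 1) = s' v ∧
    brg109Site s s' ((brg109MV v).1 - 1, (brg109MV v).2) = s' (v.1 - 1, v.2) := by
  obtain ⟨p, q⟩ := v
  unfold brg109MV
  simp only
  refine ⟨?_, ?_, ?_, ?_⟩
  · have := brg109_site_C s s' p q
    have e1 : p + q = p + q + 1 - 1 := by ring
    have e2 : q - p = q - p + 1 - 1 := by ring
    rwa [e1, e2] at this
  · have := brg109_site_C s s' p (q + 1)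
    have e1 : p + (q + 1) = p + q + 1 := by ring
    have e2 : q + 1 - p = q - p + 1 := by ring
    rwa [e1, e2] at this
  · have := brg109_site_F s s' p q
    have e2 : q - p = q - p + 1 - 1 := by ring
    rwa [e2] at this
  · have := brg109_site_F s s' (p - 1) q
    have e1 : p - 1 + q + 1 = p + q + 1 - 1 := by ring
    have e2 : q - (p - 1) = q - p + 1 := by ring
    rwa [e1, e2] at this

/-- the arrows of a pair of Ashkin-Teller spin fields. -/
def brg109Eta (s s' : ℤ × ℤ → ℤ) : ℤ × ℤ × Bool → Bool := brg109Arrow (brg109Site s s')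

theorem brg109_ice_H {s s' : ℤ × ℤ → ℤ} (hs : brg109Pm s) (hs' : brg109Pm s') (v : ℤ × ℤ) :
    brg109InCount (brg109Eta s s') (brg109MH v).1 (brg109MH v).2 = 2 ↔
      (s v - s (v.1 + 1, v.2)) * (s' v - s' (v.1, v.2 - 1)) = 0 := by
  obtain ⟨h1, h2, h3, h4⟩ := brg109_around_H s s' v
  rw [brg109Eta, brg109_ice (brg109_site_pm hs hs'), h1, h2, h3, h4]
  constructor <;> intro h <;> nlinarith [h]

theorem brg109_ice_V {s s' : ℤ × ℤ → ℤ} (hs : brg109Pm s) (hs' : brg109Pm s') (v : ℤ × ℤ) :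
    brg109InCount (brg109Eta s s') (brg109MV v).1 (brg109MV v).2 = 2 ↔
      (s v - s (v.1, v.2 + 1)) * (s' v - s' (v.1 - 1, v.2)) = 0 := by
  obtain ⟨h1, h2, h3, h4⟩ := brg109_around_V s s' v
  rw [brg109Eta, brg109_ice (brg109_site_pm hs hs'), h1, h2, h3, h4]

theorem brg109_isC_H {s s' : ℤ × ℤ → ℤ} (hs : brg109Pm s) (hs' : brg109Pm s') (v : ℤ × ℤ)
    (hice : (s v - s (v.1 + 1, v.2)) * (s' v - s' (v.1, v.2 - 1)) = 0) :
    brg109IsC (brg109Eta s s') (brg109MH v).1 (brg109MH v).2 ↔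
      (s v = s (v.1 + 1, v.2) ∧ s' v = s' (v.1, v.2 - 1)) := by
  obtain ⟨h1, h2, h3, h4⟩ := brg109_around_H s s' v
  rw [brg109Eta, brg109_isC (brg109_site_pm hs hs') _ _ (by rw [h1, h2, h3, h4]; nlinarith [hice]),
    h1, h2, h3, h4]
  constructor
  · rintro ⟨a, b⟩; exact ⟨b.symm, a.symm⟩
  · rintro ⟨a, b⟩; exact ⟨b.symm, a.symm⟩

theorem brg109_isC_V {s s' : ℤ × ℤ → ℤ} (hs : brg109Pm s) (hs' : brg109Pm s') (v : ℤ × ℤ)
    (hice : (s v - s (v.1, v.2 + 1)) * (s' v - s' (v.1 - 1, v.2)) = 0) :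
    brg109IsC (brg109Eta s s') (brg109MV v).1 (brg109MV v).2 ↔
      (s v = s (v.1, v.2 + 1) ∧ s' v = s' (v.1 - 1, v.2)) := by
  obtain ⟨h1, h2, h3, h4⟩ := brg109_around_V s s' v
  rw [brg109Eta, brg109_isC (brg109_site_pm hs hs') _ _ (by rw [h1, h2, h3, h4]; exact hice),
    h1, h2, h3, h4]

/-! ## 5. Heights -/

/-- telescoping of the signed interval sums against a real potential. -/
theorem brg109_tele (f : ℤ → ℤ) (F : ℤ → ℝ) (hF : ∀ a, F (a + 1) - F a = (f a : ℝ)) (p q : ℤ) :
    ((svaS f p q : ℤ) : ℝ) = F q - F p := by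
  have key : ∀ d : ℤ, ((svaS f p (p + d) : ℤ) : ℝ) = F (p + d) - F p := by
    intro d
    induction d using Int.induction_on with
    | zero => simp [svaS_self]
    | succ n ih =>
      rw [← add_assoc, svaS_succ]
      push_cast
      rw [ih]
      have := hF (p + n)
      linarith
    | pred n ih =>
      rw [← add_sub_assoc, svaS_pred]
      push_cast
      rw [ih]
      have := hF (p + -(n : ℤ) - 1)
      rw [sub_add_cancel] at this
      linarith
  have := key (q - p)
  rwa [add_sub_cancel] at this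

theorem brg109_inc_eq (η : ℤ × ℤ × Bool → Bool) (p q : ℤ × ℤ) :
    svhub_inc η p q = svaS (fun a => if η (a + 1, p.2, true) then -1 else 1) p.1 q.1 +
      svaS (fun b => if η (q.1, b + 1, false) then 1 else -1) p.2 q.2 := by
  unfold svhub_inc svaS
  ring

theorem brg109_prod_pm {σ : ℤ × ℤ → ℤ} (hσ : brg109Pm σ) (x y z : ℤ × ℤ) :
    brg109Sgn x * σ y * σ z = 1 ∨ brg109Sgn x * σ y * σ z = -1 := by
  rcases brg109_sgn_pm x with h | h <;> rcases hσ y with h' | h' <;> rcases hσ z with h'' | h'' <;>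
    rw [h, h', h''] <;> norm_num

/-- **the height of the arrows is `K`.** -/
theorem brg109_inc {σ : ℤ × ℤ → ℤ} (hσ : brg109Pm σ) (K : ℤ × ℤ → ℝ)
    (hR : ∀ a b, K (a + 1, b) - K (a, b) = ((brg109Sgn (a, b) * σ (a, b) * σ (a + 1, b) : ℤ) : ℝ))
    (hU : ∀ a b, K (a, b + 1) - K (a, b) = ((brg109Sgn (a, b) * σ (a, b) * σ (a, b + 1) : ℤ) : ℝ))
    (p q : ℤ × ℤ) :
    ((svhub_inc (brg109Arrow σ) p q : ℤ) : ℝ) = K q - K p := by
  rw [brg109_inc_eq]
  push_cast
  rw [brg109_tele _ (fun a => K (a, p.2)), brg109_tele _ (fun b => K (q.1, b))]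
  · simp only [Prod.mk.eta]
    ring
  · intro b
    rw [hU]
    congr 1
    by_cases h : brg109Arrow σ (q.1, b + 1, false) = true
    · rw [if_pos h]
      rw [brg109_arrow_H, add_sub_cancel_right] at h
      exact h
    · rw [if_neg h]
      rw [brg109_arrow_H, add_sub_cancel_right] at h
      exact (brg109_prod_pm hσ _ _ _).resolve_left h
  · intro a
    rw [hR]
    congr 1
    by_cases h : brg109Arrow σ (a + 1, p.2, true) = true
    · rw [if_pos h]
      rw [brg109_arrow_V, add_sub_cancel_right] at h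
      exact h
    · rw [if_neg h]
      rw [brg109_arrow_V, add_sub_cancel_right] at h
      exact (brg109_prod_pm hσ _ _ _).resolve_right h

/-- **the Ashkin-Teller height**: `svhub_inc` of the arrows of `(s, s')` is the increment of `2 H`. -/
theorem brg109_inc_AT {s s' : ℤ × ℤ → ℤ} (hs : brg109Pm s) (hs' : brg109Pm s')
    (Hv Hf : ℤ × ℤ → ℝ)
    (hH : ∀ f v : ℤ × ℤ,
      (v = f ∨ v = (f.1 + 1, f.2) ∨ v = (f.1, f.2 + 1) ∨ v = (f.1 + 1, f.2 + 1)) →
        Hf f - Hv v = ((s v * s' f : ℤ) : ℝ) / 2) (p q : ℤ × ℤ) :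
    ((svhub_inc (brg109Eta s s') p q : ℤ) : ℝ) =
      2 * brg109Site Hv Hf q - 2 * brg109Site Hv Hf p := by
  refine brg109_inc (brg109_site_pm hs hs') (fun x => 2 * brg109Site Hv Hf x) ?_ ?_ p q
  · intro a b
    rcases brg109_rot_cases (a, b) with ⟨v, hv⟩ | ⟨f, hf⟩
    · obtain ⟨p, q⟩ := v
      have ha : a = p + q := congrArg Prod.fst hv
      have hb : b = q - p := congrArg Prod.snd hv
      subst ha hb
      have hsg : brg109Sgn (p + q, q - p) = 1 := brg109_sgn_rotC (p, q)
      simp only [brg109_site_C, brg109_site_F, hsg]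
      have := hH (p, q) (p, q) (Or.inl rfl)
      push_cast at this ⊢
      linarith
    · obtain ⟨p, q⟩ := f
      have ha : a = p + q + 1 := congrArg Prod.fst hf
      have hb : b = q - p := congrArg Prod.snd hf
      subst ha hb
      have hsg : brg109Sgn (p + q + 1, q - p) = -1 := brg109_sgn_rotF (p, q)
      have e : ((p + q + 1 + 1, q - p) : ℤ × ℤ) = ((p + 1) + (q + 1), (q + 1) - (p + 1)) := by
        ext <;> simp only <;> ring
      simp only [e, brg109_site_C, brg109_site_F, hsg]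
      have := hH (p, q) (p + 1, q + 1) (Or.inr (Or.inr (Or.inr rfl)))
      push_cast at this ⊢
      linarith
  · intro a b
    rcases brg109_rot_cases (a, b) with ⟨v, hv⟩ | ⟨f, hf⟩
    · obtain ⟨p, q⟩ := v
      have ha : a = p + q := congrArg Prod.fst hv
      have hb : b = q - p := congrArg Prod.snd hv
      subst ha hb
      have hsg : brg109Sgn (p + q, q - p) = 1 := brg109_sgn_rotC (p, q)
      have e : ((p + q, q - p + 1) : ℤ × ℤ) = ((p - 1) + q + 1, q - (p - 1)) := by
        ext <;> simp only <;> ring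
      simp only [e, brg109_site_C, brg109_site_F, hsg]
      have := hH (p - 1, q) (p, q) (Or.inr (Or.inl (by simp)))
      push_cast at this ⊢
      linarith
    · obtain ⟨p, q⟩ := f
      have ha : a = p + q + 1 := congrArg Prod.fst hf
      have hb : b = q - p := congrArg Prod.snd hf
      subst ha hb
      have hsg : brg109Sgn (p + q + 1, q - p) = -1 := brg109_sgn_rotF (p, q)
      have e : ((p + q + 1, q - p + 1) : ℤ × ℤ) = (p + (q + 1), (q + 1) - p) := by
        ext <;> simp only <;> ring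
      have e0 : brg109Site Hv Hf (p + q + 1, q - p + 1) = Hv (p, q + 1) := by
        rw [e, brg109_site_C]
      have e1 : brg109Site s s' (p + q + 1, q - p + 1) = s (p, q + 1) := by
        rw [e, brg109_site_C]
      simp only [e0, e1, brg109_site_F, hsg]
      have := hH (p, q) (p, q + 1) (Or.inr (Or.inr (Or.inl rfl)))
      push_cast at this ⊢
      linarith

/-! ## 6. The frozen finite-volume objects of `Def_0468` -/

open C0468

theorem brg109_spin_pm {F : Finset (ℤ × ℤ)} (τ : cornersOf F → Bool) : brg109Pm (atSpin τ) := by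
  intro v
  unfold atSpin
  split_ifs <;> simp

theorem brg109_dual_pm {F : Finset (ℤ × ℤ)} (τd : F → Bool) : brg109Pm (atDual τd) := by
  intro v
  unfold atDual
  split_ifs <;> simp

theorem brg109_mem_corners {F : Finset (ℤ × ℤ)} {v : ℤ × ℤ} (hv : v ∈ F) : v ∈ cornersOf F :=
  Finset.mem_biUnion.2 ⟨v, hv, by simp⟩

theorem brg109_spin_one {F : Finset (ℤ × ℤ)} {τ : cornersOf F → Bool} {τd : F → Bool}
    (hadm : IsAdmissibleSpins τ τd) {v : ℤ × ℤ} (hv : OnPolygon F v) : atSpin τ v = 1 := by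
  by_cases hc : v ∈ cornersOf F
  · exact hadm.1 v hc hv
  · unfold atSpin
    rw [dif_neg hc]

/-- both ends of a horizontal edge that is not inner are on the polygon (or outside). -/
theorem brg109_bdry_H {F : Finset (ℤ × ℤ)} {τ : cornersOf F → Bool} {τd : F → Bool}
    (hadm : IsAdmissibleSpins τ τd) {v : ℤ × ℤ} (h : ¬ (v ∈ F ∧ (v.1, v.2 - 1) ∈ F)) :
    atSpin τ v = 1 ∧ atSpin τ (v.1 + 1, v.2) = 1 := by
  constructor
  · apply brg109_spin_one hadm
    intro h'
    exact h ⟨h'.1, h'.2.2.1⟩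
  · apply brg109_spin_one hadm
    intro h'
    simp only [add_sub_cancel_right] at h'
    exact h ⟨h'.2.1, h'.2.2.2⟩

theorem brg109_bdry_V {F : Finset (ℤ × ℤ)} {τ : cornersOf F → Bool} {τd : F → Bool}
    (hadm : IsAdmissibleSpins τ τd) {v : ℤ × ℤ} (h : ¬ (v ∈ F ∧ (v.1 - 1, v.2) ∈ F)) :
    atSpin τ v = 1 ∧ atSpin τ (v.1, v.2 + 1) = 1 := by
  constructor
  · apply brg109_spin_one hadm
    intro h'
    exact h ⟨h'.1, h'.2.1⟩
  · apply brg109_spin_one hadm
    intro h'
    simp only [add_sub_cancel_right] at h'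
    exact h ⟨h'.2.2.1, h'.2.2.2⟩

theorem brg109_closed_H {F : Finset (ℤ × ℤ)} {τ : cornersOf F → Bool} {τd : F → Bool}
    (hadm : IsAdmissibleSpins τ τd) (v : ℤ × ℤ) :
    (atSpin τ v - atSpin τ (v.1 + 1, v.2)) * (atDual τd v - atDual τd (v.1, v.2 - 1)) = 0 := by
  by_cases h : v ∈ F ∧ (v.1, v.2 - 1) ∈ F
  · exact (hadm.2 v (brg109_mem_corners h.1)).1 h
  · obtain ⟨h1, h2⟩ := brg109_bdry_H hadm h
    rw [h1, h2]; simp

theorem brg109_closed_V {F : Finset (ℤ × ℤ)} {τ : cornersOf F → Bool} {τd : F → Bool}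
    (hadm : IsAdmissibleSpins τ τd) (v : ℤ × ℤ) :
    (atSpin τ v - atSpin τ (v.1, v.2 + 1)) * (atDual τd v - atDual τd (v.1 - 1, v.2)) = 0 := by
  by_cases h : v ∈ F ∧ (v.1 - 1, v.2) ∈ F
  · exact (hadm.2 v (brg109_mem_corners h.1)).2 h
  · obtain ⟨h1, h2⟩ := brg109_bdry_V hadm h
    rw [h1, h2]; simp

/-- the plane arrow configuration of an Ashkin-Teller pair (spins `+1` outside). -/
def brg109EtaF {F : Finset (ℤ × ℤ)} (τ : cornersOf F → Bool) (τd : F → Bool) :
    ℤ × ℤ × Bool → Bool := brg109Eta (atSpin τ) (atDual τd)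

/-- **an admissible pair gives a six-vertex configuration of the whole plane.** -/
theorem brg109_ice_all {F : Finset (ℤ × ℤ)} {τ : cornersOf F → Bool} {τd : F → Bool}
    (hadm : IsAdmissibleSpins τ τd) (a b : ℤ) : brg109InCount (brg109EtaF τ τd) a b = 2 := by
  rcases brg109_medial_cases (a, b) with ⟨v, hv⟩ | ⟨v, hv⟩
  · have ha : a = (brg109MH v).1 := congrArg Prod.fst hv
    have hb : b = (brg109MH v).2 := congrArg Prod.snd hv
    rw [ha, hb]
    exact (brg109_ice_H (brg109_spin_pm τ) (brg109_dual_pm τd) v).2 (brg109_closed_H hadm v)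
  · have ha : a = (brg109MV v).1 := congrArg Prod.fst hv
    have hb : b = (brg109MV v).2 := congrArg Prod.snd hv
    rw [ha, hb]
    exact (brg109_ice_V (brg109_spin_pm τ) (brg109_dual_pm τd) v).2 (brg109_closed_V hadm v)

/-- conversely the ice rule at the inner edges is the constraint of `IsAdmissibleSpins`. -/
theorem brg109_adm_iff {F : Finset (ℤ × ℤ)} (τ : cornersOf F → Bool) (τd : F → Bool) :
    IsAdmissibleSpins τ τd ↔
      (∀ v ∈ cornersOf F, OnPolygon F v → atSpin τ v = 1) ∧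
        ∀ a b : ℤ, brg109InCount (brg109EtaF τ τd) a b = 2 := by
  constructor
  · intro h
    exact ⟨h.1, brg109_ice_all h⟩
  · rintro ⟨h1, h2⟩
    refine ⟨h1, fun v _ => ⟨fun _ => ?_, fun _ => ?_⟩⟩
    · exact (brg109_ice_H (brg109_spin_pm τ) (brg109_dual_pm τd) v).1 (h2 _ _)
    · exact (brg109_ice_V (brg109_spin_pm τ) (brg109_dual_pm τd) v).1 (h2 _ _)

/-- inner horizontal edges `v — v + (1,0)` (both adjacent faces in `F`). -/
def brg109EH (F : Finset (ℤ × ℤ)) : Finset (ℤ × ℤ) := F.filter fun v => (v.1, v.2 - 1) ∈ F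

/-- inner vertical edges `v — v + (0,1)`. -/
def brg109EV (F : Finset (ℤ × ℤ)) : Finset (ℤ × ℤ) := F.filter fun v => (v.1 - 1, v.2) ∈ F

theorem brg109_mem_EH {F : Finset (ℤ × ℤ)} {v : ℤ × ℤ} :
    v ∈ brg109EH F ↔ v ∈ F ∧ (v.1, v.2 - 1) ∈ F := by simp [brg109EH]

theorem brg109_mem_EV {F : Finset (ℤ × ℤ)} {v : ℤ × ℤ} :
    v ∈ brg109EV F ↔ v ∈ F ∧ (v.1 - 1, v.2) ∈ F := by simp [brg109EV]

open Classical in
/-- number of `c`-vertices at the inner edges. -/
noncomputable def brg109NC {F : Finset (ℤ × ℤ)} (τ : cornersOf F → Bool) (τd : F → Bool) : ℕ :=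
  ((brg109EH F).filter fun v =>
      brg109IsC (brg109EtaF τ τd) (brg109MH v).1 (brg109MH v).2).card +
    ((brg109EV F).filter fun v =>
      brg109IsC (brg109EtaF τ τd) (brg109MV v).1 (brg109MV v).2).card

theorem brg109_sum_ind {F : Finset (ℤ × ℤ)} (E : Finset (ℤ × ℤ)) (hE : E ⊆ cornersOf F)
    (P : ℤ × ℤ → Prop) [DecidablePred P] [DecidablePred fun v => v ∈ E ∧ ¬ P v] :
    ∑ v ∈ cornersOf F, (if v ∈ E ∧ ¬ P v then 1 else 0) = (E.filter fun v => ¬ P v).card := by
  classical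
  rw [← Finset.card_filter]
  congr 1
  ext v
  simp only [Finset.mem_filter]
  constructor
  · rintro ⟨_, h⟩; exact h
  · intro h; exact ⟨hE h.1, h⟩

/-- **disagreements + `c`-vertices = inner edges.** -/
theorem brg109_dis_add {F : Finset (ℤ × ℤ)} {τ : cornersOf F → Bool} {τd : F → Bool}
    (hadm : IsAdmissibleSpins τ τd) :
    atDisagreements τ τd + brg109NC τ τd = (brg109EH F).card + (brg109EV F).card := by
  classical
  have hH : ∀ v : ℤ × ℤ,
      (if (v ∈ F ∨ (v.1, v.2 - 1) ∈ F) ∧ atSpin τ v ≠ atSpin τ (v.1 + 1, v.2) then 1 else 0) +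
      (if (v ∈ F ∧ (v.1, v.2 - 1) ∈ F) ∧ atDual τd v ≠ atDual τd (v.1, v.2 - 1) then 1 else 0) =
      (if v ∈ brg109EH F ∧ ¬ brg109IsC (brg109EtaF τ τd) (brg109MH v).1 (brg109MH v).2
        then 1 else 0 : ℕ) := by
    intro v
    have hcl := brg109_closed_H hadm v
    have hC := brg109_isC_H (brg109_spin_pm τ) (brg109_dual_pm τd) v hcl
    by_cases h : v ∈ F ∧ (v.1, v.2 - 1) ∈ F
    · have hm : v ∈ brg109EH F := brg109_mem_EH.2 h
      simp only [hm, h, true_and, and_self, brg109EtaF, hC]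
      by_cases h1 : atSpin τ v = atSpin τ (v.1 + 1, v.2)
      · by_cases h2 : atDual τd v = atDual τd (v.1, v.2 - 1)
        · simp [h1, h2]
        · simp [h1, h2]
      · by_cases h2 : atDual τd v = atDual τd (v.1, v.2 - 1)
        · simp [h1, h2]
        · exfalso
          rcases mul_eq_zero.1 hcl with h3 | h3
          · exact h1 (sub_eq_zero.1 h3)
          · exact h2 (sub_eq_zero.1 h3)
    · have hm : ¬ v ∈ brg109EH F := fun h' => h (brg109_mem_EH.1 h')
      obtain ⟨h1, h2⟩ := brg109_bdry_H hadm h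
      simp [hm, h, h1, h2]
  have hV : ∀ v : ℤ × ℤ,
      (if (v ∈ F ∨ (v.1 - 1, v.2) ∈ F) ∧ atSpin τ v ≠ atSpin τ (v.1, v.2 + 1) then 1 else 0) +
      (if (v ∈ F ∧ (v.1 - 1, v.2) ∈ F) ∧ atDual τd v ≠ atDual τd (v.1 - 1, v.2) then 1 else 0) =
      (if v ∈ brg109EV F ∧ ¬ brg109IsC (brg109EtaF τ τd) (brg109MV v).1 (brg109MV v).2
        then 1 else 0 : ℕ) := by
    intro v
    have hcl := brg109_closed_V hadm v
    have hC := brg109_isC_V (brg109_spin_pm τ) (brg109_dual_pm τd) v hcl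
    by_cases h : v ∈ F ∧ (v.1 - 1, v.2) ∈ F
    · have hm : v ∈ brg109EV F := brg109_mem_EV.2 h
      simp only [hm, h, true_and, and_self, brg109EtaF, hC]
      by_cases h1 : atSpin τ v = atSpin τ (v.1, v.2 + 1)
      · by_cases h2 : atDual τd v = atDual τd (v.1 - 1, v.2)
        · simp [h1, h2]
        · simp [h1, h2]
      · by_cases h2 : atDual τd v = atDual τd (v.1 - 1, v.2)
        · simp [h1, h2]
        · exfalso
          rcases mul_eq_zero.1 hcl with h3 | h3
          · exact h1 (sub_eq_zero.1 h3)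
          · exact h2 (sub_eq_zero.1 h3)
    · have hm : ¬ v ∈ brg109EV F := fun h' => h (brg109_mem_EV.1 h')
      obtain ⟨h1, h2⟩ := brg109_bdry_V hadm h
      simp [hm, h, h1, h2]
  have hsum : atDisagreements τ τd =
      ((brg109EH F).filter fun v =>
        ¬ brg109IsC (brg109EtaF τ τd) (brg109MH v).1 (brg109MH v).2).card +
      ((brg109EV F).filter fun v =>
        ¬ brg109IsC (brg109EtaF τ τd) (brg109MV v).1 (brg109MV v).2).card := by
    rw [← brg109_sum_ind (F := F) (brg109EH F)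
        (fun v hv => brg109_mem_corners (brg109_mem_EH.1 hv).1),
      ← brg109_sum_ind (F := F) (brg109EV F)
        (fun v hv => brg109_mem_corners (brg109_mem_EV.1 hv).1),
      ← Finset.sum_add_distrib]
    unfold atDisagreements
    refine Finset.sum_congr rfl fun v _ => ?_
    rw [← hH v, ← hV v]
    ring
  have c1 := Finset.card_filter_add_card_filter_not (s := brg109EH F)
    (fun v => brg109IsC (brg109EtaF τ τd) (brg109MH v).1 (brg109MH v).2)
  have c2 := Finset.card_filter_add_card_filter_not (s := brg109EV F)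
    (fun v => brg109IsC (brg109EtaF τ τd) (brg109MV v).1 (brg109MV v).2)
  rw [hsum]
  unfold brg109NC
  omega

/-- **the weight**: `t ^ disagreements = t ^ #(inner edges) * c ^ #(c-vertices)`, `c = t⁻¹`. -/
theorem brg109_weight {t : ℝ} (ht : t ≠ 0) {F : Finset (ℤ × ℤ)} {τ : cornersOf F → Bool}
    {τd : F → Bool} (hadm : IsAdmissibleSpins τ τd) :
    t ^ atDisagreements τ τd =
      t ^ ((brg109EH F).card + (brg109EV F).card) * t⁻¹ ^ brg109NC τ τd := by
  rw [← brg109_dis_add hadm, pow_add, mul_assoc, ← mul_pow, mul_inv_cancel₀ ht, one_pow, mul_one]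

/-! ## 7. The frozen height -/

/-- a height of the whole plane that is a height in the sense of `IsATHeight`. -/
theorem brg109_plane_height {F : Finset (ℤ × ℤ)} (hF : At2hConn F) {τ : cornersOf F → Bool}
    {τd : F → Bool} (h : IsAdmissibleSpins τ τd) :
    ∃ Hv Hf : ℤ × ℤ → ℝ,
      (∀ f : ℤ × ℤ, ∀ w ∈ at2hC4 f, Hf f - Hv w = (atSpin τ w * atDual τd f : ℝ) / 2) ∧
        IsATHeight τ τd Hv Hf := by
  obtain ⟨Hv, Hf, hH⟩ := at2h_plane _ _ (at2h_closed h)
  have hout : ∀ g, g ∉ F → ∀ w ∈ at2hC4 g, Hv w = Hf g - 1 / 2 := by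
    intro g hg w hw
    have := hH g w hw
    rw [at2h_spin_one h (at2h_onPolygon_iff.2 ⟨g, hg, hw⟩), at2h_dual_one τd hg] at this
    push_cast at this
    linarith
  obtain ⟨f0, hf0⟩ := Infinite.exists_notMem_finset F
  have hconst : ∀ g, g ∉ F → g ∈ {f | f ∉ F ∧ Hf f = Hf f0} :=
    hF {f | f ∉ F ∧ Hf f = Hf f0} (fun f hf => hf.1) ⟨f0, hf0, rfl⟩ (by
      rintro f ⟨hf, hfe⟩ g hg ⟨w, hwf, hwg⟩
      refine ⟨hg, ?_⟩
      have h1 := hout f hf w hwf
      have h2 := hout g hg w hwg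
      linarith)
  refine ⟨fun v => Hv v - (Hf f0 - 1 / 2), fun f => Hf f - (Hf f0 - 1 / 2), ?_, ?_, ?_⟩
  · intro f v hv
    have := hH f v hv
    show Hf f - (Hf f0 - 1 / 2) - (Hv v - (Hf f0 - 1 / 2)) = _
    linarith
  · intro v _ hv
    obtain ⟨g, hg, hvg⟩ := at2h_onPolygon_iff.1 hv
    have h1 := hout g hg v hvg
    have h2 := (hconst g hg).2
    show Hv v - (Hf f0 - 1 / 2) = 0
    linarith
  · intro f _ v hv
    have := hH f v hv
    show Hf f - (Hf f0 - 1 / 2) - (Hv v - (Hf f0 - 1 / 2)) = _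
    linarith

/-- **the six-vertex height of the arrows is twice the frozen Ashkin-Teller height.** -/
theorem brg109_height_frozen {F : Finset (ℤ × ℤ)} (hF : At2hConn F) {τ : cornersOf F → Bool}
    {τd : F → Bool} (h : IsAdmissibleSpins τ τd) {v w : ℤ × ℤ} (hv : v ∈ cornersOf F)
    (hw : w ∈ cornersOf F) :
    ((svhub_inc (brg109EtaF τ τd) (brg109RotC v) (brg109RotC w) : ℤ) : ℝ) =
      2 * atHeight τ τd w - 2 * atHeight τ τd v := by
  obtain ⟨Hv, Hf, hpl, hat⟩ := brg109_plane_height hF h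
  have hinc := brg109_inc_AT (brg109_spin_pm τ) (brg109_dual_pm τd) Hv Hf (by
    intro f x hx
    have hx' : x ∈ at2hC4 f := by
      simp only [at2hC4, Finset.mem_insert, Finset.mem_singleton]
      exact hx
    have := hpl f x hx'
    push_cast
    exact this) (brg109RotC v) (brg109RotC w)
  rw [brg109_site_rotC, brg109_site_rotC] at hinc
  rw [at2h_eq hat v hv, at2h_eq hat w hw]
  exact hinc

/-- from a polygon corner: the six-vertex height itself. -/
theorem brg109_height_frozen' {F : Finset (ℤ × ℤ)} (hF : At2hConn F) {τ : cornersOf F → Bool}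
    {τd : F → Bool} (h : IsAdmissibleSpins τ τd) {v w : ℤ × ℤ} (hv : v ∈ cornersOf F)
    (hvp : OnPolygon F v) (hw : w ∈ cornersOf F) :
    ((svhub_inc (brg109EtaF τ τd) (brg109RotC v) (brg109RotC w) : ℤ) : ℝ) =
      2 * atHeight τ τd w := by
  rw [brg109_height_frozen hF h hv hw]
  obtain ⟨Hf, hat⟩ := at2h_spec hF h
  rw [hat.1 v hv hvp]
  ring

end Claimed.Agent.R292
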