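import Claimed.Agent.R292.Model.AbsFkg51
import Claimed.Agent.R292.Model.Dict21
import Claimed.Agent.R292.Defs.Top
import Claimed.Agent.R292.Rsw.CoreTop121

/-!
# Row 292 (S0540), Bridge/Even49 : MONOTONICITY OF ALL MOMENTS OF A NONNEGATIVE PAIRING IN `|K|`      (owner helper49; prefix `brg49_` / `brg49`)      no sorry

Unit BRIDGE, wall team.  Soft lemma (EMDM) for the uniform sub-Gaussian tails of flat pairings in rough holes.

For `φ ≥ 0` and `X k = ∑ x, φ x * k x`:   given `|k| = ζ` the signs are a ferromagnetic Ising model (`mdl51_wt_sg`) whose couplings increase with `ζ` (`mdl51_ea_anti`).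
In the FK expansion the mean of a product of signs, given the edge set `ω`, is `1` or `0` (a character of the group of the spins that are constant along `ω`
is trivial or sums to zero), increasing in `ω`; Holley in `ω` gives the second Griffiths inequality in the form `brg49_ising`; hence `E[X ^ n | ζ]` increases with `ζ`, for EVERY `n`;
Holley for `|k|` finishes.

* `brg49_chi_sum`      the sum of a character over the spins constant along `ω`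
* `brg49_fk`           FK expansion of `∑ σ, weight σ * (∑ x, y x * sign (σ x)) ^ n`
* **`brg49_ising`**    Griffiths II for all moments: weaker costs `b ≤ a` and larger magnitudes `0 ≤ y ≤ y'` raise every moment (cross multiplied form)
* **`brg49_two`**      abstract comparison of two laws `u₁ ζ * Ising (a₁ ζ)`, `u₂ ζ * Ising (a₂ ζ)` on a finite distributive lattice
* **`brg49_moment_res`**, `brg49_moment_holley`, `brg49_exp_res`     Mdl51: two conditionings of `|k|` in Holley order (the first law may lack some dual edges): every moment, and the Laplace transform at `s ≥ 0`, of `X` are ordered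
* `brg49G F'` the corner graph of `F'` as an `Mdl51`; `brg49_wt`, `brg49_sum_K`: the graph of `F'` without the dual edges that leave `F ⊆ F'`, pinned off the interior of `F`, is the six-vertex law of `F` of `Model/Dict21` (times free signs)
* **`brg49_atExpect_pow_mono`**, **`brg49_atExpect_exp_mono`**     FROZEN FORM: `F ⊆ F'`, `φ ≥ 0`, `0 < t ≤ 1`:  `atExpect t δ F φ (· ^ n) ≤ atExpect t δ F' φ (· ^ n)` for every `n`, and the same for `exp (s ·)`, `s ≥ 0`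
  (hypotheses `Mdl21Ex F`, `Mdl21Ex F'`: every admissible pair of spins has a height; `mdl21_ex_of_ext`, `mdl21_ex_of_approx`)
* **`brg49_hole_moment`**, **`brg49_hole_tail`**     with `AtFlatGFF t v`: eventually, for ALL sub-domains `F ⊆ F' n` at once: moment `≤` Wick number of the nice domain `+ ε`; Chebyshev tail
* `brg49_wick_gauss`, **`brg49_hole_gauss`**, **`brg49_hole_gauss_abs`** (two sided)     the moment of order `2 ⌊x² / (2 V)⌋` gives the SHARP Gaussian rate at every fixed level `x`: `P_F(X ≥ x) ≤ e² (1 + x²/(2V)) exp (-x²/(2V)) + ε`, uniformly in the holes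
* Sec. 6 (pure real analysis, then one conditional top): `brg49_rec_all_k`, `brg49_dich_k`, `brg49_dich_k_const`, **`brg49_dich_k_poly`**: the `k`-power analogue of `ann_dich2`
  (`u N ≤ (C u n) ^ k` on windows `ρ n ≤ N ≤ ρ² n`, `ρ < k ^ 2`, and `e N > exp (- c √N)` for infinitely many `N` give `1/2 < C² u n`);
  **`brg49_rc_top_k`**: the statement of `exit_rsw_circuit` FROM THREE HYPOTHESES: `RcUEta t`, (REC_k), RcD′.   These three are CONTRACTS, NOT PROVED anywhere in the kernel: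
  RcD′ has a text read by three seats (branch helper49, notes/R292/RCD_49.md Sec. 6 and 7), (REC_k) has no text.   Nothing here closes row 292.
-/

set_option autoImplicit false
set_option linter.unusedSectionVars false
set_option linter.unusedVariables false
set_option linter.unusedSimpArgs false

namespace Claimed.Agent.R292

open Finset
open Claimed.Agent.R291

/-! ## 1. Ising signs: characters, FK expansion, Griffiths II for all moments -/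

section Ising

variable {V ι : Type} [Fintype V] [DecidableEq V] [Fintype ι] [DecidableEq ι]

/-- the sign of a spin -/
def brg49Sg (b : Bool) : ℝ := if b then 1 else -1

theorem brg49_sg_mul (a b : Bool) : brg49Sg (a == b) = brg49Sg a * brg49Sg b := by
  cases a <;> cases b <;> simp [brg49Sg]

theorem brg49_sg_pm (a : Bool) : brg49Sg a = 1 ∨ brg49Sg a = -1 := by
  cases a <;> simp [brg49Sg]

/-- the spins that are constant along the edges of `ω` -/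
def brg49H (s t : ι → V) (ω : Finset ι) : Finset (V → Bool) :=
  univ.filter fun σ : V → Bool => ∀ i ∈ ω, σ (s i) = σ (t i)

theorem brg49_mem_H (s t : ι → V) (ω : Finset ι) (σ : V → Bool) : σ ∈ brg49H s t ω ↔ ∀ i ∈ ω, σ (s i) = σ (t i) := by
  unfold brg49H
  simp

theorem brg49_H_anti (s t : ι → V) {ω ω' : Finset ι} (h : ω ⊆ ω') : brg49H s t ω' ⊆ brg49H s t ω := by
  intro σ hσ
  rw [brg49_mem_H] at hσ ⊢
  exact fun i hi => hσ i (h hi)

theorem brg49_card_H (s t : ι → V) (ω : Finset ι) : iszN Bool s t ω = (brg49H s t ω).card := rfl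

/-- the character of a tuple of sites -/
def brg49Chi {n : ℕ} (v : Fin n → V) (σ : V → Bool) : ℝ := ∏ j, brg49Sg (σ (v j))

theorem brg49_chi_mul {n : ℕ} (v : Fin n → V) (σ τ : V → Bool) :
    brg49Chi v (fun x => σ x == τ x) = brg49Chi v σ * brg49Chi v τ := by
  unfold brg49Chi
  rw [← Finset.prod_mul_distrib]
  exact Finset.prod_congr rfl fun j _ => brg49_sg_mul _ _

theorem brg49_chi_pm {n : ℕ} (v : Fin n → V) (σ : V → Bool) : brg49Chi v σ = 1 ∨ brg49Chi v σ = -1 := by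
  unfold brg49Chi
  refine Finset.prod_induction _ (fun x : ℝ => x = 1 ∨ x = -1) ?_ (Or.inl rfl) fun j _ => brg49_sg_pm _
  rintro a b (rfl | rfl) (rfl | rfl) <;> norm_num

open Classical in
/-- **the sum of a character** over the spins constant along `ω` -/
theorem brg49_chi_sum (s t : ι → V) (ω : Finset ι) {n : ℕ} (v : Fin n → V) :
    ∑ σ ∈ brg49H s t ω, brg49Chi v σ
      = ((brg49H s t ω).card : ℝ) * (if ∀ σ ∈ brg49H s t ω, brg49Chi v σ = 1 then 1 else 0) := by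
  by_cases h : ∀ σ ∈ brg49H s t ω, brg49Chi v σ = 1
  · rw [if_pos h, mul_one, Finset.sum_congr rfl h]
    simp
  · rw [if_neg h, mul_zero]
    push Not at h
    obtain ⟨τ, hτ, hne⟩ := h
    have hτ1 : brg49Chi v τ = -1 := (brg49_chi_pm v τ).resolve_left hne
    refine Finset.sum_involution (fun σ _ => fun x => σ x == τ x) ?_ ?_ ?_ ?_
    · intro σ _
      rw [brg49_chi_mul, hτ1]
      ring
    · intro σ _ hσ heq
      have h1 := brg49_chi_mul v σ τ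
      rw [heq, hτ1] at h1
      apply hσ
      linarith
    · intro σ hσ
      rw [brg49_mem_H] at hσ hτ ⊢
      intro i hi
      rw [hσ i hi, hτ i hi]
    · intro σ _
      funext x
      show ((σ x == τ x) == τ x) = σ x
      generalize σ x = p
      generalize τ x = q
      cases p <;> cases q <;> rfl

open Classical in
/-- the mean of `(∑ x, y x * sign (σ x)) ^ n` over the spins constant along `ω` -/
noncomputable def brg49h (s t : ι → V) (y : V → ℝ) (n : ℕ) (ω : Finset ι) : ℝ :=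
  ∑ v : Fin n → V, (∏ j, y (v j)) * (if ∀ σ ∈ brg49H s t ω, brg49Chi v σ = 1 then 1 else 0)

theorem brg49_sum_H (s t : ι → V) (y : V → ℝ) (n : ℕ) (ω : Finset ι) :
    ∑ σ ∈ brg49H s t ω, (∑ x, y x * brg49Sg (σ x)) ^ n = (iszN Bool s t ω : ℝ) * brg49h s t y n ω := by
  classical
  rw [brg49_card_H]
  simp_rw [Fintype.sum_pow, Finset.prod_mul_distrib]
  rw [Finset.sum_comm]
  unfold brg49h
  rw [Finset.mul_sum]
  refine Finset.sum_congr rfl fun v _ => ?_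
  rw [← Finset.mul_sum]
  have h := brg49_chi_sum s t ω v
  unfold brg49Chi at h
  rw [h]
  unfold brg49Chi
  ring

theorem brg49_h_mono (s t : ι → V) {y y' : V → ℝ} (hy : ∀ x, 0 ≤ y x) (hyy : ∀ x, y x ≤ y' x) (n : ℕ)
    {ω ω' : Finset ι} (h : ω ⊆ ω') : brg49h s t y n ω ≤ brg49h s t y' n ω' := by
  classical
  unfold brg49h
  refine Finset.sum_le_sum fun v _ => ?_
  refine mul_le_mul (Finset.prod_le_prod (fun j _ => hy _) fun j _ => hyy _) ?_ (by split_ifs <;> norm_num)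
    (Finset.prod_nonneg fun j _ => (hy _).trans (hyy _))
  by_cases h1 : ∀ σ ∈ brg49H s t ω, brg49Chi v σ = 1
  · rw [if_pos h1, if_pos fun σ hσ => h1 σ (brg49_H_anti s t h hσ)]
  · rw [if_neg h1]
    split_ifs <;> norm_num

theorem brg49_h_nonneg (s t : ι → V) {y : V → ℝ} (hy : ∀ x, 0 ≤ y x) (n : ℕ) (ω : Finset ι) : 0 ≤ brg49h s t y n ω := by
  classical
  unfold brg49h
  refine Finset.sum_nonneg fun v _ => mul_nonneg (Finset.prod_nonneg fun j _ => hy _) (by split_ifs <;> norm_num)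

/-- expansion of one Ising weight over the edge sets -/
theorem brg49_edge_expand (s t : ι → V) (a : ι → ℝ) (σ : V → Bool) :
    ∏ i, (if σ (s i) = σ (t i) then 1 else a i)
      = ∑ ω : Finset ι, (if σ ∈ brg49H s t ω then (1 : ℝ) else 0) * ∏ i, (if i ∈ ω then 1 - a i else a i) := by
  classical
  have h2 : ∀ i, (if σ (s i) = σ (t i) then 1 else a i) = (if σ (s i) = σ (t i) then 1 - a i else 0) + a i := by
    intro i; split_ifs <;> ring
  simp_rw [h2]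
  rw [Finset.prod_add]
  rw [← Finset.powerset_univ]
  refine Finset.sum_congr rfl fun ω _ => ?_
  have h3 : ∏ i, (if i ∈ ω then 1 - a i else a i) = (∏ i ∈ ω, (1 - a i)) * ∏ i ∈ univ \ ω, a i := by
    rw [← Finset.prod_sdiff (Finset.subset_univ ω), mul_comm]
    congr 1
    · refine Finset.prod_congr rfl fun i hi => ?_
      rw [if_pos hi]
    · refine Finset.prod_congr rfl fun i hi => ?_
      rw [if_neg (Finset.mem_sdiff.1 hi).2]
  rw [h3, ← mul_assoc]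
  congr 1
  by_cases h : σ ∈ brg49H s t ω
  · rw [if_pos h, one_mul]
    rw [brg49_mem_H] at h
    refine Finset.prod_congr rfl fun i hi => ?_
    rw [if_pos (h i hi)]
  · rw [if_neg h, zero_mul]
    rw [brg49_mem_H] at h
    push Not at h
    obtain ⟨i, hi, hne⟩ := h
    exact Finset.prod_eq_zero hi (if_neg hne)

/-- the `n`-th (unnormalised) moment of `∑ x, y x * sign (σ x)` under the Ising weight with costs `a` -/
noncomputable def brg49M (s t : ι → V) (a : ι → ℝ) (y : V → ℝ) (n : ℕ) : ℝ :=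
  ∑ σ : V → Bool, (∏ i, (if σ (s i) = σ (t i) then 1 else a i)) * (∑ x, y x * brg49Sg (σ x)) ^ n

/-- **FK expansion of the moments** -/
theorem brg49_fk (s t : ι → V) (a : ι → ℝ) (y : V → ℝ) (n : ℕ) :
    brg49M s t a y n = ∑ ω : Finset ι, iszW Bool s t a ω * brg49h s t y n ω := by
  classical
  unfold brg49M
  simp_rw [brg49_edge_expand s t a, Finset.sum_mul]
  rw [Finset.sum_comm]
  refine Finset.sum_congr rfl fun ω _ => ?_
  unfold iszW
  have e : ∀ σ : V → Bool, (if σ ∈ brg49H s t ω then (1 : ℝ) else 0) * (∏ i, (if i ∈ ω then 1 - a i else a i))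
      * (∑ x, y x * brg49Sg (σ x)) ^ n
      = (∏ i, (if i ∈ ω then 1 - a i else a i)) * (if σ ∈ brg49H s t ω then (∑ x, y x * brg49Sg (σ x)) ^ n else 0) := by
    intro σ
    split_ifs <;> ring
  simp_rw [e]
  rw [← Finset.mul_sum, ← Finset.sum_filter, Finset.filter_mem_eq_inter, Finset.univ_inter, brg49_sum_H]
  ring

/-- Holley condition of two FK weights, `b ≤ a` -/
theorem brg49_W_holley (s t : ι → V) {a b : ι → ℝ} (hb0 : ∀ i, 0 ≤ b i) (hba : ∀ i, b i ≤ a i) (ha1 : ∀ i, a i ≤ 1)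
    (ω ω' : Finset ι) :
    iszW Bool s t a ω * iszW Bool s t b ω' ≤ iszW Bool s t a (ω ⊓ ω') * iszW Bool s t b (ω ⊔ ω') := by
  have ha0 : ∀ i, 0 ≤ a i := fun i => (hb0 i).trans (hba i)
  have hb1 : ∀ i, b i ≤ 1 := fun i => (hba i).trans (ha1 i)
  unfold iszW
  have hN : (iszN Bool s t ω : ℝ) * (iszN Bool s t ω' : ℝ) ≤ (iszN Bool s t (ω ⊓ ω') : ℝ) * (iszN Bool s t (ω ⊔ ω') : ℝ) := by
    exact_mod_cast isz_N_super (S := Bool) (by simp) s t ω ω'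
  have hP : (∏ i, (if i ∈ ω then 1 - a i else a i)) * ∏ i, (if i ∈ ω' then 1 - b i else b i)
      ≤ (∏ i, (if i ∈ ω ⊓ ω' then 1 - a i else a i)) * ∏ i, (if i ∈ ω ⊔ ω' then 1 - b i else b i) := by
    rw [← Finset.prod_mul_distrib, ← Finset.prod_mul_distrib]
    refine Finset.prod_le_prod (fun i _ => ?_) fun i _ => ?_
    · refine mul_nonneg ?_ ?_
      · split_ifs
        · linarith [ha1 i]
        · exact ha0 i
      · split_ifs
        · linarith [hb1 i]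
        · exact hb0 i
    · have h := isz_edge_ineq (ha0 i) (ha1 i) (hb0 i) (hb1 i) (i ∈ ω) (i ∈ ω')
      rw [max_eq_left (hba i), min_eq_right (hba i)] at h
      simp only [Finset.inf_eq_inter, Finset.sup_eq_union, Finset.mem_inter, Finset.mem_union]
      exact h
  have hP0 : 0 ≤ (∏ i, (if i ∈ ω then 1 - a i else a i)) * ∏ i, (if i ∈ ω' then 1 - b i else b i) := by
    refine mul_nonneg (Finset.prod_nonneg fun i _ => ?_) (Finset.prod_nonneg fun i _ => ?_)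
    · split_ifs
      · linarith [ha1 i]
      · exact ha0 i
    · split_ifs
      · linarith [hb1 i]
      · exact hb0 i
  calc (iszN Bool s t ω : ℝ) * (∏ i, (if i ∈ ω then 1 - a i else a i))
        * ((iszN Bool s t ω' : ℝ) * ∏ i, (if i ∈ ω' then 1 - b i else b i))
      = ((iszN Bool s t ω : ℝ) * (iszN Bool s t ω' : ℝ))
        * ((∏ i, (if i ∈ ω then 1 - a i else a i)) * ∏ i, (if i ∈ ω' then 1 - b i else b i)) := by ring
    _ ≤ ((iszN Bool s t (ω ⊓ ω') : ℝ) * (iszN Bool s t (ω ⊔ ω') : ℝ))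
        * ((∏ i, (if i ∈ ω ⊓ ω' then 1 - a i else a i)) * ∏ i, (if i ∈ ω ⊔ ω' then 1 - b i else b i)) :=
        mul_le_mul hN hP hP0 (mul_nonneg (Nat.cast_nonneg _) (Nat.cast_nonneg _))
    _ = _ := by ring

/-- **Griffiths II for all moments** (cross multiplied): smaller costs `b ≤ a` of unequal signs and larger magnitudes `0 ≤ y ≤ y'` raise every moment -/
theorem brg49_ising (s t : ι → V) {a b : ι → ℝ} (hb0 : ∀ i, 0 ≤ b i) (hba : ∀ i, b i ≤ a i) (ha1 : ∀ i, a i ≤ 1)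
    {y y' : V → ℝ} (hy : ∀ x, 0 ≤ y x) (hyy : ∀ x, y x ≤ y' x) (n : ℕ) :
    brg49M s t a y n * iszZ Bool s t b ≤ iszZ Bool s t a * brg49M s t b y' n := by
  have ha0 : ∀ i, 0 ≤ a i := fun i => (hb0 i).trans (hba i)
  have hb1 : ∀ i, b i ≤ 1 := fun i => (hba i).trans (ha1 i)
  rw [brg49_fk, brg49_fk, isz_Z_eq_sum_W, isz_Z_eq_sum_W]
  have key := isz_holley (w₁ := iszW Bool s t a) (w₂ := iszW Bool s t b) (f := brg49h s t y n)
    (isz_W_nonneg s t ha0 ha1) (isz_W_nonneg s t hb0 hb1) (fun ω ω' h => brg49_h_mono s t hy (fun _ => le_rfl) n h)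
    (brg49_W_holley s t hb0 hba ha1)
  refine key.trans (mul_le_mul_of_nonneg_left ?_ (Finset.sum_nonneg fun ω _ => isz_W_nonneg s t ha0 ha1 ω))
  exact Finset.sum_le_sum fun ω _ => mul_le_mul_of_nonneg_left (brg49_h_mono s t hy hyy n (Finset.Subset.refl _))
    (isz_W_nonneg s t hb0 hb1 ω)

theorem brg49_M_nonneg (s t : ι → V) {a : ι → ℝ} (ha0 : ∀ i, 0 ≤ a i) (ha1 : ∀ i, a i ≤ 1) {y : V → ℝ} (hy : ∀ x, 0 ≤ y x)
    (n : ℕ) : 0 ≤ brg49M s t a y n := by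
  rw [brg49_fk]
  exact Finset.sum_nonneg fun ω _ => mul_nonneg (isz_W_nonneg s t ha0 ha1 ω) (brg49_h_nonneg s t hy n ω)

theorem brg49_Z_pos (s t : ι → V) {a : ι → ℝ} (ha0 : ∀ i, 0 ≤ a i) : 0 < iszZ Bool s t a := by
  unfold iszZ
  refine Finset.sum_pos' (fun σ _ => Finset.prod_nonneg fun i _ => by split_ifs <;> [exact zero_le_one; exact ha0 i])
    ⟨fun _ => true, Finset.mem_univ _, ?_⟩
  simp

end Ising

/-! ## 2. Two laws `u ζ * Ising (a ζ)` on a finite distributive lattice -/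

section Two

variable {V ι : Type} [Fintype V] [DecidableEq V] [Fintype ι] [DecidableEq ι]
variable {α : Type} [DistribLattice α] [Fintype α]

/-- **abstract comparison**: the law `1` has prefactor `u₁` and costs `a₁`, the law `2` has prefactor `u₂` and costs `a₂ ≤ a₁`; the prefactors are in Holley order, the costs `a₂` decrease,
the magnitudes `Y ≥ 0` increase.  Then every moment of `∑ x, Y ζ x * sign (σ x)` is larger under the law `2`. -/
theorem brg49_two (s t : ι → V) (u₁ u₂ : α → ℝ) (a₁ a₂ : α → ι → ℝ) (Y : α → V → ℝ) (n : ℕ)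
    (hu₁ : ∀ ζ, 0 ≤ u₁ ζ) (hu₂ : ∀ ζ, 0 ≤ u₂ ζ)
    (ha₁0 : ∀ ζ i, 0 ≤ a₁ ζ i) (ha₁1 : ∀ ζ i, a₁ ζ i ≤ 1) (ha₂0 : ∀ ζ i, 0 ≤ a₂ ζ i) (ha₂1 : ∀ ζ i, a₂ ζ i ≤ 1)
    (H1 : ∀ ζ ζ', u₁ ζ * u₂ ζ' ≤ u₁ (ζ ⊓ ζ') * u₂ (ζ ⊔ ζ'))
    (H2 : ∀ ζ ζ', u₁ ζ ≠ 0 → u₂ ζ' ≠ 0 → ∀ i, min (a₁ ζ i) (a₂ ζ' i) ≤ a₂ (ζ ⊔ ζ') i ∧ max (a₁ ζ i) (a₂ ζ' i) ≤ a₁ (ζ ⊓ ζ') i)
    (H3 : ∀ ζ ζ', ζ ≤ ζ' → ∀ i, a₂ ζ' i ≤ a₂ ζ i)
    (H4 : ∀ ζ, u₁ ζ ≠ 0 → ∀ i, a₂ ζ i ≤ a₁ ζ i)
    (HY0 : ∀ ζ x, 0 ≤ Y ζ x) (HY : ∀ ζ ζ', ζ ≤ ζ' → ∀ x, Y ζ x ≤ Y ζ' x) :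
    (∑ ζ, u₁ ζ * brg49M s t (a₁ ζ) (Y ζ) n) * (∑ ζ, u₂ ζ * iszZ Bool s t (a₂ ζ))
      ≤ (∑ ζ, u₁ ζ * iszZ Bool s t (a₁ ζ)) * ∑ ζ, u₂ ζ * brg49M s t (a₂ ζ) (Y ζ) n := by
  have hZ₁ : ∀ ζ, 0 < iszZ Bool s t (a₁ ζ) := fun ζ => brg49_Z_pos s t (ha₁0 ζ)
  have hZ₂ : ∀ ζ, 0 < iszZ Bool s t (a₂ ζ) := fun ζ => brg49_Z_pos s t (ha₂0 ζ)
  set g : α → ℝ := fun ζ => brg49M s t (a₂ ζ) (Y ζ) n / iszZ Bool s t (a₂ ζ) with hg
  have hgm : Monotone g := by
    intro ζ ζ' h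
    show brg49M s t (a₂ ζ) (Y ζ) n / iszZ Bool s t (a₂ ζ) ≤ brg49M s t (a₂ ζ') (Y ζ') n / iszZ Bool s t (a₂ ζ')
    rw [div_le_div_iff₀ (hZ₂ ζ) (hZ₂ ζ')]
    have := brg49_ising s t (ha₂0 ζ') (H3 ζ ζ' h) (ha₂1 ζ) (HY0 ζ) (HY ζ ζ' h) n
    linarith
  have key := isz_holley (w₁ := fun ζ => u₁ ζ * iszZ Bool s t (a₁ ζ)) (w₂ := fun ζ => u₂ ζ * iszZ Bool s t (a₂ ζ)) (f := g)
    (fun ζ => mul_nonneg (hu₁ ζ) (hZ₁ ζ).le) (fun ζ => mul_nonneg (hu₂ ζ) (hZ₂ ζ).le) hgm (fun ζ ζ' => by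
      by_cases h1 : u₁ ζ = 0
      · rw [h1, zero_mul, zero_mul]
        exact mul_nonneg (mul_nonneg (hu₁ _) (hZ₁ _).le) (mul_nonneg (hu₂ _) (hZ₂ _).le)
      by_cases h2 : u₂ ζ' = 0
      · rw [h2, zero_mul, mul_zero]
        exact mul_nonneg (mul_nonneg (hu₁ _) (hZ₁ _).le) (mul_nonneg (hu₂ _) (hZ₂ _).le)
      have hh := H2 ζ ζ' h1 h2
      have z1 := isz_Z_super (S := Bool) (by simp) s t (ha₁0 ζ) (ha₁1 ζ) (ha₂0 ζ') (ha₂1 ζ')
      have z2 : iszZ Bool s t (a₁ ζ ⊓ a₂ ζ') ≤ iszZ Bool s t (a₂ (ζ ⊔ ζ')) :=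
        isz_Z_mono s t (fun i => le_min (ha₁0 ζ i) (ha₂0 ζ' i)) fun i => (hh i).1
      have z3 : iszZ Bool s t (a₁ ζ ⊔ a₂ ζ') ≤ iszZ Bool s t (a₁ (ζ ⊓ ζ')) :=
        isz_Z_mono s t (fun i => (ha₁0 ζ i).trans (le_max_left _ _)) fun i => (hh i).2
      have z4 : iszZ Bool s t (a₁ ζ) * iszZ Bool s t (a₂ ζ') ≤ iszZ Bool s t (a₁ (ζ ⊓ ζ')) * iszZ Bool s t (a₂ (ζ ⊔ ζ')) := by
        calc _ ≤ iszZ Bool s t (a₁ ζ ⊓ a₂ ζ') * iszZ Bool s t (a₁ ζ ⊔ a₂ ζ') := z1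
          _ ≤ iszZ Bool s t (a₂ (ζ ⊔ ζ')) * iszZ Bool s t (a₁ (ζ ⊓ ζ')) :=
              mul_le_mul z2 z3 (isz_Z_nonneg s t fun i => (ha₁0 ζ i).trans (le_max_left _ _)) (hZ₂ _).le
          _ = _ := mul_comm _ _
      calc u₁ ζ * iszZ Bool s t (a₁ ζ) * (u₂ ζ' * iszZ Bool s t (a₂ ζ'))
          = (u₁ ζ * u₂ ζ') * (iszZ Bool s t (a₁ ζ) * iszZ Bool s t (a₂ ζ')) := by ring
        _ ≤ (u₁ (ζ ⊓ ζ') * u₂ (ζ ⊔ ζ')) * (iszZ Bool s t (a₁ (ζ ⊓ ζ')) * iszZ Bool s t (a₂ (ζ ⊔ ζ'))) :=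
            mul_le_mul (H1 ζ ζ') z4 (mul_nonneg (hZ₁ _).le (hZ₂ _).le) (mul_nonneg (hu₁ _) (hu₂ _))
        _ = _ := by ring)
  have e2 : ∑ ζ, u₂ ζ * iszZ Bool s t (a₂ ζ) * g ζ = ∑ ζ, u₂ ζ * brg49M s t (a₂ ζ) (Y ζ) n := by
    refine Finset.sum_congr rfl fun ζ _ => ?_
    show u₂ ζ * iszZ Bool s t (a₂ ζ) * (brg49M s t (a₂ ζ) (Y ζ) n / iszZ Bool s t (a₂ ζ)) = _
    have := (hZ₂ ζ).ne'
    field_simp
  have e1 : ∑ ζ, u₁ ζ * brg49M s t (a₁ ζ) (Y ζ) n ≤ ∑ ζ, u₁ ζ * iszZ Bool s t (a₁ ζ) * g ζ := by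
    refine Finset.sum_le_sum fun ζ _ => ?_
    by_cases h1 : u₁ ζ = 0
    · rw [h1, zero_mul, zero_mul, zero_mul]
    rw [mul_assoc]
    refine mul_le_mul_of_nonneg_left ?_ (hu₁ ζ)
    show _ ≤ iszZ Bool s t (a₁ ζ) * (brg49M s t (a₂ ζ) (Y ζ) n / iszZ Bool s t (a₂ ζ))
    rw [mul_div_assoc', le_div_iff₀ (hZ₂ ζ)]
    exact brg49_ising s t (ha₂0 ζ) (H4 ζ h1) (ha₁1 ζ) (HY0 ζ) (fun _ => le_rfl) n
  rw [e2] at key
  exact (mul_le_mul_of_nonneg_right e1 (Finset.sum_nonneg fun ζ _ => mul_nonneg (hu₂ ζ) (hZ₂ ζ).le)).trans key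

end Two

/-! ## 3. Heights (`Mdl51`): moments of a nonnegative pairing -/

section Heights

variable {V ιE ιO ιD ιX : Type} [Fintype V] [DecidableEq V] [Fintype ιE] [DecidableEq ιE] [Fintype ιO] [DecidableEq ιO]
  [Fintype ιD] [DecidableEq ιD] [Fintype ιX] [DecidableEq ιX]

/-- the pairing of a height with `φ` -/
def brg49X (φ : V → ℝ) (k : V → ℤ) : ℝ := ∑ x, φ x * (k x : ℝ)

/-- the magnitudes `φ x * ζ x` -/
def brg49Y {N : ℕ} (φ : V → ℝ) (ζ : V → Fin (N + 1)) : V → ℝ := fun x => φ x * ((ζ x : ℕ) : ℝ)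

theorem brg49_X_sg {N : ℕ} (φ : V → ℝ) (σ : V → Bool) (ζ : V → Fin (N + 1)) :
    brg49X φ (mdl51_sg σ ζ) = ∑ x, brg49Y φ ζ x * brg49Sg (σ x) := by
  unfold brg49X brg49Y mdl51_sg brg49Sg
  refine Finset.sum_congr rfl fun x _ => ?_
  cases σ x <;> simp

theorem brg49_M_zero {ι : Type} [Fintype ι] [DecidableEq ι] (s t : ι → V) (a : ι → ℝ) (y : V → ℝ) :
    brg49M s t a y 0 = iszZ Bool s t a := by
  unfold brg49M iszZ
  simp

/-- **change of variables** `k = σ·ζ` for the moments -/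
theorem brg49_sum_moment (G : Mdl51 V ιE ιO ιD ιX) (hG : G.Ok) (t : ℝ) (N n : ℕ) (I : (V → Fin (N + 1)) → ℝ) (φ : V → ℝ) :
    ∑ k ∈ mdl51_box V N, G.wt t k * (I (mdl51_abs N k) * brg49X φ k ^ n)
      = ∑ ζ : V → Fin (N + 1), (mdl51_z ζ * (G.pref t ζ * I ζ)) * brg49M G.es G.et (G.ea t ζ) (brg49Y φ ζ) n := by
  rw [mdl51_sum_box]
  refine Finset.sum_congr rfl fun ζ _ => ?_
  unfold brg49M
  rw [Finset.mul_sum]
  refine Finset.sum_congr rfl fun σ _ => ?_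
  rw [mdl51_abs_sg, mdl51_wt_sg G hG, brg49_X_sg]
  ring

theorem brg49_sum_mass (G : Mdl51 V ιE ιO ιD ιX) (hG : G.Ok) (t : ℝ) (N : ℕ) (I : (V → Fin (N + 1)) → ℝ) :
    ∑ k ∈ mdl51_box V N, G.wt t k * I (mdl51_abs N k)
      = ∑ ζ : V → Fin (N + 1), (mdl51_z ζ * (G.pref t ζ * I ζ)) * iszZ Bool G.es G.et (G.ea t ζ) := by
  have h := brg49_sum_moment G hG t N 0 I (fun _ => 0)
  simp only [pow_zero, mul_one, brg49_M_zero] at h
  exact h

/-- the corner graph without the odd diagonal pairs in `R` -/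
def brg49Res (G : Mdl51 V ιE ιO ιD ιX) (R : ιO → Prop) : Mdl51 V ιE {i : ιO // ¬ R i} ιD ιX where
  odd := G.odd
  eu := G.eu
  ev := G.ev
  ox := fun i => G.ox i.1
  oy := fun i => G.oy i.1
  dx := G.dx
  dy := G.dy
  xs := G.xs
  xt := G.xt

theorem brg49_res_ok {G : Mdl51 V ιE ιO ιD ιX} (hG : G.Ok) (R : ιO → Prop) : (brg49Res G R).Ok where
  eu_even := hG.eu_even
  ev_odd := hG.ev_odd
  ox_odd := fun i => hG.ox_odd i.1
  oy_odd := fun i => hG.oy_odd i.1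
  dx_even := hG.dx_even
  dy_even := hG.dy_even
  xt_odd := hG.xt_odd
  o_nbr := fun i => hG.o_nbr i.1
  d_nbr := hG.d_nbr

/-- the costs of the graph without `R`, on the edges of the whole graph: cost `1` (no interaction) on `R` -/
noncomputable def brg49ea (G : Mdl51 V ιE ιO ιD ιX) (t : ℝ) (R : ιO → Prop) [DecidablePred R] {N : ℕ} (ζ : V → Fin (N + 1)) :
    ιE ⊕ ιO ⊕ ιX → ℝ :=
  Sum.elim (fun i => G.ea t ζ (Sum.inl i))
    (Sum.elim (fun i => if R i then 1 else G.ea t ζ (Sum.inr (Sum.inl i))) (fun i => G.ea t ζ (Sum.inr (Sum.inr i))))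

theorem brg49_prod_not (R : ιO → Prop) [DecidablePred R] (f : ιO → ℝ) :
    ∏ i : {i : ιO // ¬ R i}, f i.1 = ∏ i, (if R i then 1 else f i) := by
  rw [← Finset.prod_subtype (Finset.univ.filter fun i => ¬ R i) (by simp) f, Finset.prod_filter]
  refine Finset.prod_congr rfl fun i _ => ?_
  by_cases h : R i <;> simp [h]

theorem brg49_res_prod (G : Mdl51 V ιE ιO ιD ιX) (t : ℝ) (R : ιO → Prop) [DecidablePred R] {N : ℕ} (ζ : V → Fin (N + 1))
    (σ : V → Bool) :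
    ∏ i, (if σ ((brg49Res G R).es i) = σ ((brg49Res G R).et i) then 1 else (brg49Res G R).ea t ζ i)
      = ∏ i, (if σ (G.es i) = σ (G.et i) then 1 else brg49ea G t R ζ i) := by
  rw [Fintype.prod_sum_type, Fintype.prod_sum_type, Fintype.prod_sum_type, Fintype.prod_sum_type]
  congr 1
  congr 1
  have h := brg49_prod_not R (fun i => if σ (G.ox i) = σ (G.oy i) then (1 : ℝ) else G.ea t ζ (Sum.inr (Sum.inl i)))
  refine h.trans (Finset.prod_congr rfl fun i _ => ?_)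
  show _ = if σ (G.ox i) = σ (G.oy i) then (1 : ℝ) else if R i then 1 else G.ea t ζ (Sum.inr (Sum.inl i))
  by_cases h1 : R i <;> by_cases h2 : σ (G.ox i) = σ (G.oy i) <;> simp [h1, h2]

theorem brg49_res_M (G : Mdl51 V ιE ιO ιD ιX) (t : ℝ) (R : ιO → Prop) [DecidablePred R] {N : ℕ} (ζ : V → Fin (N + 1))
    (y : V → ℝ) (n : ℕ) :
    brg49M (brg49Res G R).es (brg49Res G R).et ((brg49Res G R).ea t ζ) y n = brg49M G.es G.et (brg49ea G t R ζ) y n := by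
  unfold brg49M
  refine Finset.sum_congr rfl fun σ _ => ?_
  rw [brg49_res_prod]

theorem brg49_res_Z (G : Mdl51 V ιE ιO ιD ιX) (t : ℝ) (R : ιO → Prop) [DecidablePred R] {N : ℕ} (ζ : V → Fin (N + 1)) :
    iszZ Bool (brg49Res G R).es (brg49Res G R).et ((brg49Res G R).ea t ζ) = iszZ Bool G.es G.et (brg49ea G t R ζ) := by
  rw [← brg49_M_zero _ _ _ (fun _ => 0), ← brg49_M_zero _ _ _ (fun _ => 0), brg49_res_M]

/-- the prefactors agree when the pairs of `R` sit at height `≤ 1` -/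
theorem brg49_res_pref (G : Mdl51 V ιE ιO ιD ιX) (hG : G.Ok) (t : ℝ) (R : ιO → Prop) [DecidablePred R] {N : ℕ}
    (ζ : V → Fin (N + 1)) (hR : G.AdmN ζ → ∀ i, R i → (ζ (G.ox i) : ℕ) ≤ 1 ∧ (ζ (G.oy i) : ℕ) ≤ 1) :
    (brg49Res G R).pref t ζ = G.pref t ζ := by
  classical
  unfold Mdl51.pref
  have hA : (brg49Res G R).AdmN ζ ↔ G.AdmN ζ := Iff.rfl
  by_cases h : G.AdmN ζ
  · rw [if_pos h, if_pos (hA.2 h)]
    congr 1
    have h1 := brg49_prod_not R (fun i => if ζ (G.ox i) = ζ (G.oy i) then (1 : ℝ) else t)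
    refine h1.trans (Finset.prod_congr rfl fun i _ => ?_)
    by_cases hi : R i
    · rw [if_pos hi]
      obtain ⟨b1, b2⟩ := hR h i hi
      have o1 : Odd (ζ (G.ox i) : ℕ) := (h.1 _).2 (hG.ox_odd i)
      have o2 : Odd (ζ (G.oy i) : ℕ) := (h.1 _).2 (hG.oy_odd i)
      have e : ζ (G.ox i) = ζ (G.oy i) := by
        apply Fin.ext
        obtain ⟨p, hp⟩ := o1
        obtain ⟨q, hq⟩ := o2
        omega
      rw [if_pos e]
    · rw [if_neg hi]
  · rw [if_neg h, if_neg (fun hc => h (hA.1 hc))]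

theorem brg49_ea_nonneg (G : Mdl51 V ιE ιO ιD ιX) {t : ℝ} (ht0 : 0 ≤ t) (R : ιO → Prop) [DecidablePred R] {N : ℕ}
    (ζ : V → Fin (N + 1)) (i : ιE ⊕ ιO ⊕ ιX) : 0 ≤ brg49ea G t R ζ i := by
  rcases i with i | i | i
  · exact mdl51_ea_nonneg G ht0 ζ (Sum.inl i)
  · show (0 : ℝ) ≤ if R i then 1 else G.ea t ζ (Sum.inr (Sum.inl i))
    split_ifs
    · exact zero_le_one
    · exact mdl51_ea_nonneg G ht0 ζ _
  · exact mdl51_ea_nonneg G ht0 ζ (Sum.inr (Sum.inr i))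

theorem brg49_ea_le_one (G : Mdl51 V ιE ιO ιD ιX) {t : ℝ} (ht1 : t ≤ 1) (R : ιO → Prop) [DecidablePred R] {N : ℕ}
    (ζ : V → Fin (N + 1)) (i : ιE ⊕ ιO ⊕ ιX) : brg49ea G t R ζ i ≤ 1 := by
  rcases i with i | i | i
  · exact mdl51_ea_le_one G ht1 ζ (Sum.inl i)
  · show (if R i then 1 else G.ea t ζ (Sum.inr (Sum.inl i))) ≤ (1 : ℝ)
    split_ifs
    · exact le_rfl
    · exact mdl51_ea_le_one G ht1 ζ _
  · exact mdl51_ea_le_one G ht1 ζ (Sum.inr (Sum.inr i))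

theorem brg49_ea_le (G : Mdl51 V ιE ιO ιD ιX) {t : ℝ} (ht1 : t ≤ 1) (R : ιO → Prop) [DecidablePred R] {N : ℕ}
    (ζ : V → Fin (N + 1)) (i : ιE ⊕ ιO ⊕ ιX) : G.ea t ζ i ≤ brg49ea G t R ζ i := by
  rcases i with i | i | i
  · exact le_rfl
  · show G.ea t ζ (Sum.inr (Sum.inl i)) ≤ if R i then 1 else G.ea t ζ (Sum.inr (Sum.inl i))
    split_ifs
    · exact mdl51_ea_le_one G ht1 ζ _
    · exact le_rfl
  · exact le_rfl

/-- **ALL MOMENTS OF A NONNEGATIVE PAIRING ARE MONOTONE** (`0 ≤ t ≤ 1`, `φ ≥ 0`).   The law `1`: the graph WITHOUT the odd pairs in `R`, conditioned by `I₁ (|k|)`;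
the law `2`: the whole graph, conditioned by `I₂ (|k|)`;  `I₁`, `I₂` in Holley order;  on the (admissible) support of `I₁` the pairs of `R` sit at height `≤ 1`.
(Domain monotonicity: `I₁` pins `|k|` to its minimal values off the small domain, `R` = the dual edges that leave the small domain.) -/
theorem brg49_moment_res (G : Mdl51 V ιE ιO ιD ιX) (hG : G.Ok) {t : ℝ} (ht0 : 0 ≤ t) (ht1 : t ≤ 1) (N n : ℕ)
    (R : ιO → Prop) [DecidablePred R] {I₁ I₂ : (V → Fin (N + 1)) → ℝ} (h1 : ∀ a, 0 ≤ I₁ a) (h2 : ∀ a, 0 ≤ I₂ a)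
    (h12 : ∀ a b, I₁ a * I₂ b ≤ I₁ (a ⊓ b) * I₂ (a ⊔ b))
    (hR : ∀ ζ, I₁ ζ ≠ 0 → G.AdmN ζ → ∀ i, R i → (ζ (G.ox i) : ℕ) ≤ 1 ∧ (ζ (G.oy i) : ℕ) ≤ 1)
    {φ : V → ℝ} (hφ : ∀ x, 0 ≤ φ x) :
    (∑ k ∈ mdl51_box V N, (brg49Res G R).wt t k * (I₁ (mdl51_abs N k) * brg49X φ k ^ n)) *
        (∑ k ∈ mdl51_box V N, G.wt t k * I₂ (mdl51_abs N k)) ≤
      (∑ k ∈ mdl51_box V N, (brg49Res G R).wt t k * I₁ (mdl51_abs N k)) *
        ∑ k ∈ mdl51_box V N, G.wt t k * (I₂ (mdl51_abs N k) * brg49X φ k ^ n) := by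
  rw [brg49_sum_moment _ (brg49_res_ok hG R), brg49_sum_mass G hG, brg49_sum_mass _ (brg49_res_ok hG R), brg49_sum_moment G hG]
  have hp : ∀ ζ : V → Fin (N + 1), (brg49Res G R).pref t ζ * I₁ ζ = G.pref t ζ * I₁ ζ := by
    intro ζ
    by_cases h : I₁ ζ = 0
    · rw [h, mul_zero, mul_zero]
    · rw [brg49_res_pref G hG t R ζ (hR ζ h)]
  simp_rw [hp, brg49_res_M, brg49_res_Z]
  refine brg49_two G.es G.et (fun ζ => mdl51_z ζ * (G.pref t ζ * I₁ ζ)) (fun ζ => mdl51_z ζ * (G.pref t ζ * I₂ ζ))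
    (fun ζ => brg49ea G t R ζ) (fun ζ => G.ea t ζ) (fun ζ => brg49Y φ ζ) n
    (fun ζ => mul_nonneg (mdl51_z_pos ζ).le (mul_nonneg (mdl51_pref_nonneg G ht0 ζ) (h1 ζ)))
    (fun ζ => mul_nonneg (mdl51_z_pos ζ).le (mul_nonneg (mdl51_pref_nonneg G ht0 ζ) (h2 ζ)))
    (brg49_ea_nonneg G ht0 R) (brg49_ea_le_one G ht1 R) (mdl51_ea_nonneg G ht0) (mdl51_ea_le_one G ht1) ?_ ?_ ?_ ?_ ?_ ?_
  · intro ζ ζ'
    have a1 := mdl51_z_mul ζ ζ'
    have a2 := mdl51_pref_lattice G hG ht0 ht1 ζ ζ'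
    have a3 : (G.pref t ζ * G.pref t ζ') * (I₁ ζ * I₂ ζ') ≤ (G.pref t (ζ ⊓ ζ') * G.pref t (ζ ⊔ ζ')) * (I₁ (ζ ⊓ ζ') * I₂ (ζ ⊔ ζ')) :=
      mul_le_mul a2 (h12 ζ ζ') (mul_nonneg (h1 _) (h2 _)) (mul_nonneg (mdl51_pref_nonneg G ht0 _) (mdl51_pref_nonneg G ht0 _))
    calc mdl51_z ζ * (G.pref t ζ * I₁ ζ) * (mdl51_z ζ' * (G.pref t ζ' * I₂ ζ'))
        = (mdl51_z ζ * mdl51_z ζ') * ((G.pref t ζ * G.pref t ζ') * (I₁ ζ * I₂ ζ')) := by ring
      _ ≤ (mdl51_z ζ * mdl51_z ζ') * ((G.pref t (ζ ⊓ ζ') * G.pref t (ζ ⊔ ζ')) * (I₁ (ζ ⊓ ζ') * I₂ (ζ ⊔ ζ'))) :=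
          mul_le_mul_of_nonneg_left a3 (mul_nonneg (mdl51_z_pos _).le (mdl51_z_pos _).le)
      _ = _ := by rw [a1]; ring
  · intro ζ ζ' hu1 _ i
    have hI : I₁ ζ ≠ 0 := by
      intro h
      apply hu1
      rw [h, mul_zero, mul_zero]
    have hAd : G.AdmN ζ := by
      by_contra h
      apply hu1
      have : G.pref t ζ = 0 := by unfold Mdl51.pref; rw [if_neg h]
      rw [this, zero_mul, mul_zero]
    have hsup : G.ea t (ζ ⊔ ζ') i = min (G.ea t ζ i) (G.ea t ζ' i) := by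
      rw [mdl51_ea_sup G ht0]; rfl
    have hinf : max (G.ea t ζ i) (G.ea t ζ' i) ≤ G.ea t (ζ ⊓ ζ') i :=
      max_le (mdl51_ea_anti G ht0 inf_le_left i) (mdl51_ea_anti G ht0 inf_le_right i)
    rcases i with i | i | i
    · exact ⟨hsup.ge, hinf⟩
    · by_cases hi : R i
      · have e1 : ∀ ξ : V → Fin (N + 1), brg49ea G t R ξ (Sum.inr (Sum.inl i)) = 1 := fun ξ => if_pos hi
        rw [e1, e1, hsup]
        obtain ⟨b1, b2⟩ := hR ζ hI hAd i hi
        have e2 : G.ea t ζ (Sum.inr (Sum.inl i)) = t := if_pos ⟨b1, b2⟩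
        have e3 : G.ea t ζ' (Sum.inr (Sum.inl i)) ≤ t := by
          show (if (ζ' (G.ox i) : ℕ) ≤ 1 ∧ (ζ' (G.oy i) : ℕ) ≤ 1 then t else 0) ≤ t
          split_ifs
          · exact le_rfl
          · exact ht0
        rw [e2]
        exact ⟨le_min ((min_le_right _ _).trans e3) (min_le_right _ _), max_le le_rfl (mdl51_ea_le_one G ht1 ζ' _)⟩
      · have e1 : ∀ ξ : V → Fin (N + 1), brg49ea G t R ξ (Sum.inr (Sum.inl i)) = G.ea t ξ (Sum.inr (Sum.inl i)) :=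
          fun ξ => if_neg hi
        rw [e1, e1]
        exact ⟨hsup.ge, hinf⟩
    · exact ⟨hsup.ge, hinf⟩
  · intro ζ ζ' h i
    exact mdl51_ea_anti G ht0 h i
  · intro ζ _ i
    exact brg49_ea_le G ht1 R ζ i
  · intro ζ x
    exact mul_nonneg (hφ x) (Nat.cast_nonneg _)
  · intro ζ ζ' h x
    exact mul_le_mul_of_nonneg_left (Nat.cast_le.2 (h x)) (hφ x)

/-- the same on ONE graph: two conditionings of `|k|` in Holley order -/
theorem brg49_moment_holley (G : Mdl51 V ιE ιO ιD ιX) (hG : G.Ok) {t : ℝ} (ht0 : 0 ≤ t) (ht1 : t ≤ 1) (N n : ℕ)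
    {I₁ I₂ : (V → Fin (N + 1)) → ℝ} (h1 : ∀ a, 0 ≤ I₁ a) (h2 : ∀ a, 0 ≤ I₂ a)
    (h12 : ∀ a b, I₁ a * I₂ b ≤ I₁ (a ⊓ b) * I₂ (a ⊔ b)) {φ : V → ℝ} (hφ : ∀ x, 0 ≤ φ x) :
    (∑ k ∈ mdl51_box V N, G.wt t k * (I₁ (mdl51_abs N k) * brg49X φ k ^ n)) *
        (∑ k ∈ mdl51_box V N, G.wt t k * I₂ (mdl51_abs N k)) ≤
      (∑ k ∈ mdl51_box V N, G.wt t k * I₁ (mdl51_abs N k)) *
        ∑ k ∈ mdl51_box V N, G.wt t k * (I₂ (mdl51_abs N k) * brg49X φ k ^ n) := by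
  rw [brg49_sum_moment G hG, brg49_sum_mass G hG, brg49_sum_mass G hG, brg49_sum_moment G hG]
  refine brg49_two G.es G.et (fun ζ => mdl51_z ζ * (G.pref t ζ * I₁ ζ)) (fun ζ => mdl51_z ζ * (G.pref t ζ * I₂ ζ))
    (fun ζ => G.ea t ζ) (fun ζ => G.ea t ζ) (fun ζ => brg49Y φ ζ) n
    (fun ζ => mul_nonneg (mdl51_z_pos ζ).le (mul_nonneg (mdl51_pref_nonneg G ht0 ζ) (h1 ζ)))
    (fun ζ => mul_nonneg (mdl51_z_pos ζ).le (mul_nonneg (mdl51_pref_nonneg G ht0 ζ) (h2 ζ)))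
    (mdl51_ea_nonneg G ht0) (mdl51_ea_le_one G ht1) (mdl51_ea_nonneg G ht0) (mdl51_ea_le_one G ht1) ?_ ?_ ?_ ?_ ?_ ?_
  · intro ζ ζ'
    have a1 := mdl51_z_mul ζ ζ'
    have a2 := mdl51_pref_lattice G hG ht0 ht1 ζ ζ'
    have a3 : (G.pref t ζ * G.pref t ζ') * (I₁ ζ * I₂ ζ') ≤ (G.pref t (ζ ⊓ ζ') * G.pref t (ζ ⊔ ζ')) * (I₁ (ζ ⊓ ζ') * I₂ (ζ ⊔ ζ')) :=
      mul_le_mul a2 (h12 ζ ζ') (mul_nonneg (h1 _) (h2 _)) (mul_nonneg (mdl51_pref_nonneg G ht0 _) (mdl51_pref_nonneg G ht0 _))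
    calc mdl51_z ζ * (G.pref t ζ * I₁ ζ) * (mdl51_z ζ' * (G.pref t ζ' * I₂ ζ'))
        = (mdl51_z ζ * mdl51_z ζ') * ((G.pref t ζ * G.pref t ζ') * (I₁ ζ * I₂ ζ')) := by ring
      _ ≤ (mdl51_z ζ * mdl51_z ζ') * ((G.pref t (ζ ⊓ ζ') * G.pref t (ζ ⊔ ζ')) * (I₁ (ζ ⊓ ζ') * I₂ (ζ ⊔ ζ'))) :=
          mul_le_mul_of_nonneg_left a3 (mul_nonneg (mdl51_z_pos _).le (mdl51_z_pos _).le)
      _ = _ := by rw [a1]; ring
  · intro ζ ζ' _ _ i
    have hsup : G.ea t (ζ ⊔ ζ') i = min (G.ea t ζ i) (G.ea t ζ' i) := by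
      rw [mdl51_ea_sup G ht0]; rfl
    exact ⟨hsup.ge, max_le (mdl51_ea_anti G ht0 inf_le_left i) (mdl51_ea_anti G ht0 inf_le_right i)⟩
  · intro ζ ζ' h i
    exact mdl51_ea_anti G ht0 h i
  · intro ζ _ i
    exact le_rfl
  · intro ζ x
    exact mul_nonneg (hφ x) (Nat.cast_nonneg _)
  · intro ζ ζ' h x
    exact mul_le_mul_of_nonneg_left (Nat.cast_le.2 (h x)) (hφ x)

/-- from all moments to the Laplace transform at `s ≥ 0`: an abstract summation lemma -/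
theorem brg49_exp_of_moments {κ κ' : Type} (A : Finset κ) (B : Finset κ') (w₁ : κ → ℝ) (w₂ : κ' → ℝ) (X₁ : κ → ℝ) (X₂ : κ' → ℝ)
    (Z₁ Z₂ : ℝ) (h : ∀ n : ℕ, (∑ k ∈ A, w₁ k * X₁ k ^ n) * Z₂ ≤ Z₁ * ∑ k ∈ B, w₂ k * X₂ k ^ n) {s : ℝ} (hs : 0 ≤ s) :
    (∑ k ∈ A, w₁ k * Real.exp (s * X₁ k)) * Z₂ ≤ Z₁ * ∑ k ∈ B, w₂ k * Real.exp (s * X₂ k) := by
  have hexp : ∀ x : ℝ, HasSum (fun n : ℕ => x ^ n / (n.factorial : ℝ)) (Real.exp x) := by
    intro x
    rw [Real.exp_eq_exp_ℝ]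
    exact NormedSpace.expSeries_div_hasSum_exp x
  have s1 : HasSum (fun n : ℕ => (∑ k ∈ A, w₁ k * ((s * X₁ k) ^ n / (n.factorial : ℝ))) * Z₂)
      ((∑ k ∈ A, w₁ k * Real.exp (s * X₁ k)) * Z₂) :=
    (hasSum_sum fun k _ => (hexp (s * X₁ k)).mul_left (w₁ k)).mul_right Z₂
  have s2 : HasSum (fun n : ℕ => Z₁ * ∑ k ∈ B, w₂ k * ((s * X₂ k) ^ n / (n.factorial : ℝ)))
      (Z₁ * ∑ k ∈ B, w₂ k * Real.exp (s * X₂ k)) :=
    (hasSum_sum fun k _ => (hexp (s * X₂ k)).mul_left (w₂ k)).mul_left Z₁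
  refine hasSum_le (fun n => ?_) s1 s2
  have c0 : 0 ≤ s ^ n / (n.factorial : ℝ) := by positivity
  have e1 : ∑ k ∈ A, w₁ k * ((s * X₁ k) ^ n / (n.factorial : ℝ)) = (s ^ n / (n.factorial : ℝ)) * ∑ k ∈ A, w₁ k * X₁ k ^ n := by
    rw [Finset.mul_sum]
    refine Finset.sum_congr rfl fun k _ => ?_
    rw [mul_pow]; ring
  have e2 : ∑ k ∈ B, w₂ k * ((s * X₂ k) ^ n / (n.factorial : ℝ)) = (s ^ n / (n.factorial : ℝ)) * ∑ k ∈ B, w₂ k * X₂ k ^ n := by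
    rw [Finset.mul_sum]
    refine Finset.sum_congr rfl fun k _ => ?_
    rw [mul_pow]; ring
  rw [e1, e2]
  have := mul_le_mul_of_nonneg_left (h n) c0
  calc _ = s ^ n / (n.factorial : ℝ) * ((∑ k ∈ A, w₁ k * X₁ k ^ n) * Z₂) := by ring
    _ ≤ s ^ n / (n.factorial : ℝ) * (Z₁ * ∑ k ∈ B, w₂ k * X₂ k ^ n) := this
    _ = _ := by ring

/-- **the Laplace transform of a nonnegative pairing is monotone** (no factor) -/
theorem brg49_exp_res (G : Mdl51 V ιE ιO ιD ιX) (hG : G.Ok) {t : ℝ} (ht0 : 0 ≤ t) (ht1 : t ≤ 1) (N : ℕ)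
    (R : ιO → Prop) [DecidablePred R] {I₁ I₂ : (V → Fin (N + 1)) → ℝ} (h1 : ∀ a, 0 ≤ I₁ a) (h2 : ∀ a, 0 ≤ I₂ a)
    (h12 : ∀ a b, I₁ a * I₂ b ≤ I₁ (a ⊓ b) * I₂ (a ⊔ b))
    (hR : ∀ ζ, I₁ ζ ≠ 0 → G.AdmN ζ → ∀ i, R i → (ζ (G.ox i) : ℕ) ≤ 1 ∧ (ζ (G.oy i) : ℕ) ≤ 1)
    {φ : V → ℝ} (hφ : ∀ x, 0 ≤ φ x) {s : ℝ} (hs : 0 ≤ s) :
    (∑ k ∈ mdl51_box V N, (brg49Res G R).wt t k * (I₁ (mdl51_abs N k) * Real.exp (s * brg49X φ k))) *
        (∑ k ∈ mdl51_box V N, G.wt t k * I₂ (mdl51_abs N k)) ≤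
      (∑ k ∈ mdl51_box V N, (brg49Res G R).wt t k * I₁ (mdl51_abs N k)) *
        ∑ k ∈ mdl51_box V N, G.wt t k * (I₂ (mdl51_abs N k) * Real.exp (s * brg49X φ k)) := by
  have key := brg49_exp_of_moments (mdl51_box V N) (mdl51_box V N) (fun k => (brg49Res G R).wt t k * I₁ (mdl51_abs N k))
    (fun k => G.wt t k * I₂ (mdl51_abs N k)) (brg49X φ) (brg49X φ) (∑ k ∈ mdl51_box V N, (brg49Res G R).wt t k * I₁ (mdl51_abs N k))
    (∑ k ∈ mdl51_box V N, G.wt t k * I₂ (mdl51_abs N k)) (fun n => by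
      have := brg49_moment_res G hG ht0 ht1 N n R h1 h2 h12 hR hφ
      simpa only [mul_assoc] using this) hs
  simpa only [mul_assoc] using key

end Heights

/-- the equation and congruence lemmas of the definitions of sections 1-3 are generated HERE, once (RULES.md, rule 6) -/
theorem brg49_eqns_cite : True := by
  have := @brg49Sg.eq_1
  have := @brg49H.eq_1
  have := @brg49Chi.eq_1
  have := @brg49h.eq_1
  have := @brg49M.eq_1
  have := @brg49X.eq_1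
  have := @brg49Y.eq_1
  have := @brg49Res.eq_1
  have := @brg49ea.eq_1
  have := @brg49Sg.congr_simp
  have := @brg49H.congr_simp
  have := @brg49Chi.congr_simp
  have := @brg49h.congr_simp
  have := @brg49M.congr_simp
  have := @brg49X.congr_simp
  have := @brg49Y.congr_simp
  have := @brg49Res.congr_simp
  have := @brg49ea.congr_simp
  trivial

/-! ## 4. The frozen Ashkin-Teller measure: monotonicity in the domain -/

section Frozen

open Claims Claims.C0468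

theorem brg49_corners_mono {F F' : Finset (ℤ × ℤ)} (h : F ⊆ F') : cornersOf F ⊆ cornersOf F' := by
  intro v hv
  obtain ⟨f, hf, hvf⟩ := (mdl21_mem_corners F v).1 hv
  exact (mdl21_mem_corners F' v).2 ⟨f, h hf, hvf⟩

/-- a corner of a face outside `F` is not interior to `F` -/
theorem brg49_pol_of_cor {F : Finset (ℤ × ℤ)} {f v : ℤ × ℤ} (hf : f ∉ F) (hv : v ∈ mdl21Cor f) : OnPolygon F v := by
  rw [mdl21_mem_cor] at hv
  unfold OnPolygon
  rintro ⟨h1, h2, h3, h4⟩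
  rcases hv with rfl | rfl | rfl | rfl
  · exact hf h1
  · apply hf; simpa using h2
  · apply hf; simpa using h3
  · apply hf; simpa using h4

theorem brg49_pol_of_not_corner {F : Finset (ℤ × ℤ)} {v : ℤ × ℤ} (hv : v ∉ cornersOf F) : OnPolygon F v := by
  unfold OnPolygon
  rintro ⟨h1, -⟩
  exact hv (mdl21_cor_sub h1 (by simp [mdl21Cor]))

theorem brg49_pol_mono {F F' : Finset (ℤ × ℤ)} (h : F ⊆ F') {v : ℤ × ℤ} (hv : OnPolygon F' v) : OnPolygon F v := by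
  unfold OnPolygon at hv ⊢
  rintro ⟨h1, h2, h3, h4⟩
  exact hv ⟨h h1, h h2, h h3, h h4⟩

/-- sites of the corner graph of `F'` -/
abbrev brg49V (F' : Finset (ℤ × ℤ)) : Type := ↥(cornersOf F') ⊕ ↥F'

/-- incidences face - corner -/
abbrev brg49IE (F' : Finset (ℤ × ℤ)) : Type := {p : ↥F' × ↥(cornersOf F') // p.2.1 ∈ mdl21Cor p.1.1}

/-- interior edges (plaquettes): horizontal, vertical -/
abbrev brg49IO (F' : Finset (ℤ × ℤ)) : Type :=
  {v : ↥(cornersOf F') // mdl21Ih F' v.1} ⊕ {v : ↥(cornersOf F') // mdl21Iv F' v.1}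

/-- **the corner graph of `F'`** in the vocabulary of `AbsFkg51` -/
def brg49G (F' : Finset (ℤ × ℤ)) : Mdl51 (brg49V F') (brg49IE F') (brg49IO F') (brg49IO F') Empty where
  odd := fun x => x.isRight = true
  eu := fun p => Sum.inl p.1.2
  ev := fun p => Sum.inr p.1.1
  ox := Sum.elim (fun v => Sum.inr ⟨v.1.1, v.2.1⟩) (fun v => Sum.inr ⟨v.1.1, v.2.1⟩)
  oy := Sum.elim (fun v => Sum.inr ⟨(v.1.1.1, v.1.1.2 - 1), v.2.2⟩) (fun v => Sum.inr ⟨(v.1.1.1 - 1, v.1.1.2), v.2.2⟩)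
  dx := Sum.elim (fun v => Sum.inl v.1) (fun v => Sum.inl v.1)
  dy := Sum.elim (fun v => Sum.inl ⟨(v.1.1.1 + 1, v.1.1.2), mdl21_cor_sub v.2.1 (by simp [mdl21Cor])⟩)
    (fun v => Sum.inl ⟨(v.1.1.1, v.1.1.2 + 1), mdl21_cor_sub v.2.1 (by simp [mdl21Cor])⟩)
  xs := Empty.elim
  xt := Empty.elim

theorem brg49_G_ok (F' : Finset (ℤ × ℤ)) : (brg49G F').Ok where
  eu_even := fun i => by simp [brg49G]
  ev_odd := fun i => by simp [brg49G]
  ox_odd := fun i => by rcases i with i | i <;> simp [brg49G]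
  oy_odd := fun i => by rcases i with i | i <;> simp [brg49G]
  dx_even := fun i => by rcases i with i | i <;> simp [brg49G]
  dy_even := fun i => by rcases i with i | i <;> simp [brg49G]
  xt_odd := fun i => i.elim
  o_nbr := fun i => by
    rcases i with v | v
    · exact ⟨⟨(⟨v.1.1, v.2.1⟩, v.1), by simp [mdl21Cor]⟩, ⟨(⟨(v.1.1.1, v.1.1.2 - 1), v.2.2⟩, v.1), by simp [mdl21Cor]⟩, rfl, rfl, rfl⟩
    · exact ⟨⟨(⟨v.1.1, v.2.1⟩, v.1), by simp [mdl21Cor]⟩, ⟨(⟨(v.1.1.1 - 1, v.1.1.2), v.2.2⟩, v.1), by simp [mdl21Cor]⟩, rfl, rfl, rfl⟩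
  d_nbr := fun i => by
    rcases i with v | v
    · exact ⟨⟨(⟨v.1.1, v.2.1⟩, v.1), by simp [mdl21Cor]⟩,
        ⟨(⟨v.1.1, v.2.1⟩, ⟨(v.1.1.1 + 1, v.1.1.2), mdl21_cor_sub v.2.1 (by simp [mdl21Cor])⟩), by simp [mdl21Cor]⟩, rfl, rfl, rfl⟩
    · exact ⟨⟨(⟨v.1.1, v.2.1⟩, v.1), by simp [mdl21Cor]⟩,
        ⟨(⟨v.1.1, v.2.1⟩, ⟨(v.1.1.1, v.1.1.2 + 1), mdl21_cor_sub v.2.1 (by simp [mdl21Cor])⟩), by simp [mdl21Cor]⟩, rfl, rfl, rfl⟩

/-- the dual edges that are not inside `F` -/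
def brg49R (F F' : Finset (ℤ × ℤ)) : brg49IO F' → Prop :=
  Sum.elim (fun v => ¬ mdl21Ih F v.1.1) (fun v => ¬ mdl21Iv F v.1.1)

instance (F F' : Finset (ℤ × ℤ)) : DecidablePred (brg49R F F') := fun i => by
  rcases i with v | v
  · exact inferInstanceAs (Decidable (¬ mdl21Ih F v.1.1))
  · exact inferInstanceAs (Decidable (¬ mdl21Iv F v.1.1))

/-- the vertex heights of `k`, as a total function -/
def brg49k1 {F' : Finset (ℤ × ℤ)} (k : brg49V F' → ℤ) (v : ℤ × ℤ) : ℤ :=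
  if h : v ∈ cornersOf F' then k (Sum.inl ⟨v, h⟩) else 0

/-- the face heights of `k`, as a total function -/
def brg49k2 {F' : Finset (ℤ × ℤ)} (k : brg49V F' → ℤ) (f : ℤ × ℤ) : ℤ :=
  if h : f ∈ F' then k (Sum.inr ⟨f, h⟩) else 0

/-- the height of `F` read on `k` -/
def brg49K (F : Finset (ℤ × ℤ)) {F' : Finset (ℤ × ℤ)} (k : brg49V F' → ℤ) : (ℤ × ℤ → ℤ) × (ℤ × ℤ → ℤ) :=
  (brg49k1 k, fun f => if f ∈ F then brg49k2 k f else 0)

/-- `k` vanishes at the vertices that are not interior to `F` -/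
def brg49Pin (F : Finset (ℤ × ℤ)) {F' : Finset (ℤ × ℤ)} (k : brg49V F' → ℤ) : Prop :=
  ∀ v : ↥(cornersOf F'), OnPolygon F v.1 → k (Sum.inl v) = 0

theorem brg49_k1_mem {F' : Finset (ℤ × ℤ)} (k : brg49V F' → ℤ) {v : ℤ × ℤ} (h : v ∈ cornersOf F') :
    brg49k1 k v = k (Sum.inl ⟨v, h⟩) := dif_pos h

theorem brg49_k2_mem {F' : Finset (ℤ × ℤ)} (k : brg49V F' → ℤ) {f : ℤ × ℤ} (h : f ∈ F') :
    brg49k2 k f = k (Sum.inr ⟨f, h⟩) := dif_pos h

theorem brg49_k1_pin {F F' : Finset (ℤ × ℤ)} {k : brg49V F' → ℤ} (hp : brg49Pin F k) {v : ℤ × ℤ} (hv : OnPolygon F v) :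
    brg49k1 k v = 0 := by
  unfold brg49k1
  split_ifs with h
  · exact hp ⟨v, h⟩ hv
  · rfl

theorem brg49_adm_step {F' : Finset (ℤ × ℤ)} {k : brg49V F' → ℤ} (ha : (brg49G F').Adm k) {f v : ℤ × ℤ} (hf : f ∈ F')
    (hv : v ∈ mdl21Cor f) : brg49k2 k f - brg49k1 k v = 1 ∨ brg49k2 k f - brg49k1 k v = -1 := by
  have hvc : v ∈ cornersOf F' := mdl21_cor_sub hf hv
  rw [brg49_k1_mem k hvc, brg49_k2_mem k hf]
  have h := ha.2.1 ⟨(⟨f, hf⟩, ⟨v, hvc⟩), hv⟩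
  have h' : |k (Sum.inl ⟨v, hvc⟩) - k (Sum.inr ⟨f, hf⟩)| = 1 := h
  rw [abs_eq (by norm_num : (0 : ℤ) ≤ 1)] at h'
  omega

/-- **an admissible pinned `k` gives a height of `F`** -/
theorem brg49_K_ht {F F' : Finset (ℤ × ℤ)} (hFF : F ⊆ F') {k : brg49V F' → ℤ} (ha : (brg49G F').Adm k) (hp : brg49Pin F k) :
    Mdl21Ht F (brg49K F k) where
  bdry := fun v _ hv => brg49_k1_pin hp hv
  step := fun f hf v hv => by
    show (if f ∈ F then brg49k2 k f else 0) - brg49k1 k v = 1 ∨ (if f ∈ F then brg49k2 k f else 0) - brg49k1 k v = -1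
    rw [if_pos hf]
    exact brg49_adm_step ha (hFF hf) hv
  offv := fun v hv => brg49_k1_pin hp (brg49_pol_of_not_corner hv)
  offf := fun f hf => if_neg hf

theorem brg49_prod_sub {β : Type} [DecidableEq β] (C : Finset β) (p : β → Prop) [DecidablePred p] (f : β → ℝ) :
    ∏ v : {v : ↥C // p v.1}, f v.1.1 = ∏ v ∈ C, (if p v then f v else 1) := by
  rw [← Finset.prod_coe_sort C (fun v => if p v then f v else 1), ← Finset.prod_filter]
  exact (Finset.prod_subtype (Finset.univ.filter fun v : ↥C => p v.1) (by simp) (fun v => f v.1)).symm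

/-- the factor of one plaquette -/
theorem brg49_plaq {t : ℝ} (ht : t ≠ 0) (a b : Prop) [Decidable a] [Decidable b] (h : a ∨ b) :
    (if b then (1 : ℝ) else t) * (if a then 1 else t) = t * (t⁻¹) ^ (if a ∧ b then 1 else 0) := by
  by_cases ha : a <;> by_cases hb : b <;> simp [ha, hb, ht]
  exact absurd h (by simp [ha, hb])

/-- the constant of the weight -/
noncomputable def brg49C (t : ℝ) (F F' : Finset (ℤ × ℤ)) : ℝ :=
  ∏ v ∈ cornersOf F', ((if mdl21Ih F v then t else 1) * (if mdl21Iv F v then t else 1))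

theorem brg49_C_pos {t : ℝ} (ht : 0 < t) (F F' : Finset (ℤ × ℤ)) : 0 < brg49C t F F' := by
  unfold brg49C
  refine Finset.prod_pos fun v _ => mul_pos ?_ ?_ <;> split_ifs <;> first | exact ht | exact one_pos

/-- **the weight** of an admissible pinned `k` in the graph without the dual edges that leave `F` -/
theorem brg49_wt {t : ℝ} (ht : t ≠ 0) {F F' : Finset (ℤ × ℤ)} (hFF : F ⊆ F') {k : brg49V F' → ℤ} (ha : (brg49G F').Adm k)
    (hp : brg49Pin F k) :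
    (brg49Res (brg49G F') (brg49R F F')).wt t k = brg49C t F F' * (t⁻¹) ^ mdl21NC F (brg49K F k) := by
  classical
  have hK := brg49_K_ht hFF ha hp
  set K := brg49K F k with hKdef
  have ha' : (brg49Res (brg49G F') (brg49R F F')).Adm k := ha
  -- the two functions on the lattice
  set Qh : ℤ × ℤ → ℝ := fun v => (if mdl21Ih F v then t else 1) *
    (t⁻¹) ^ (if mdl21Ih F v ∧ K.1 v = K.1 (v.1 + 1, v.2) ∧ K.2 v = K.2 (v.1, v.2 - 1) then 1 else 0) with hQh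
  set Qv : ℤ × ℤ → ℝ := fun v => (if mdl21Iv F v then t else 1) *
    (t⁻¹) ^ (if mdl21Iv F v ∧ K.1 v = K.1 (v.1, v.2 + 1) ∧ K.2 v = K.2 (v.1 - 1, v.2) then 1 else 0) with hQv
  have e1 : (brg49Res (brg49G F') (brg49R F F')).wt t k
      = (∏ i : {i : brg49IO F' // ¬ brg49R F F' i}, (if k ((brg49G F').ox i.1) = k ((brg49G F').oy i.1) then (1 : ℝ) else t))
        * ∏ i : brg49IO F', (if k ((brg49G F').dx i) = k ((brg49G F').dy i) then (1 : ℝ) else t) := by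
    unfold Mdl51.wt
    rw [if_pos ha']
    rfl
  rw [e1, brg49_prod_not (brg49R F F') (fun i => if k ((brg49G F').ox i) = k ((brg49G F').oy i) then (1 : ℝ) else t),
    ← Finset.prod_mul_distrib, Fintype.prod_sum_type]
  have hh : ∀ v : {v : ↥(cornersOf F') // mdl21Ih F' v.1},
      (if brg49R F F' (Sum.inl v) then (1 : ℝ) else if k ((brg49G F').ox (Sum.inl v)) = k ((brg49G F').oy (Sum.inl v)) then 1 else t)
        * (if k ((brg49G F').dx (Sum.inl v)) = k ((brg49G F').dy (Sum.inl v)) then 1 else t) = Qh v.1.1 := by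
    intro v
    have hc2 : (v.1.1.1 + 1, v.1.1.2) ∈ cornersOf F' := mdl21_cor_sub v.2.1 (by simp [mdl21Cor])
    have d1 : k ((brg49G F').dx (Sum.inl v)) = K.1 v.1.1 := (brg49_k1_mem k v.1.2).symm
    have d2 : k ((brg49G F').dy (Sum.inl v)) = K.1 (v.1.1.1 + 1, v.1.1.2) := (brg49_k1_mem k hc2).symm
    rw [d1, d2]
    by_cases hI : mdl21Ih F v.1.1
    · have hR : ¬ brg49R F F' (Sum.inl v) := fun h => h hI
      have o1 : k ((brg49G F').ox (Sum.inl v)) = K.2 v.1.1 := by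
        show _ = if v.1.1 ∈ F then brg49k2 k v.1.1 else 0
        rw [if_pos hI.1, brg49_k2_mem k v.2.1]; rfl
      have o2 : k ((brg49G F').oy (Sum.inl v)) = K.2 (v.1.1.1, v.1.1.2 - 1) := by
        show _ = if (v.1.1.1, v.1.1.2 - 1) ∈ F then brg49k2 k (v.1.1.1, v.1.1.2 - 1) else 0
        rw [if_pos hI.2, brg49_k2_mem k v.2.2]; rfl
      rw [if_neg hR, o1, o2, brg49_plaq ht _ _ (hK.flat_h hI).1]
      simp only [hQh, hI, true_and, if_true]
    · have hR : brg49R F F' (Sum.inl v) := hI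
      obtain ⟨p1, p2⟩ := mdl21_pol_h hI
      have z1 : K.1 v.1.1 = 0 := brg49_k1_pin hp p1
      have z2 : K.1 (v.1.1.1 + 1, v.1.1.2) = 0 := brg49_k1_pin hp p2
      rw [if_pos hR, z1, z2]
      simp [hQh, hI]
  have hv : ∀ v : {v : ↥(cornersOf F') // mdl21Iv F' v.1},
      (if brg49R F F' (Sum.inr v) then (1 : ℝ) else if k ((brg49G F').ox (Sum.inr v)) = k ((brg49G F').oy (Sum.inr v)) then 1 else t)
        * (if k ((brg49G F').dx (Sum.inr v)) = k ((brg49G F').dy (Sum.inr v)) then 1 else t) = Qv v.1.1 := by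
    intro v
    have hc2 : (v.1.1.1, v.1.1.2 + 1) ∈ cornersOf F' := mdl21_cor_sub v.2.1 (by simp [mdl21Cor])
    have d1 : k ((brg49G F').dx (Sum.inr v)) = K.1 v.1.1 := (brg49_k1_mem k v.1.2).symm
    have d2 : k ((brg49G F').dy (Sum.inr v)) = K.1 (v.1.1.1, v.1.1.2 + 1) := (brg49_k1_mem k hc2).symm
    rw [d1, d2]
    by_cases hI : mdl21Iv F v.1.1
    · have hR : ¬ brg49R F F' (Sum.inr v) := fun h => h hI
      have o1 : k ((brg49G F').ox (Sum.inr v)) = K.2 v.1.1 := by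
        show _ = if v.1.1 ∈ F then brg49k2 k v.1.1 else 0
        rw [if_pos hI.1, brg49_k2_mem k v.2.1]; rfl
      have o2 : k ((brg49G F').oy (Sum.inr v)) = K.2 (v.1.1.1 - 1, v.1.1.2) := by
        show _ = if (v.1.1.1 - 1, v.1.1.2) ∈ F then brg49k2 k (v.1.1.1 - 1, v.1.1.2) else 0
        rw [if_pos hI.2, brg49_k2_mem k v.2.2]; rfl
      rw [if_neg hR, o1, o2, brg49_plaq ht _ _ (hK.flat_v hI).1]
      simp only [hQv, hI, true_and, if_true]
    · have hR : brg49R F F' (Sum.inr v) := hI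
      obtain ⟨p1, p2⟩ := mdl21_pol_v hI
      have z1 : K.1 v.1.1 = 0 := brg49_k1_pin hp p1
      have z2 : K.1 (v.1.1.1, v.1.1.2 + 1) = 0 := brg49_k1_pin hp p2
      rw [if_pos hR, z1, z2]
      simp [hQv, hI]
  rw [Finset.prod_congr rfl fun v _ => hh v, Finset.prod_congr rfl fun v _ => hv v,
    brg49_prod_sub (cornersOf F') (fun v => mdl21Ih F' v) Qh, brg49_prod_sub (cornersOf F') (fun v => mdl21Iv F' v) Qv]
  have q1 : ∀ v, (if mdl21Ih F' v then Qh v else 1) = Qh v := by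
    intro v
    by_cases h : mdl21Ih F' v
    · rw [if_pos h]
    · have h' : ¬ mdl21Ih F v := fun hc => h ⟨hFF hc.1, hFF hc.2⟩
      rw [if_neg h]
      simp [hQh, h']
  have q2 : ∀ v, (if mdl21Iv F' v then Qv v else 1) = Qv v := by
    intro v
    by_cases h : mdl21Iv F' v
    · rw [if_pos h]
    · have h' : ¬ mdl21Iv F v := fun hc => h ⟨hFF hc.1, hFF hc.2⟩
      rw [if_neg h]
      simp [hQv, h']
  simp_rw [q1, q2]
  unfold brg49C mdl21NC
  rw [← Finset.prod_pow_eq_pow_sum]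
  have ext : ∏ v ∈ cornersOf F, (t⁻¹) ^ ((if mdl21Ih F v ∧ K.1 v = K.1 (v.1 + 1, v.2) ∧ K.2 v = K.2 (v.1, v.2 - 1) then 1 else 0) +
      (if mdl21Iv F v ∧ K.1 v = K.1 (v.1, v.2 + 1) ∧ K.2 v = K.2 (v.1 - 1, v.2) then 1 else 0))
      = ∏ v ∈ cornersOf F', (t⁻¹) ^ ((if mdl21Ih F v ∧ K.1 v = K.1 (v.1 + 1, v.2) ∧ K.2 v = K.2 (v.1, v.2 - 1) then 1 else 0) +
      (if mdl21Iv F v ∧ K.1 v = K.1 (v.1, v.2 + 1) ∧ K.2 v = K.2 (v.1 - 1, v.2) then 1 else 0)) := by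
    refine Finset.prod_subset (brg49_corners_mono hFF) fun v _ hv => ?_
    have h1 : ¬ mdl21Ih F v := fun hc => hv (mdl21_cor_sub hc.1 (by simp [mdl21Cor]))
    have h2 : ¬ mdl21Iv F v := fun hc => hv (mdl21_cor_sub hc.1 (by simp [mdl21Cor]))
    simp [h1, h2]
  rw [ext, ← Finset.prod_mul_distrib, ← Finset.prod_mul_distrib]
  refine Finset.prod_congr rfl fun v _ => ?_
  simp only [hQh, hQv]
  rw [pow_add]
  ring

/-- the faces outside `F` carry `± 1` -/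
theorem brg49_out_pm {F F' : Finset (ℤ × ℤ)} {k : brg49V F' → ℤ} (ha : (brg49G F').Adm k) (hp : brg49Pin F k) {f : ℤ × ℤ}
    (hf' : f ∈ F') (hf : f ∉ F) : k (Sum.inr ⟨f, hf'⟩) = 1 ∨ k (Sum.inr ⟨f, hf'⟩) = -1 := by
  have hv : f ∈ mdl21Cor f := by simp [mdl21Cor]
  have h1 := brg49_adm_step ha hf' hv
  rw [brg49_k1_pin hp (brg49_pol_of_cor hf hv), brg49_k2_mem k hf'] at h1
  omega

/-- the configuration with the height `K` on `F` and the signs `ε` on the faces outside `F` -/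
def brg49mk (F : Finset (ℤ × ℤ)) {F' : Finset (ℤ × ℤ)} (K : (ℤ × ℤ → ℤ) × (ℤ × ℤ → ℤ)) (ε : ↥(F' \ F) → Bool) : brg49V F' → ℤ :=
  Sum.elim (fun v => K.1 v.1)
    (fun f => if h : f.1 ∈ F then K.2 f.1 else if ε ⟨f.1, Finset.mem_sdiff.2 ⟨f.2, h⟩⟩ then 1 else -1)

theorem brg49_ht_pol {F : Finset (ℤ × ℤ)} {K : (ℤ × ℤ → ℤ) × (ℤ × ℤ → ℤ)} (hK : Mdl21Ht F K) {v : ℤ × ℤ} (hv : OnPolygon F v) :
    K.1 v = 0 := by
  by_cases h : v ∈ cornersOf F
  · exact hK.bdry v h hv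
  · exact hK.offv v h

theorem brg49_mk_adm {F F' : Finset (ℤ × ℤ)} {K : (ℤ × ℤ → ℤ) × (ℤ × ℤ → ℤ)} (hK : Mdl21Ht F K) (ε : ↥(F' \ F) → Bool) :
    (brg49G F').Adm (brg49mk F K ε) := by
  refine ⟨fun x => ?_, fun i => ?_, fun i => i.elim⟩
  · rcases x with v | f
    · show Odd (K.1 v.1) ↔ (Sum.inl v : brg49V F').isRight = true
      have := hK.even v.1
      rw [Int.odd_iff]
      simp only [Sum.isRight_inl, Bool.false_eq_true, iff_false]
      omega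
    · show Odd (if h : f.1 ∈ F then K.2 f.1 else if ε ⟨f.1, Finset.mem_sdiff.2 ⟨f.2, h⟩⟩ then 1 else -1)
        ↔ (Sum.inr f : brg49V F').isRight = true
      simp only [Sum.isRight_inr, iff_true]
      rw [Int.odd_iff]
      split_ifs with h h2
      · exact hK.parity.1 _ h
      · rfl
      · rfl
  · obtain ⟨⟨f, v⟩, hv⟩ := i
    show |K.1 v.1 - (if h : f.1 ∈ F then K.2 f.1 else if ε ⟨f.1, Finset.mem_sdiff.2 ⟨f.2, h⟩⟩ then 1 else -1)| = 1
    rw [abs_eq (by norm_num : (0 : ℤ) ≤ 1)]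
    split_ifs with h h2
    · have := hK.step f.1 h v.1 hv
      omega
    · rw [brg49_ht_pol hK (brg49_pol_of_cor h hv)]; right; rfl
    · rw [brg49_ht_pol hK (brg49_pol_of_cor h hv)]; left; rfl

theorem brg49_mk_pin {F F' : Finset (ℤ × ℤ)} {K : (ℤ × ℤ → ℤ) × (ℤ × ℤ → ℤ)} (hK : Mdl21Ht F K) (ε : ↥(F' \ F) → Bool) :
    brg49Pin F (brg49mk F K ε) := fun _ hv => brg49_ht_pol hK hv

theorem brg49_mk_K {F F' : Finset (ℤ × ℤ)} (hFF : F ⊆ F') {K : (ℤ × ℤ → ℤ) × (ℤ × ℤ → ℤ)} (hK : Mdl21Ht F K) (ε : ↥(F' \ F) → Bool) :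
    brg49K F (brg49mk F K ε) = K := by
  refine Prod.ext ?_ ?_
  · funext v
    show brg49k1 (brg49mk F K ε) v = K.1 v
    unfold brg49k1
    split_ifs with h
    · rfl
    · exact (hK.offv v fun hc => h (brg49_corners_mono hFF hc)).symm
  · funext f
    show (if f ∈ F then brg49k2 (brg49mk F K ε) f else 0) = K.2 f
    split_ifs with h
    · rw [brg49_k2_mem _ (hFF h)]
      show (if h : f ∈ F then K.2 f else _) = K.2 f
      rw [dif_pos h]
    · exact (hK.offf f h).symm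

open Classical in
/-- the conditioning: `|k| = 0` at the vertices that are not interior to `F` -/
noncomputable def brg49I (F F' : Finset (ℤ × ℤ)) (N : ℕ) (ζ : brg49V F' → Fin (N + 1)) : ℝ :=
  if ∀ v : ↥(cornersOf F'), OnPolygon F v.1 → ζ (Sum.inl v) = 0 then 1 else 0

open Classical in
theorem brg49_I_abs (F F' : Finset (ℤ × ℤ)) {N : ℕ} (hN1 : 1 ≤ N) (k : brg49V F' → ℤ) :
    brg49I F F' N (mdl51_abs N k) = if brg49Pin F k then 1 else 0 := by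
  have hiff : (∀ v : ↥(cornersOf F'), OnPolygon F v.1 → mdl51_abs N k (Sum.inl v) = 0) ↔ brg49Pin F k := by
    unfold brg49Pin
    refine forall_congr' fun v => imp_congr_right fun _ => ?_
    constructor
    · intro h
      have h1 : min (k (Sum.inl v)).natAbs N = 0 := congrArg Fin.val h
      omega
    · intro h
      apply Fin.ext
      show min (k (Sum.inl v)).natAbs N = 0
      rw [h]
      simp
  unfold brg49I
  by_cases h : brg49Pin F k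
  · rw [if_pos h, if_pos (hiff.2 h)]
  · rw [if_neg h, if_neg (fun hc => h (hiff.1 hc))]

/-- **change of variables**: the law of the graph of `F'` without the dual edges that leave `F`, pinned off the interior of `F`, is the six-vertex law of `F` (times free signs) -/
theorem brg49_sum_K {t : ℝ} (ht : t ≠ 0) {F F' : Finset (ℤ × ℤ)} (hFF : F ⊆ F') (hex : Mdl21Ex F) {N : ℕ} (hN1 : 1 ≤ N)
    (hN : ∀ K ∈ mdl21Hts F, ∀ x, |K.1 x| ≤ N ∧ |K.2 x| ≤ N) (g : (ℤ × ℤ → ℤ) × (ℤ × ℤ → ℤ) → ℝ) :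
    ∑ k ∈ mdl51_box (brg49V F') N,
        (brg49Res (brg49G F') (brg49R F F')).wt t k * (brg49I F F' N (mdl51_abs N k) * g (brg49K F k))
      = ((2 : ℝ) ^ (F' \ F).card * brg49C t F F') * ∑ K ∈ mdl21Hts F, (t⁻¹) ^ mdl21NC F K * g K := by
  classical
  have e1 : ∀ k ∈ mdl51_box (brg49V F') N,
      (brg49Res (brg49G F') (brg49R F F')).wt t k * (brg49I F F' N (mdl51_abs N k) * g (brg49K F k))
        = if (brg49G F').Adm k ∧ brg49Pin F k then brg49C t F F' * ((t⁻¹) ^ mdl21NC F (brg49K F k) * g (brg49K F k)) else 0 := by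
    intro k _
    rw [brg49_I_abs F F' hN1]
    by_cases ha : (brg49G F').Adm k
    · by_cases hp : brg49Pin F k
      · rw [if_pos hp, if_pos ⟨ha, hp⟩, brg49_wt ht hFF ha hp]
        ring
      · rw [if_neg hp, if_neg fun h => hp h.2]
        ring
    · have ha' : ¬ (brg49Res (brg49G F') (brg49R F F')).Adm k := ha
      rw [if_neg (show ¬ ((brg49G F').Adm k ∧ brg49Pin F k) from fun h => ha h.1)]
      unfold Mdl51.wt
      rw [if_neg ha', zero_mul]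
  rw [Finset.sum_congr rfl e1, ← Finset.sum_filter]
  have e2 : ∑ k ∈ (mdl51_box (brg49V F') N).filter (fun k => (brg49G F').Adm k ∧ brg49Pin F k),
      brg49C t F F' * ((t⁻¹) ^ mdl21NC F (brg49K F k) * g (brg49K F k))
      = ∑ q ∈ mdl21Hts F ×ˢ (Finset.univ : Finset (↥(F' \ F) → Bool)), brg49C t F F' * ((t⁻¹) ^ mdl21NC F q.1 * g q.1) := by
    refine Finset.sum_bij
      (fun k _ => (brg49K F k, fun f : ↥(F' \ F) => decide (k (Sum.inr ⟨f.1, (Finset.mem_sdiff.1 f.2).1⟩) = 1))) ?_ ?_ ?_ ?_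
    · intro k hk
      obtain ⟨-, ha, hp⟩ := Finset.mem_filter.1 hk
      exact Finset.mem_product.2 ⟨mdl21_mem_hts_of (brg49_K_ht hFF ha hp), Finset.mem_univ _⟩
    · intro k₁ h₁ k₂ h₂ he
      obtain ⟨-, ha₁, hp₁⟩ := Finset.mem_filter.1 h₁
      obtain ⟨-, ha₂, hp₂⟩ := Finset.mem_filter.1 h₂
      have heK : brg49K F k₁ = brg49K F k₂ := congrArg Prod.fst he
      have heE := congrArg Prod.snd he
      funext x
      rcases x with v | f
      · have := congrFun (congrArg Prod.fst heK) v.1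
        have h3 : brg49k1 k₁ v.1 = brg49k1 k₂ v.1 := this
        rw [brg49_k1_mem k₁ v.2, brg49_k1_mem k₂ v.2] at h3
        exact h3
      · by_cases hf : f.1 ∈ F
        · have := congrFun (congrArg Prod.snd heK) f.1
          have h3 : (if f.1 ∈ F then brg49k2 k₁ f.1 else 0) = if f.1 ∈ F then brg49k2 k₂ f.1 else 0 := this
          rw [if_pos hf, if_pos hf, brg49_k2_mem k₁ f.2, brg49_k2_mem k₂ f.2] at h3
          exact h3
        · have h3 := congrFun heE ⟨f.1, Finset.mem_sdiff.2 ⟨f.2, hf⟩⟩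
          have h4 : decide (k₁ (Sum.inr ⟨f.1, f.2⟩) = 1) = decide (k₂ (Sum.inr ⟨f.1, f.2⟩) = 1) := h3
          have h5 : k₁ (Sum.inr ⟨f.1, f.2⟩) = 1 ↔ k₂ (Sum.inr ⟨f.1, f.2⟩) = 1 := by
            simpa using h4
          have p1 := brg49_out_pm ha₁ hp₁ f.2 hf
          have p2 := brg49_out_pm ha₂ hp₂ f.2 hf
          show k₁ (Sum.inr ⟨f.1, f.2⟩) = k₂ (Sum.inr ⟨f.1, f.2⟩)
          rcases p1 with p1 | p1 <;> rcases p2 with p2 | p2
          · rw [p1, p2]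
          · exact absurd (h5.1 p1) (by rw [p2]; norm_num)
          · exact absurd (h5.2 p2) (by rw [p1]; norm_num)
          · rw [p1, p2]
    · intro q hq
      obtain ⟨hq1, -⟩ := Finset.mem_product.1 hq
      have hK : Mdl21Ht F q.1 := (mdl21_mem_hts hex q.1).1 hq1
      refine ⟨brg49mk F q.1 q.2, Finset.mem_filter.2 ⟨?_, brg49_mk_adm hK q.2, brg49_mk_pin hK q.2⟩, ?_⟩
      · unfold mdl51_box
        rw [Fintype.mem_piFinset]
        intro x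
        rw [Finset.mem_Icc, ← abs_le]
        rcases x with v | f
        · exact (hN q.1 hq1 v.1).1
        · show |(if h : f.1 ∈ F then q.1.2 f.1 else if q.2 ⟨f.1, Finset.mem_sdiff.2 ⟨f.2, h⟩⟩ then 1 else -1 : ℤ)| ≤ N
          split_ifs
          · exact (hN q.1 hq1 f.1).2
          · simpa using hN1
          · simpa using hN1
      · refine Prod.ext (brg49_mk_K hFF hK q.2) ?_
        funext f
        have hf := (Finset.mem_sdiff.1 f.2).2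
        show decide ((if h : f.1 ∈ F then q.1.2 f.1 else if q.2 ⟨f.1, Finset.mem_sdiff.2 ⟨(Finset.mem_sdiff.1 f.2).1, h⟩⟩ then 1 else -1 : ℤ) = 1)
          = q.2 f
        rw [dif_neg hf]
        cases h : q.2 f <;> simp [h]
    · intro k _
      rfl
  rw [e2, Finset.sum_product_right]
  simp only [Finset.sum_const, Finset.card_univ, Fintype.card_pi, Fintype.card_bool, Finset.prod_const, Fintype.card_coe, nsmul_eq_mul]
  rw [Finset.mul_sum, Finset.mul_sum]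
  push_cast
  refine Finset.sum_congr rfl fun K _ => ?_
  ring

theorem brg49_res_wt_of_none {V ιE ιO ιD ιX : Type} [Fintype V] [DecidableEq V] [Fintype ιE] [DecidableEq ιE] [Fintype ιO]
    [DecidableEq ιO] [Fintype ιD] [DecidableEq ιD] [Fintype ιX] [DecidableEq ιX] (G : Mdl51 V ιE ιO ιD ιX) (R : ιO → Prop)
    [DecidablePred R] (hR : ∀ i, ¬ R i) (t : ℝ) (k : V → ℤ) : (brg49Res G R).wt t k = G.wt t k := by
  classical
  unfold Mdl51.wt
  have hA : (brg49Res G R).Adm k ↔ G.Adm k := Iff.rfl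
  by_cases h : G.Adm k
  · rw [if_pos h, if_pos (hA.2 h)]
    congr 1
    have h1 := brg49_prod_not R (fun i => if k (G.ox i) = k (G.oy i) then (1 : ℝ) else t)
    refine h1.trans (Finset.prod_congr rfl fun i _ => ?_)
    rw [if_neg (hR i)]
  · rw [if_neg h, if_neg fun hc => h (hA.1 hc)]

theorem brg49_R_self (F' : Finset (ℤ × ℤ)) (i : brg49IO F') : ¬ brg49R F' F' i := by
  rcases i with v | v
  · exact fun h => h v.2
  · exact fun h => h v.2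

theorem brg49_bound {F : Finset (ℤ × ℤ)} (hex : Mdl21Ex F) :
    ∃ N : ℕ, ∀ K ∈ mdl21Hts F, ∀ x, |K.1 x| ≤ (N : ℤ) ∧ |K.2 x| ≤ (N : ℤ) := by
  classical
  set b : ((ℤ × ℤ → ℤ) × (ℤ × ℤ → ℤ)) → ℤ := fun K => ∑ v ∈ cornersOf F, |K.1 v| + ∑ f ∈ F, |K.2 f| with hb
  have s1 : ∀ K : (ℤ × ℤ → ℤ) × (ℤ × ℤ → ℤ), 0 ≤ ∑ v ∈ cornersOf F, |K.1 v| := fun K => Finset.sum_nonneg fun _ _ => abs_nonneg _
  have s2 : ∀ K : (ℤ × ℤ → ℤ) × (ℤ × ℤ → ℤ), 0 ≤ ∑ f ∈ F, |K.2 f| := fun K => Finset.sum_nonneg fun _ _ => abs_nonneg _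
  have hb0 : ∀ K, 0 ≤ b K := fun K => add_nonneg (s1 K) (s2 K)
  refine ⟨(∑ K ∈ mdl21Hts F, b K).toNat, fun K hK x => ?_⟩
  have hKt := (mdl21_mem_hts hex K).1 hK
  have h1 : b K ≤ ∑ K ∈ mdl21Hts F, b K := Finset.single_le_sum (fun K _ => hb0 K) hK
  rw [Int.toNat_of_nonneg (Finset.sum_nonneg fun K _ => hb0 K)]
  have hbK : b K = ∑ v ∈ cornersOf F, |K.1 v| + ∑ f ∈ F, |K.2 f| := rfl
  constructor
  · by_cases hx : x ∈ cornersOf F
    · have h2 : |K.1 x| ≤ ∑ v ∈ cornersOf F, |K.1 v| :=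
        Finset.single_le_sum (f := fun v => |K.1 v|) (fun _ _ => abs_nonneg _) hx
      have := s2 K
      linarith
    · rw [hKt.offv x hx, abs_zero]
      exact (hb0 K).trans h1
  · by_cases hx : x ∈ F
    · have h2 : |K.2 x| ≤ ∑ f ∈ F, |K.2 f| :=
        Finset.single_le_sum (f := fun f => |K.2 f|) (fun _ _ => abs_nonneg _) hx
      have := s1 K
      linarith
    · rw [hKt.offf x hx, abs_zero]
      exact (hb0 K).trans h1

theorem brg49_hts_nonempty (F : Finset (ℤ × ℤ)) : (mdl21Hts F).Nonempty := by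
  classical
  refine ⟨(fun _ => 0, fun f => if f ∈ F then 1 else 0), mdl21_mem_hts_of ⟨fun _ _ _ => rfl, fun f hf v _ => ?_, fun _ _ => rfl, fun f hf => if_neg hf⟩⟩
  left
  show (if f ∈ F then (1 : ℤ) else 0) - 0 = 1
  rw [if_pos hf]; rfl

theorem brg49_I_nonneg (F F' : Finset (ℤ × ℤ)) (N : ℕ) (ζ : brg49V F' → Fin (N + 1)) : 0 ≤ brg49I F F' N ζ := by
  unfold brg49I
  split_ifs <;> norm_num

theorem brg49_I_holley {F F' : Finset (ℤ × ℤ)} (hFF : F ⊆ F') (N : ℕ) (a b : brg49V F' → Fin (N + 1)) :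
    brg49I F F' N a * brg49I F' F' N b ≤ brg49I F F' N (a ⊓ b) * brg49I F' F' N (a ⊔ b) := by
  classical
  unfold brg49I
  by_cases h1 : ∀ v : ↥(cornersOf F'), OnPolygon F v.1 → a (Sum.inl v) = 0
  · by_cases h2 : ∀ v : ↥(cornersOf F'), OnPolygon F' v.1 → b (Sum.inl v) = 0
    · rw [if_pos h1, if_pos h2, if_pos, if_pos]
      · intro v hv
        rw [Pi.sup_apply, h1 v (brg49_pol_mono hFF hv), h2 v hv, sup_idem]
      · intro v hv
        rw [Pi.inf_apply, h1 v hv]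
        exact inf_eq_left.2 (Fin.zero_le _)
    · rw [if_neg h2, mul_zero]
      refine mul_nonneg ?_ ?_ <;> split_ifs <;> norm_num
  · rw [if_neg h1, zero_mul]
    refine mul_nonneg ?_ ?_ <;> split_ifs <;> norm_num

/-- a face with a pinned corner has `|k| ≤ 1` -/
theorem brg49_face_le {F F' : Finset (ℤ × ℤ)} {N : ℕ} {ζ : brg49V F' → Fin (N + 1)} (hI : brg49I F F' N ζ ≠ 0)
    (hA : (brg49G F').AdmN ζ) {f v : ℤ × ℤ} (hf : f ∈ F') (hv : v ∈ mdl21Cor f) (hp : OnPolygon F v) :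
    (ζ (Sum.inr ⟨f, hf⟩) : ℕ) ≤ 1 := by
  classical
  have hpin : ∀ v : ↥(cornersOf F'), OnPolygon F v.1 → ζ (Sum.inl v) = 0 := by
    by_contra h
    apply hI
    unfold brg49I
    rw [if_neg h]
  have hvc : v ∈ cornersOf F' := mdl21_cor_sub hf hv
  have h1 := hA.2 ⟨(⟨f, hf⟩, ⟨v, hvc⟩), hv⟩
  have h2 : |((ζ (Sum.inl ⟨v, hvc⟩) : ℕ) : ℤ) - ((ζ (Sum.inr ⟨f, hf⟩) : ℕ) : ℤ)| = 1 := h1
  rw [hpin ⟨v, hvc⟩ hp, abs_eq (by norm_num : (0 : ℤ) ≤ 1)] at h2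
  simp only [Fin.val_zero, Nat.cast_zero, zero_sub] at h2
  omega

/-- the test function on the sites of the corner graph -/
noncomputable def brg49phi (δ : ℝ) (F' : Finset (ℤ × ℤ)) (φ : ℝ × ℝ → ℝ) : brg49V F' → ℝ :=
  Sum.elim (fun v => δ ^ 2 * (φ (δ * v.1.1, δ * v.1.2) / 2)) (fun _ => 0)

/-- the smeared height read on the corners of the big domain -/
noncomputable def brg49XK (δ : ℝ) (F' : Finset (ℤ × ℤ)) (φ : ℝ × ℝ → ℝ) (K : (ℤ × ℤ → ℤ) × (ℤ × ℤ → ℤ)) : ℝ :=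
  δ ^ 2 * ∑ v ∈ cornersOf F', (K.1 v : ℝ) / 2 * φ (δ * v.1, δ * v.2)

theorem brg49_X_K (δ : ℝ) (F F' : Finset (ℤ × ℤ)) (φ : ℝ × ℝ → ℝ) (k : brg49V F' → ℤ) :
    brg49X (brg49phi δ F' φ) k = brg49XK δ F' φ (brg49K F k) := by
  unfold brg49X brg49XK brg49phi
  rw [Fintype.sum_sum_type]
  simp only [Sum.elim_inl, Sum.elim_inr, zero_mul, Finset.sum_const_zero, add_zero]
  rw [Finset.mul_sum, ← Finset.sum_coe_sort (cornersOf F')]
  refine Finset.sum_congr rfl fun v _ => ?_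
  have : (brg49K F k).1 v.1 = k (Sum.inl v) := brg49_k1_mem k v.2
  rw [this]
  ring

theorem brg49_XK_eq (δ : ℝ) {F F' : Finset (ℤ × ℤ)} (hFF : F ⊆ F') (φ : ℝ × ℝ → ℝ) {K : (ℤ × ℤ → ℤ) × (ℤ × ℤ → ℤ)}
    (hK : Mdl21Ht F K) : brg49XK δ F' φ K = mdl21X δ F φ K := by
  unfold brg49XK mdl21X
  congr 1
  refine (Finset.sum_subset (brg49_corners_mono hFF) fun v _ hv => ?_).symm
  rw [hK.offv v hv]
  simp

/-- **DOMAIN MONOTONICITY OF ALL MOMENTS**, six-vertex form, cross multiplied -/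
theorem brg49_hts_moment {t : ℝ} (ht0 : 0 < t) (ht1 : t ≤ 1) (δ : ℝ) {F F' : Finset (ℤ × ℤ)} (hFF : F ⊆ F') (hex : Mdl21Ex F)
    (hex' : Mdl21Ex F') (φ : ℝ × ℝ → ℝ) (hφ : ∀ z, 0 ≤ φ z) (n : ℕ) :
    (∑ K ∈ mdl21Hts F, (t⁻¹) ^ mdl21NC F K * mdl21X δ F φ K ^ n) * (∑ K ∈ mdl21Hts F', (t⁻¹) ^ mdl21NC F' K)
      ≤ (∑ K ∈ mdl21Hts F, (t⁻¹) ^ mdl21NC F K) * ∑ K ∈ mdl21Hts F', (t⁻¹) ^ mdl21NC F' K * mdl21X δ F' φ K ^ n := by
  classical
  obtain ⟨N₁, hN₁⟩ := brg49_bound hex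
  obtain ⟨N₂, hN₂⟩ := brg49_bound hex'
  set N := N₁ + N₂ + 1 with hNdef
  have hN1 : 1 ≤ N := by omega
  have hNa : ∀ K ∈ mdl21Hts F, ∀ x, |K.1 x| ≤ (N : ℤ) ∧ |K.2 x| ≤ (N : ℤ) := by
    intro K hK x
    obtain ⟨a, b⟩ := hN₁ K hK x
    have : (N : ℤ) = N₁ + N₂ + 1 := by rw [hNdef]; push_cast; ring
    constructor <;> omega
  have hNb : ∀ K ∈ mdl21Hts F', ∀ x, |K.1 x| ≤ (N : ℤ) ∧ |K.2 x| ≤ (N : ℤ) := by
    intro K hK x
    obtain ⟨a, b⟩ := hN₂ K hK x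
    have : (N : ℤ) = N₁ + N₂ + 1 := by rw [hNdef]; push_cast; ring
    constructor <;> omega
  have key := brg49_moment_res (brg49G F') (brg49_G_ok F') ht0.le ht1 N n (brg49R F F') (I₁ := brg49I F F' N) (I₂ := brg49I F' F' N)
    (brg49_I_nonneg F F' N) (brg49_I_nonneg F' F' N) (brg49_I_holley hFF N) (fun ζ hI hA i hi => by
      rcases i with v | v
      · have hp := (mdl21_pol_h (show ¬ mdl21Ih F v.1.1 from hi)).1
        exact ⟨brg49_face_le hI hA v.2.1 (by simp [mdl21Cor]) hp, brg49_face_le hI hA v.2.2 (by simp [mdl21Cor]) hp⟩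
      · have hp := (mdl21_pol_v (show ¬ mdl21Iv F v.1.1 from hi)).1
        exact ⟨brg49_face_le hI hA v.2.1 (by simp [mdl21Cor]) hp, brg49_face_le hI hA v.2.2 (by simp [mdl21Cor]) hp⟩)
    (φ := brg49phi δ F' φ) (fun x => by
      rcases x with v | f
      · exact mul_nonneg (sq_nonneg _) (div_nonneg (hφ _) (by norm_num))
      · exact le_rfl)
  -- the four sums
  have S1 : ∑ k ∈ mdl51_box (brg49V F') N, (brg49Res (brg49G F') (brg49R F F')).wt t k *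
      (brg49I F F' N (mdl51_abs N k) * brg49X (brg49phi δ F' φ) k ^ n)
      = ((2 : ℝ) ^ (F' \ F).card * brg49C t F F') * ∑ K ∈ mdl21Hts F, (t⁻¹) ^ mdl21NC F K * mdl21X δ F φ K ^ n := by
    rw [Finset.sum_congr rfl fun k _ => by rw [brg49_X_K δ F F' φ k],
      brg49_sum_K ht0.ne' hFF hex hN1 hNa (fun K => brg49XK δ F' φ K ^ n)]
    congr 1
    refine Finset.sum_congr rfl fun K hK => ?_
    rw [brg49_XK_eq δ hFF φ ((mdl21_mem_hts hex K).1 hK)]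
  have S2 : ∑ k ∈ mdl51_box (brg49V F') N, (brg49Res (brg49G F') (brg49R F F')).wt t k * brg49I F F' N (mdl51_abs N k)
      = ((2 : ℝ) ^ (F' \ F).card * brg49C t F F') * ∑ K ∈ mdl21Hts F, (t⁻¹) ^ mdl21NC F K := by
    have := brg49_sum_K ht0.ne' hFF hex hN1 hNa (fun _ => 1)
    simpa only [mul_one] using this
  have S3 : ∑ k ∈ mdl51_box (brg49V F') N, (brg49G F').wt t k * (brg49I F' F' N (mdl51_abs N k) * brg49X (brg49phi δ F' φ) k ^ n)
      = ((2 : ℝ) ^ (F' \ F').card * brg49C t F' F') * ∑ K ∈ mdl21Hts F', (t⁻¹) ^ mdl21NC F' K * mdl21X δ F' φ K ^ n := by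
    rw [Finset.sum_congr rfl fun k _ => by
        rw [brg49_X_K δ F' F' φ k, ← brg49_res_wt_of_none (brg49G F') (brg49R F' F') (brg49_R_self F') t k],
      brg49_sum_K ht0.ne' (Finset.Subset.refl F') hex' hN1 hNb (fun K => brg49XK δ F' φ K ^ n)]
    rfl
  have S4 : ∑ k ∈ mdl51_box (brg49V F') N, (brg49G F').wt t k * brg49I F' F' N (mdl51_abs N k)
      = ((2 : ℝ) ^ (F' \ F').card * brg49C t F' F') * ∑ K ∈ mdl21Hts F', (t⁻¹) ^ mdl21NC F' K := by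
    have := brg49_sum_K ht0.ne' (Finset.Subset.refl F') hex' hN1 hNb (fun _ => 1)
    simp only [mul_one] at this
    rw [← this]
    refine Finset.sum_congr rfl fun k _ => ?_
    rw [brg49_res_wt_of_none (brg49G F') (brg49R F' F') (brg49_R_self F') t k]
  rw [S1, S2, S3, S4] at key
  have c1 : 0 < (2 : ℝ) ^ (F' \ F).card * brg49C t F F' := mul_pos (by positivity) (brg49_C_pos ht0 F F')
  have c2 : 0 < (2 : ℝ) ^ (F' \ F').card * brg49C t F' F' := mul_pos (by positivity) (brg49_C_pos ht0 F' F')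
  have c3 := mul_pos c1 c2
  refine le_of_mul_le_mul_left ?_ c3
  calc _ = _ := by ring
    _ ≤ _ := key
    _ = _ := by ring

theorem brg49_hts_Z_pos {t : ℝ} (ht0 : 0 < t) (F : Finset (ℤ × ℤ)) : 0 < ∑ K ∈ mdl21Hts F, (t⁻¹) ^ mdl21NC F K :=
  Finset.sum_pos (fun _ _ => pow_pos (inv_pos.2 ht0) _) (brg49_hts_nonempty F)

/-- **EMDM, FROZEN FORM**: for `φ ≥ 0` every moment of the frozen Ashkin-Teller pairing increases with the domain -/
theorem brg49_atExpect_pow_mono {t : ℝ} (ht0 : 0 < t) (ht1 : t ≤ 1) (δ : ℝ) {F F' : Finset (ℤ × ℤ)} (hFF : F ⊆ F') (hex : Mdl21Ex F)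
    (hex' : Mdl21Ex F') (φ : ℝ × ℝ → ℝ) (hφ : ∀ z, 0 ≤ φ z) (n : ℕ) :
    atExpect t δ F φ (fun s => s ^ n) ≤ atExpect t δ F' φ (fun s => s ^ n) := by
  rw [mdl21_expect ht0.ne' δ hex φ, mdl21_expect ht0.ne' δ hex' φ,
    div_le_div_iff₀ (brg49_hts_Z_pos ht0 F) (brg49_hts_Z_pos ht0 F')]
  have := brg49_hts_moment ht0 ht1 δ hFF hex hex' φ hφ n
  linarith

/-- **EMDM, FROZEN FORM, Laplace transform** (`s ≥ 0`, no factor) -/
theorem brg49_atExpect_exp_mono {t : ℝ} (ht0 : 0 < t) (ht1 : t ≤ 1) (δ : ℝ) {F F' : Finset (ℤ × ℤ)} (hFF : F ⊆ F') (hex : Mdl21Ex F)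
    (hex' : Mdl21Ex F') (φ : ℝ × ℝ → ℝ) (hφ : ∀ z, 0 ≤ φ z) {s : ℝ} (hs : 0 ≤ s) :
    atExpect t δ F φ (fun x => Real.exp (s * x)) ≤ atExpect t δ F' φ (fun x => Real.exp (s * x)) := by
  rw [mdl21_expect ht0.ne' δ hex φ, mdl21_expect ht0.ne' δ hex' φ,
    div_le_div_iff₀ (brg49_hts_Z_pos ht0 F) (brg49_hts_Z_pos ht0 F')]
  have := brg49_exp_of_moments (mdl21Hts F) (mdl21Hts F') (fun K => (t⁻¹) ^ mdl21NC F K) (fun K => (t⁻¹) ^ mdl21NC F' K)
    (mdl21X δ F φ) (mdl21X δ F' φ) (∑ K ∈ mdl21Hts F, (t⁻¹) ^ mdl21NC F K) (∑ K ∈ mdl21Hts F', (t⁻¹) ^ mdl21NC F' K)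
    (brg49_hts_moment ht0 ht1 δ hFF hex hex' φ hφ) hs
  linarith

end Frozen

/-- the equation and congruence lemmas of the definitions of section 4 are generated HERE, once (RULES.md, rule 6) -/
theorem brg49_eqns_cite2 : True := by
  have := @brg49G.eq_1
  have := @brg49R.eq_1
  have := @brg49k1.eq_1
  have := @brg49k2.eq_1
  have := @brg49K.eq_1
  have := @brg49Pin.eq_1
  have := @brg49C.eq_1
  have := @brg49mk.eq_1
  have := @brg49I.eq_1
  have := @brg49phi.eq_1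
  have := @brg49XK.eq_1
  have := @brg49V.eq_1
  have := @brg49IE.eq_1
  have := @brg49IO.eq_1
  have := @brg49G.congr_simp
  have := @brg49R.congr_simp
  have := @brg49k1.congr_simp
  have := @brg49k2.congr_simp
  have := @brg49K.congr_simp
  have := @brg49Pin.congr_simp
  have := @brg49C.congr_simp
  have := @brg49mk.congr_simp
  have := @brg49I.congr_simp
  have := @brg49phi.congr_simp
  have := @brg49XK.congr_simp
  trivial

/-! ## 5. With the flat GFF limit: Gaussian moments and tails, UNIFORMLY in the holes of a nice domain -/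

section Holes

open Claims Claims.C0468 Filter Topology MeasureTheory
open Claimed.Agent.R291

theorem brg49_expect_mono_psi {t : ℝ} (ht : 0 < t) (δ : ℝ) (F : Finset (ℤ × ℤ)) (φ : ℝ × ℝ → ℝ) {ψ ψ' : ℝ → ℝ}
    (h : ∀ x, ψ x ≤ ψ' x) : atExpect t δ F φ ψ ≤ atExpect t δ F φ ψ' := by
  rw [at92_expect_eq, at92_expect_eq]
  refine div_le_div_of_nonneg_right ?_ (at92_Z_pos ht F).le
  exact Finset.sum_le_sum fun p _ => mul_le_mul_of_nonneg_left (h _) (pow_pos ht _).le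

theorem brg49_expect_div (t δ : ℝ) (F : Finset (ℤ × ℤ)) (φ : ℝ × ℝ → ℝ) (ψ : ℝ → ℝ) (c : ℝ) :
    atExpect t δ F φ (fun s => ψ s / c) = atExpect t δ F φ ψ / c := by
  rw [at92_expect_eq, at92_expect_eq, div_right_comm]
  congr 1
  rw [Finset.sum_div]
  refine Finset.sum_congr rfl fun p _ => ?_
  ring

open Classical in
/-- Chebyshev with an even moment -/
theorem brg49_tail_le {t : ℝ} (ht : 0 < t) (δ : ℝ) (F : Finset (ℤ × ℤ)) (φ : ℝ × ℝ → ℝ) {x : ℝ} (hx : 0 < x) (p : ℕ) :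
    atExpect t δ F φ (fun s => if x ≤ s then 1 else 0) ≤ atExpect t δ F φ (fun s => s ^ (2 * p)) / x ^ (2 * p) := by
  rw [← brg49_expect_div]
  refine brg49_expect_mono_psi ht δ F φ fun s => ?_
  have hx2 : 0 < x ^ (2 * p) := pow_pos hx _
  split_ifs with h
  · rw [one_le_div hx2]
    exact pow_le_pow_left₀ hx.le h _
  · exact div_nonneg (Even.pow_nonneg (even_two_mul p) s) hx2.le

/-- **GAUSSIAN MOMENTS, UNIFORMLY IN THE HOLES**: along an admissible approximation `F' n` of a Jordan domain `D`, for `φ ≥ 0`, every moment of the flat pairing in ANY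
sub-domain `F ⊆ F' n` (with heights: `Mdl21Ex F`) is eventually at most the Wick number of `D` plus `ε` -/
theorem brg49_hole_moment {t v : ℝ} (hG : AtFlatGFF t v) (ht0 : 0 < t) (ht1 : t ≤ 1)
    {D : Set (ℝ × ℝ)} (hD : IsOpen D) (hDb : Bornology.IsBounded D)
    (hJ : ∃ γ : Circle → ℝ × ℝ, Continuous γ ∧ Function.Injective γ ∧ Set.range γ = frontier D)
    {δ : ℕ → ℝ} {F' : ℕ → Finset (ℤ × ℤ)} (hA : IsAdmissibleApprox D δ F')
    {φ : ℝ × ℝ → ℝ} (hφ : ContDiff ℝ ((⊤ : ℕ∞) : WithTop ℕ∞) φ) (hφc : HasCompactSupport φ) (hφD : tsupport φ ⊆ D)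
    (hφ0 : ∀ z, 0 ≤ φ z)
    {u : ℝ × ℝ → ℝ} (hu : ContDiffOn ℝ 2 u D) (huc : ContinuousOn u (closure D)) (hu0 : ∀ z ∈ frontier D, u z = 0)
    (hlap : ∀ z ∈ D, -lap2 u z = φ z) (k : ℕ) {ε : ℝ} (hε : 0 < ε) :
    ∀ᶠ n in atTop, ∀ F : Finset (ℤ × ℤ), F ⊆ F' n → Mdl21Ex F →
      atExpect t (δ n) F φ (fun s => s ^ k) ≤ tmmWick (v * ∫ z in D, φ z * u z) k + ε := by
  have hT := hG D hD hDb hJ δ F' hA φ hφ hφc hφD u hu huc hu0 hlap k
  have hev : ∀ᶠ n in atTop, atExpect t (δ n) (F' n) φ (fun s => s ^ k) < tmmWick (v * ∫ z in D, φ z * u z) k + ε :=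
    hT.eventually (gt_mem_nhds (by linarith))
  filter_upwards [hev] with n hn F hF hex
  exact (brg49_atExpect_pow_mono ht0 ht1 (δ n) hF hex (mdl21_ex_of_approx hA n) φ hφ0 k).trans hn.le

open Classical in
/-- **TAILS, UNIFORMLY IN THE HOLES** -/
theorem brg49_hole_tail {t v : ℝ} (hG : AtFlatGFF t v) (ht0 : 0 < t) (ht1 : t ≤ 1)
    {D : Set (ℝ × ℝ)} (hD : IsOpen D) (hDb : Bornology.IsBounded D)
    (hJ : ∃ γ : Circle → ℝ × ℝ, Continuous γ ∧ Function.Injective γ ∧ Set.range γ = frontier D)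
    {δ : ℕ → ℝ} {F' : ℕ → Finset (ℤ × ℤ)} (hA : IsAdmissibleApprox D δ F')
    {φ : ℝ × ℝ → ℝ} (hφ : ContDiff ℝ ((⊤ : ℕ∞) : WithTop ℕ∞) φ) (hφc : HasCompactSupport φ) (hφD : tsupport φ ⊆ D)
    (hφ0 : ∀ z, 0 ≤ φ z)
    {u : ℝ × ℝ → ℝ} (hu : ContDiffOn ℝ 2 u D) (huc : ContinuousOn u (closure D)) (hu0 : ∀ z ∈ frontier D, u z = 0)
    (hlap : ∀ z ∈ D, -lap2 u z = φ z) (p : ℕ) {x ε : ℝ} (hx : 0 < x) (hε : 0 < ε) :
    ∀ᶠ n in atTop, ∀ F : Finset (ℤ × ℤ), F ⊆ F' n → Mdl21Ex F →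
      atExpect t (δ n) F φ (fun s => if x ≤ s then 1 else 0) ≤ (tmmWick (v * ∫ z in D, φ z * u z) (2 * p) + ε) / x ^ (2 * p) := by
  filter_upwards [brg49_hole_moment hG ht0 ht1 hD hDb hJ hA hφ hφc hφD hφ0 hu huc hu0 hlap (2 * p) hε] with n hn F hF hex
  exact (brg49_tail_le ht0 (δ n) F φ hx p).trans (div_le_div_of_nonneg_right (hn F hF hex) (pow_pos hx _).le)

/-! ### the sharp Gaussian rate from fixed moments: at the level `x` use the moment of order `2 ⌊x² / (2 V)⌋` -/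

theorem brg49_wick_le {V : ℝ} (hV : 0 ≤ V) (p : ℕ) : tmmWick V (2 * p) ≤ (2 * V) ^ p * (p.factorial : ℝ) := by
  induction p with
  | zero => simp [tmm_wick_zero]
  | succ p ih =>
    rw [show 2 * (p + 1) = 2 * p + 2 by ring, tmm_wick_succ, Nat.factorial_succ, pow_succ]
    push_cast
    have h0 : 0 ≤ tmmWick V (2 * p) := tmm_wick_nonneg hV _
    have h1 : (2 * (p : ℝ) + 1) * V * tmmWick V (2 * p) ≤ (2 * (p : ℝ) + 2) * V * tmmWick V (2 * p) := by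
      apply mul_le_mul_of_nonneg_right _ h0
      apply mul_le_mul_of_nonneg_right _ hV
      linarith
    calc (2 * (p : ℝ) + 1) * V * tmmWick V (2 * p) ≤ (2 * (p : ℝ) + 2) * V * tmmWick V (2 * p) := h1
      _ ≤ (2 * (p : ℝ) + 2) * V * ((2 * V) ^ p * (p.factorial : ℝ)) := by
          apply mul_le_mul_of_nonneg_left ih; positivity
      _ = (2 * V) ^ p * (2 * V) * (((p : ℝ) + 1) * (p.factorial : ℝ)) := by ring

theorem brg49_pow_exp (p : ℕ) : (p : ℝ) ^ (p + 1) * Real.exp 1 ≤ ((p : ℝ) + 1) ^ (p + 1) := by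
  have hp : (0 : ℝ) < (p : ℝ) + 1 := by positivity
  have h : (p : ℝ) / ((p : ℝ) + 1) ≤ Real.exp (-(1 / ((p : ℝ) + 1))) := by
    have h1 := Real.add_one_le_exp (-(1 / ((p : ℝ) + 1)))
    have e : (p : ℝ) / ((p : ℝ) + 1) = -(1 / ((p : ℝ) + 1)) + 1 := by field_simp; ring
    rw [e]; exact h1
  have h2 := pow_le_pow_left₀ (by positivity) h (p + 1)
  rw [← Real.exp_nat_mul] at h2
  have e2 : ((p + 1 : ℕ) : ℝ) * -(1 / ((p : ℝ) + 1)) = -1 := by push_cast; field_simp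
  rw [e2, div_pow, div_le_iff₀ (by positivity), Real.exp_neg] at h2
  have he : 0 < Real.exp 1 := Real.exp_pos 1
  calc (p : ℝ) ^ (p + 1) * Real.exp 1 ≤ ((Real.exp 1)⁻¹ * ((p : ℝ) + 1) ^ (p + 1)) * Real.exp 1 :=
        mul_le_mul_of_nonneg_right h2 he.le
    _ = ((p : ℝ) + 1) ^ (p + 1) := by field_simp

/-- `p! ≤ e p (p / e) ^ p` -/
theorem brg49_fact_le (p : ℕ) (hp : 1 ≤ p) : (p.factorial : ℝ) * Real.exp p ≤ Real.exp 1 * (p : ℝ) ^ (p + 1) := by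
  induction p, hp using Nat.le_induction with
  | base => simp
  | succ p hp ih =>
    rw [Nat.factorial_succ]
    push_cast
    rw [Real.exp_add]
    have h := brg49_pow_exp p
    have he : 0 < Real.exp 1 := Real.exp_pos 1
    calc ((p : ℝ) + 1) * (p.factorial : ℝ) * (Real.exp p * Real.exp 1)
        = ((p : ℝ) + 1) * Real.exp 1 * ((p.factorial : ℝ) * Real.exp p) := by ring
      _ ≤ ((p : ℝ) + 1) * Real.exp 1 * (Real.exp 1 * (p : ℝ) ^ (p + 1)) := by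
          apply mul_le_mul_of_nonneg_left ih; positivity
      _ = ((p : ℝ) + 1) * Real.exp 1 * ((p : ℝ) ^ (p + 1) * Real.exp 1) := by ring
      _ ≤ ((p : ℝ) + 1) * Real.exp 1 * (((p : ℝ) + 1) ^ (p + 1)) := by
          apply mul_le_mul_of_nonneg_left h; positivity
      _ = Real.exp 1 * ((p : ℝ) + 1) ^ (p + 1 + 1) := by ring

/-- the largest term of the exponential series: `p! / b ^ p ≤ e² (1 + b) e^{-b}` for `p = ⌊b⌋` -/
theorem brg49_fact_div {b : ℝ} (hb : 0 < b) :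
    ∃ p : ℕ, (p.factorial : ℝ) / b ^ p ≤ Real.exp 2 * (1 + b) * Real.exp (-b) := by
  obtain ⟨p, hp⟩ : ∃ p, p = ⌊b⌋₊ := ⟨_, rfl⟩
  refine ⟨p, ?_⟩
  have h1 : (p : ℝ) ≤ b := by rw [hp]; exact Nat.floor_le hb.le
  have h2 : b < (p : ℝ) + 1 := by rw [hp]; exact Nat.lt_floor_add_one b
  clear hp
  rcases Nat.eq_zero_or_pos p with h0 | h0
  · subst h0
    simp only [Nat.factorial_zero, Nat.cast_one, pow_zero, div_one]
    have h3 : b < 1 := by simpa using h2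
    have h4 : (1 : ℝ) ≤ Real.exp (2 - b) := Real.one_le_exp (by linarith)
    have h5 : Real.exp (2 - b) = Real.exp 2 * Real.exp (-b) := by rw [← Real.exp_add]; ring_nf
    have h6 : 0 ≤ Real.exp 2 * Real.exp (-b) := by positivity
    calc (1 : ℝ) ≤ Real.exp 2 * Real.exp (-b) := h5 ▸ h4
      _ ≤ Real.exp 2 * Real.exp (-b) * (1 + b) := le_mul_of_one_le_right h6 (by linarith)
      _ = Real.exp 2 * (1 + b) * Real.exp (-b) := by ring
  · have hp1 : (1 : ℝ) ≤ p := by exact_mod_cast h0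
    have hF := brg49_fact_le p h0
    have hq : (p : ℝ) / b ≤ Real.exp ((p : ℝ) / b - 1) := by
      have := Real.add_one_le_exp ((p : ℝ) / b - 1); linarith
    have hq2 := pow_le_pow_left₀ (by positivity) hq p
    rw [← Real.exp_nat_mul, div_pow] at hq2
    have hexp : (p : ℝ) * ((p : ℝ) / b - 1) - p ≤ 1 - b := by
      have e : (p : ℝ) * ((p : ℝ) / b - 1) - p - (1 - b) = ((b - p) ^ 2 - b) / b := by field_simp; ring
      have h5 : (b - p) ^ 2 ≤ b := by nlinarith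
      have h6 : ((b - p) ^ 2 - b) / b ≤ 0 := div_nonpos_of_nonpos_of_nonneg (by linarith) hb.le
      linarith
    have hbp : 0 < b ^ p := pow_pos hb p
    have hfac : (p.factorial : ℝ) ≤ Real.exp 1 * (p : ℝ) ^ (p + 1) * Real.exp (-(p : ℝ)) := by
      rw [Real.exp_neg, ← div_eq_mul_inv, le_div_iff₀ (Real.exp_pos _)]; exact hF
    calc (p.factorial : ℝ) / b ^ p ≤ (Real.exp 1 * (p : ℝ) ^ (p + 1) * Real.exp (-(p : ℝ))) / b ^ p :=
          div_le_div_of_nonneg_right hfac hbp.le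
      _ = Real.exp 1 * p * Real.exp (-(p : ℝ)) * ((p : ℝ) ^ p / b ^ p) := by rw [pow_succ]; ring
      _ ≤ Real.exp 1 * p * Real.exp (-(p : ℝ)) * Real.exp ((p : ℝ) * ((p : ℝ) / b - 1)) := by
          apply mul_le_mul_of_nonneg_left hq2; positivity
      _ = Real.exp 1 * p * Real.exp ((p : ℝ) * ((p : ℝ) / b - 1) - p) := by
          rw [mul_assoc, ← Real.exp_add]; ring_nf
      _ ≤ Real.exp 1 * p * Real.exp (1 - b) := by
          apply mul_le_mul_of_nonneg_left (Real.exp_le_exp.2 hexp); positivity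
      _ = Real.exp 2 * p * Real.exp (-b) := by
          rw [show (1 : ℝ) - b = 1 + -b by ring, Real.exp_add, show (2 : ℝ) = 1 + 1 by norm_num, Real.exp_add]; ring
      _ ≤ Real.exp 2 * (1 + b) * Real.exp (-b) := by
          apply mul_le_mul_of_nonneg_right _ (Real.exp_pos _).le
          apply mul_le_mul_of_nonneg_left _ (Real.exp_pos _).le
          linarith

/-- Chebyshev with the best moment has the Gaussian rate `exp (- x² / (2 V))` -/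
theorem brg49_wick_gauss {V x : ℝ} (hV : 0 < V) (hx : 0 < x) :
    ∃ p : ℕ, tmmWick V (2 * p) / x ^ (2 * p) ≤ Real.exp 2 * (1 + x ^ 2 / (2 * V)) * Real.exp (-(x ^ 2 / (2 * V))) := by
  obtain ⟨p, hp⟩ := brg49_fact_div (b := x ^ 2 / (2 * V)) (by positivity)
  refine ⟨p, le_trans ?_ hp⟩
  have h := brg49_wick_le hV.le p
  rw [div_pow, pow_mul]
  calc tmmWick V (2 * p) / (x ^ 2) ^ p ≤ ((2 * V) ^ p * (p.factorial : ℝ)) / (x ^ 2) ^ p :=
        div_le_div_of_nonneg_right h (by positivity)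
    _ = (p.factorial : ℝ) / ((x ^ 2) ^ p / (2 * V) ^ p) := by field_simp

open Classical in
/-- **GAUSSIAN TAIL WITH THE SHARP RATE, UNIFORMLY IN THE HOLES**: `V = v ∫ φ u` the limiting variance in the nice domain `D`; at every fixed level `x`, eventually, for ALL sub-domains `F ⊆ F' n`:
`P_F(X ≥ x) ≤ e² (1 + x² / (2 V)) exp (- x² / (2 V)) + ε`      (only the convergence of the fixed moments of `AtFlatGFF` is used) -/
theorem brg49_hole_gauss {t v : ℝ} (hG : AtFlatGFF t v) (ht0 : 0 < t) (ht1 : t ≤ 1)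
    {D : Set (ℝ × ℝ)} (hD : IsOpen D) (hDb : Bornology.IsBounded D)
    (hJ : ∃ γ : Circle → ℝ × ℝ, Continuous γ ∧ Function.Injective γ ∧ Set.range γ = frontier D)
    {δ : ℕ → ℝ} {F' : ℕ → Finset (ℤ × ℤ)} (hA : IsAdmissibleApprox D δ F')
    {φ : ℝ × ℝ → ℝ} (hφ : ContDiff ℝ ((⊤ : ℕ∞) : WithTop ℕ∞) φ) (hφc : HasCompactSupport φ) (hφD : tsupport φ ⊆ D)
    (hφ0 : ∀ z, 0 ≤ φ z)
    {u : ℝ × ℝ → ℝ} (hu : ContDiffOn ℝ 2 u D) (huc : ContinuousOn u (closure D)) (hu0 : ∀ z ∈ frontier D, u z = 0)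
    (hlap : ∀ z ∈ D, -lap2 u z = φ z) (hV : 0 < v * ∫ z in D, φ z * u z) {x ε : ℝ} (hx : 0 < x) (hε : 0 < ε) :
    ∀ᶠ n in atTop, ∀ F : Finset (ℤ × ℤ), F ⊆ F' n → Mdl21Ex F →
      atExpect t (δ n) F φ (fun s => if x ≤ s then 1 else 0) ≤
        Real.exp 2 * (1 + x ^ 2 / (2 * (v * ∫ z in D, φ z * u z))) * Real.exp (-(x ^ 2 / (2 * (v * ∫ z in D, φ z * u z)))) + ε := by
  obtain ⟨p, hp⟩ := brg49_wick_gauss hV hx
  have hxp : 0 < x ^ (2 * p) := pow_pos hx _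
  filter_upwards [brg49_hole_tail hG ht0 ht1 hD hDb hJ hA hφ hφc hφD hφ0 hu huc hu0 hlap p hx (mul_pos hε hxp)] with n hn F hF hex
  refine (hn F hF hex).trans ?_
  rw [add_div, mul_div_assoc, div_self hxp.ne', mul_one]
  linarith

open Classical in
/-- Chebyshev with an even moment, two sided -/
theorem brg49_tail_abs_le {t : ℝ} (ht : 0 < t) (δ : ℝ) (F : Finset (ℤ × ℤ)) (φ : ℝ × ℝ → ℝ) {x : ℝ} (hx : 0 < x) (p : ℕ) :
    atExpect t δ F φ (fun s => if x ≤ |s| then 1 else 0) ≤ atExpect t δ F φ (fun s => s ^ (2 * p)) / x ^ (2 * p) := by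
  rw [← brg49_expect_div]
  refine brg49_expect_mono_psi ht δ F φ fun s => ?_
  have hx2 : 0 < x ^ (2 * p) := pow_pos hx _
  split_ifs with h
  · rw [one_le_div hx2, ← Even.pow_abs (even_two_mul p) s]
    exact pow_le_pow_left₀ hx.le h _
  · exact div_nonneg (Even.pow_nonneg (even_two_mul p) s) hx2.le

open Classical in
/-- **TWO SIDED GAUSSIAN TAIL WITH THE SHARP RATE, UNIFORMLY IN THE HOLES**:   `P_F(|X| ≥ x) ≤ e² (1 + x² / (2 V)) exp (- x² / (2 V)) + ε` -/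
theorem brg49_hole_gauss_abs {t v : ℝ} (hG : AtFlatGFF t v) (ht0 : 0 < t) (ht1 : t ≤ 1)
    {D : Set (ℝ × ℝ)} (hD : IsOpen D) (hDb : Bornology.IsBounded D)
    (hJ : ∃ γ : Circle → ℝ × ℝ, Continuous γ ∧ Function.Injective γ ∧ Set.range γ = frontier D)
    {δ : ℕ → ℝ} {F' : ℕ → Finset (ℤ × ℤ)} (hA : IsAdmissibleApprox D δ F')
    {φ : ℝ × ℝ → ℝ} (hφ : ContDiff ℝ ((⊤ : ℕ∞) : WithTop ℕ∞) φ) (hφc : HasCompactSupport φ) (hφD : tsupport φ ⊆ D)
    (hφ0 : ∀ z, 0 ≤ φ z)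
    {u : ℝ × ℝ → ℝ} (hu : ContDiffOn ℝ 2 u D) (huc : ContinuousOn u (closure D)) (hu0 : ∀ z ∈ frontier D, u z = 0)
    (hlap : ∀ z ∈ D, -lap2 u z = φ z) (hV : 0 < v * ∫ z in D, φ z * u z) {x ε : ℝ} (hx : 0 < x) (hε : 0 < ε) :
    ∀ᶠ n in atTop, ∀ F : Finset (ℤ × ℤ), F ⊆ F' n → Mdl21Ex F →
      atExpect t (δ n) F φ (fun s => if x ≤ |s| then 1 else 0) ≤
        Real.exp 2 * (1 + x ^ 2 / (2 * (v * ∫ z in D, φ z * u z))) * Real.exp (-(x ^ 2 / (2 * (v * ∫ z in D, φ z * u z)))) + ε := by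
  obtain ⟨p, hp⟩ := brg49_wick_gauss hV hx
  have hxp : 0 < x ^ (2 * p) := pow_pos hx _
  filter_upwards [brg49_hole_moment hG ht0 ht1 hD hDb hJ hA hφ hφc hφD hφ0 hu huc hu0 hlap (2 * p) (mul_pos hε hxp)] with n hn F hF hex
  refine (brg49_tail_abs_le ht0 (δ n) F φ hx p).trans ((div_le_div_of_nonneg_right (hn F hF hex) hxp.le).trans ?_)
  rw [add_div, mul_div_assoc, div_self hxp.ne', mul_one]
  linarith

end Holes

/-! ## 6. The arithmetic end of the route (REC_k) + RcD′ (notes/R292/RCD_49.md, Sec. 4 and 6)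

A recursion with `k`-th powers on windows of ratio `ρ < k ^ 2` turns one small value into the decay
`(1/2) ^ (k ^ j)` at the scale `ρ ^ j`, which is faster than `exp (- c √N)`; so "no decay `exp (- c √N)`"
(the weak form RcD′ of Theorem D) gives the uniform lower bound. Pure real analysis: no model here. -/

section DichK

/-- the window of a scale -/
theorem brg49_scale_ex (ρ n1 t : ℕ) (hρ : 2 ≤ ρ) (h1 : 1 ≤ n1) (ht : ρ * n1 ≤ t) :
    ∃ j, ρ ^ (j + 1) * n1 ≤ t ∧ t ≤ ρ ^ (j + 2) * n1 := by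
  have hex : ∃ i, t < ρ ^ i * n1 := ⟨t, lt_of_lt_of_le (Nat.lt_pow_self (by omega)) (Nat.le_mul_of_pos_right _ h1)⟩
  classical
  have hf := Nat.find_spec hex
  have hm := fun i => Nat.find_min hex (m := i)
  set i := Nat.find hex with hi
  rcases i with _ | _ | j
  · exfalso
    rw [pow_zero, one_mul] at hf
    have : n1 ≤ ρ * n1 := Nat.le_mul_of_pos_left _ (by omega)
    omega
  · exfalso
    rw [zero_add, pow_one] at hf
    omega
  · exact ⟨j, not_lt.1 (hm (j + 1) (by omega)), hf.le⟩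

/-- (REC_k) on windows: `v N ≤ v n ^ k` gives the decay `δ ^ (k ^ (j + 1))` on the `j`-th window -/
theorem brg49_rec_all_k (v : ℕ → ℝ) (ρ k n0 n1 : ℕ) (δ : ℝ) (hρ : 2 ≤ ρ) (h0 : ∀ n, 0 ≤ v n)
    (hrec : ∀ n N, n0 ≤ n → ρ * n ≤ N → N ≤ ρ ^ 2 * n → v N ≤ v n ^ k) (hn : n0 ≤ n1) (h1 : 1 ≤ n1)
    (hs : v n1 ≤ δ) :
    ∀ j N, ρ ^ (j + 1) * n1 ≤ N → N ≤ ρ ^ (j + 2) * n1 → v N ≤ δ ^ (k ^ (j + 1)) := by
  have step : ∀ n N, n0 ≤ n → ρ * n ≤ N → N ≤ ρ ^ 2 * n → ∀ d : ℝ, v n ≤ d → v N ≤ d ^ k := by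
    intro n N a b c d hd
    exact (hrec n N a b c).trans (pow_le_pow_left₀ (h0 n) hd k)
  intro j
  induction j with
  | zero =>
    intro N a b
    have := step n1 N hn (by simpa using a) (by simpa using b) _ hs
    simpa using this
  | succ j ih =>
    intro N a b
    have hρ0 : 0 < ρ := by omega
    have hlow : ρ ^ (j + 1) * n1 ≤ N / ρ := by
      rw [Nat.le_div_iff_mul_le hρ0]
      calc ρ ^ (j + 1) * n1 * ρ = ρ ^ (j + 1 + 1) * n1 := by rw [pow_succ ρ (j + 1)]; ring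
        _ ≤ N := a
    have hup : N / ρ ≤ ρ ^ (j + 2) * n1 := by
      refine Nat.div_le_of_le_mul ?_
      calc N ≤ ρ ^ (j + 1 + 2) * n1 := b
        _ = ρ * (ρ ^ (j + 2) * n1) := by rw [show j + 1 + 2 = (j + 2) + 1 by ring, pow_succ ρ (j + 2)]; ring
    have hpos : 1 ≤ ρ ^ (j + 1) * n1 := Nat.mul_pos (pow_pos hρ0 _) h1
    have hn1 : n1 ≤ ρ ^ (j + 1) * n1 := Nat.le_mul_of_pos_left _ (pow_pos hρ0 _)
    have hd1 : ρ * (N / ρ) ≤ N := Nat.mul_div_le N ρ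
    have hd2 : N < ρ * (N / ρ + 1) := by
      have := Nat.lt_mul_div_succ N hρ0
      simpa using this
    have hd3 : N ≤ ρ ^ 2 * (N / ρ) := by
      have : 1 ≤ N / ρ := hpos.trans hlow
      nlinarith
    have := step (N / ρ) N (hn.trans (hn1.trans hlow)) hd1 hd3 _ (ih (N / ρ) hlow hup)
    rw [← pow_mul, ← pow_succ] at this
    exact this

/-- **the dichotomy with `k`-th powers**: (REC_k) on windows of ratio `ρ < k ^ 2` and "no decay
`exp (- c √N)`" (the statement RcD′ of the notes) give a uniform lower bound. -/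
theorem brg49_dich_k (v : ℕ → ℝ) (ρ k n0 : ℕ) (c : ℝ) (hc : 0 < c) (hρ : 2 ≤ ρ) (hk : ρ < k ^ 2)
    (h0 : ∀ n, 0 ≤ v n)
    (hrec : ∀ n N, n0 ≤ n → ρ * n ≤ N → N ≤ ρ ^ 2 * n → v N ≤ v n ^ k)
    (hD : ∀ M : ℕ, ∃ N, M ≤ N ∧ Real.exp (-(c * Real.sqrt N)) < v N) :
    ∀ n, n0 ≤ n → 1 ≤ n → 1 / 2 < v n := by
  intro n1 hn h1
  by_contra hcon
  rw [not_lt] at hcon
  have hall := brg49_rec_all_k v ρ k n0 n1 (1 / 2) hρ h0 hrec hn h1 hcon
  have hρ0 : 0 < ρ := by omega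
  have hρR : (0 : ℝ) < ρ := by exact_mod_cast hρ0
  have hnR : (0 : ℝ) < n1 := by exact_mod_cast h1
  obtain ⟨K0, hK0⟩ := exists_nat_ge (4 * c ^ 2 * (ρ : ℝ) ^ 2 * n1)
  obtain ⟨N, hMN, hN⟩ := hD (ρ ^ (K0 + 1) * n1 + 1)
  have hge : ρ * n1 ≤ N := by
    have : ρ * n1 ≤ ρ ^ (K0 + 1) * n1 :=
      Nat.mul_le_mul_right _ (by rw [pow_succ]; exact Nat.le_mul_of_pos_left _ (pow_pos hρ0 _))
    omega
  obtain ⟨j, hj1, hj2⟩ := brg49_scale_ex ρ n1 N hρ h1 hge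
  have hjK : K0 ≤ j + 1 := by
    by_contra hcc
    have a3 : ρ ^ (j + 2) ≤ ρ ^ (K0 + 1) := Nat.pow_le_pow_right hρ0 (by omega)
    have := Nat.mul_le_mul_right n1 a3
    omega
  have hu := hall j N hj1 hj2
  refine absurd (hN.trans_le hu) (not_lt.2 ?_)
  -- `(1/2)^(k^(j+1)) ≤ exp (-(c √N))`
  set m := j + 1 with hm
  have e1 : ((1 : ℝ) / 2) ^ (k ^ m) ≤ Real.exp (-(1 / 2 * ((k : ℝ) ^ m))) := by
    have : (1 : ℝ) / 2 ≤ Real.exp (-(1 / 2)) := by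
      have h2 : Real.exp (1 / 2) ≤ 2 := by
        have := Real.exp_one_lt_d9
        have h3 : Real.exp (1 / 2) * Real.exp (1 / 2) = Real.exp 1 := by rw [← Real.exp_add]; norm_num
        nlinarith [Real.exp_pos (1 / 2 : ℝ)]
      rw [Real.exp_neg, show (1 : ℝ) / 2 = (2 : ℝ)⁻¹ by norm_num] at *
      exact inv_anti₀ (Real.exp_pos _) h2
    calc ((1 : ℝ) / 2) ^ (k ^ m) ≤ (Real.exp (-(1 / 2))) ^ (k ^ m) := pow_le_pow_left₀ (by norm_num) this _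
      _ = Real.exp (-(1 / 2 * ((k : ℝ) ^ m))) := by
        rw [← Real.exp_nat_mul]
        congr 1
        push_cast
        ring
  refine e1.trans (Real.exp_le_exp.2 ?_)
  rw [neg_le_neg_iff]
  -- `c √N ≤ k^m / 2`
  have hkey : (N : ℝ) ≤ ((k : ℝ) ^ m / (2 * c)) ^ 2 := by
    have b1 : (N : ℝ) ≤ (ρ : ℝ) ^ (m + 1) * n1 := by exact_mod_cast hj2
    have b2 : (ρ : ℝ) + 1 ≤ (k : ℝ) ^ 2 := by exact_mod_cast hk
    have b3 : 1 + (m : ℝ) * (1 / ρ) ≤ (1 + 1 / (ρ : ℝ)) ^ m :=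
      one_add_mul_le_pow (by have : (0 : ℝ) ≤ 1 / ρ := by positivity
                             linarith) m
    have b4 : (ρ : ℝ) ^ m * (1 + 1 / (ρ : ℝ)) ^ m ≤ ((k : ℝ) ^ 2) ^ m := by
      rw [← mul_pow]
      refine pow_le_pow_left₀ (by positivity) ?_ m
      have : (ρ : ℝ) * (1 + 1 / ρ) = ρ + 1 := by field_simp
      rw [this]; exact b2
    have b5 : 4 * c ^ 2 * (ρ : ℝ) ^ 2 * n1 ≤ m := hK0.trans (by exact_mod_cast hjK)
    have b6 : 4 * c ^ 2 * (ρ : ℝ) * n1 ≤ 1 + (m : ℝ) * (1 / ρ) := by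
      have : 4 * c ^ 2 * (ρ : ℝ) * n1 = (4 * c ^ 2 * (ρ : ℝ) ^ 2 * n1) * (1 / ρ) := by field_simp
      rw [this]
      have := mul_le_mul_of_nonneg_right b5 (by positivity : (0 : ℝ) ≤ 1 / ρ)
      linarith
    have b7 : (ρ : ℝ) ^ m * (4 * c ^ 2 * (ρ : ℝ) * n1) ≤ ((k : ℝ) ^ 2) ^ m :=
      (mul_le_mul_of_nonneg_left (b6.trans b3) (by positivity)).trans b4
    rw [div_pow, le_div_iff₀ (by positivity)]
    calc (N : ℝ) * (2 * c) ^ 2 ≤ (ρ : ℝ) ^ (m + 1) * n1 * (2 * c) ^ 2 :=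
          mul_le_mul_of_nonneg_right b1 (by positivity)
      _ = (ρ : ℝ) ^ m * (4 * c ^ 2 * (ρ : ℝ) * n1) := by rw [pow_succ]; ring
      _ ≤ ((k : ℝ) ^ 2) ^ m := b7
      _ = ((k : ℝ) ^ m) ^ 2 := by rw [← pow_mul, ← pow_mul, mul_comm]
  have hs : Real.sqrt N ≤ (k : ℝ) ^ m / (2 * c) := Real.sqrt_le_iff.2 ⟨by positivity, hkey⟩
  calc c * Real.sqrt N ≤ c * ((k : ℝ) ^ m / (2 * c)) := mul_le_mul_of_nonneg_left hs hc.le
    _ = 1 / 2 * (k : ℝ) ^ m := by field_simp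

/-- the same with a constant in the recursion: `u N ≤ (C u n) ^ k`, `C ≥ 1`, `k ≥ 2` -/
theorem brg49_dich_k_const (u : ℕ → ℝ) (ρ k n0 : ℕ) (C c : ℝ) (hC : 1 ≤ C) (hc : 0 < c) (hρ : 2 ≤ ρ)
    (hk2 : 2 ≤ k) (hk : ρ < k ^ 2) (h0 : ∀ n, 0 ≤ u n)
    (hrec : ∀ n N, n0 ≤ n → ρ * n ≤ N → N ≤ ρ ^ 2 * n → u N ≤ (C * u n) ^ k)
    (hD : ∀ M : ℕ, ∃ N, M ≤ N ∧ Real.exp (-(c * Real.sqrt N)) < u N) :
    ∀ n, n0 ≤ n → 1 ≤ n → 1 / 2 < C ^ 2 * u n := by
  have hC0 : (0 : ℝ) < C := by linarith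
  have hC2 : (1 : ℝ) ≤ C ^ 2 := one_le_pow₀ hC
  refine brg49_dich_k (fun n => C ^ 2 * u n) ρ k n0 c hc hρ hk (fun n => mul_nonneg (by positivity) (h0 n))
    (fun n N a b d => ?_) (fun M => ?_)
  · have e1 : C ^ 2 * C ^ k ≤ (C ^ 2) ^ k := by
      rw [← pow_add, ← pow_mul]
      exact pow_le_pow_right₀ hC (by nlinarith)
    calc C ^ 2 * u N ≤ C ^ 2 * (C * u n) ^ k := mul_le_mul_of_nonneg_left (hrec n N a b d) (by positivity)
      _ = (C ^ 2 * C ^ k) * u n ^ k := by rw [mul_pow]; ring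
      _ ≤ (C ^ 2) ^ k * u n ^ k := mul_le_mul_of_nonneg_right e1 (pow_nonneg (h0 n) _)
      _ = (C ^ 2 * u n) ^ k := by rw [mul_pow]
  · obtain ⟨N, h1, h2⟩ := hD M
    exact ⟨N, h1, h2.trans_le (le_mul_of_one_le_left (h0 N) hC2)⟩

open Filter in
/-- **the exact analogue of `ann_dich2` for the road (REC_k) + RcD′**: (REC_k) on windows of ratio `ρ < k ^ 2`, the polynomial
comparison `e ≲ u` at every scale, and "`e N > exp (- c √N)` for infinitely many `N`" give a uniform lower bound of `u`. -/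
theorem brg49_dich_k_poly (u e : ℕ → ℝ) (ρ k J n0 : ℕ) (C c : ℝ) (hC : 1 ≤ C) (hc : 0 < c) (hρ : 2 ≤ ρ)
    (hk2 : 2 ≤ k) (hk : ρ < k ^ 2) (h0 : ∀ n, 0 ≤ u n)
    (hrec : ∀ n N, n0 ≤ n → ρ * n ≤ N → N ≤ ρ ^ 2 * n → u N ≤ (C * u n) ^ k)
    (hpoly : ∀ t : ℕ, 1 ≤ t → 1 / 4 * (e t / (21 * (t : ℝ)) ^ 4) ^ J ≤ u t)
    (hD : ∀ M : ℕ, ∃ N, M ≤ N ∧ Real.exp (-(c * Real.sqrt N)) < e N) :
    ∀ n, n0 ≤ n → 1 ≤ n → 1 / 2 < C ^ 2 * u n := by
  refine brg49_dich_k_const u ρ k n0 C (c * J + 1) hC (by positivity) hρ hk2 hk h0 hrec (fun M => ?_)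
  have hev : ∀ᶠ N : ℕ in atTop,
      (Real.sqrt N) ^ (8 * J) * Real.exp (-(Real.sqrt N)) < 1 / (4 * 21 ^ (4 * J)) := by
    have h1 := Real.tendsto_pow_mul_exp_neg_atTop_nhds_zero (8 * J)
    have h2 : Tendsto (fun N : ℕ => Real.sqrt N) atTop atTop :=
      Real.tendsto_sqrt_atTop.comp tendsto_natCast_atTop_atTop
    exact (h1.comp h2).eventually (gt_mem_nhds (by positivity))
  obtain ⟨M0, hM0⟩ := eventually_atTop.1 hev
  obtain ⟨N, hMN, hN⟩ := hD (max M (max M0 1))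
  have hN1 : 1 ≤ N := le_trans (le_trans (le_max_right _ _) (le_max_right _ _)) hMN
  have hNM0 : M0 ≤ N := le_trans (le_trans (le_max_left _ _) (le_max_right _ _)) hMN
  refine ⟨N, le_trans (le_max_left _ _) hMN, ?_⟩
  have a1 := hM0 N hNM0
  have hNR : (0 : ℝ) < N := by exact_mod_cast hN1
  have hxx : (N : ℝ) = Real.sqrt N ^ 2 := (Real.sq_sqrt (Nat.cast_nonneg N)).symm
  have hx : 0 < Real.sqrt N := Real.sqrt_pos.2 hNR
  set x := Real.sqrt N with hxdef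
  have a2 : (Real.exp (-(c * x)) / (21 * (N : ℝ)) ^ 4) ^ J ≤ (e N / (21 * (N : ℝ)) ^ 4) ^ J :=
    pow_le_pow_left₀ (by positivity) (div_le_div_of_nonneg_right hN.le (by positivity)) J
  have a3 : (Real.exp (-(c * x)) / (21 * (N : ℝ)) ^ 4) ^ J
      = Real.exp (-(c * J * x)) / (21 ^ (4 * J) * x ^ (8 * J)) := by
    rw [div_pow, ← Real.exp_nat_mul, hxx]
    congr 1
    · congr 1; ring
    · rw [← pow_mul, mul_pow, ← pow_mul]
      congr 2
      ring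
  calc Real.exp (-((c * J + 1) * x)) = Real.exp (-(c * J * x)) * Real.exp (-x) := by
        rw [← Real.exp_add]; congr 1; ring
    _ < Real.exp (-(c * J * x)) * (1 / (4 * 21 ^ (4 * J)) / x ^ (8 * J)) :=
        mul_lt_mul_of_pos_left ((lt_div_iff₀ (pow_pos hx _)).2 (by rw [mul_comm]; exact a1)) (Real.exp_pos _)
    _ = 1 / 4 * (Real.exp (-(c * J * x)) / (21 ^ (4 * J) * x ^ (8 * J))) := by field_simp
    _ = 1 / 4 * (Real.exp (-(c * x)) / (21 * (N : ℝ)) ^ 4) ^ J := by rw [a3]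
    _ ≤ 1 / 4 * (e N / (21 * (N : ℝ)) ^ 4) ^ J := mul_le_mul_of_nonneg_left a2 (by norm_num)
    _ ≤ u N := hpoly N hN1

end DichK

section TopK

open Claims Claims.C0468 Claimed.Agent.R291

/-- **the statement of `exit_rsw_circuit`** from (U ≳ η^J), (REC_k) with `ρ < k ^ 2`, and RcD′ ("`η` does not decay like
`exp (- c √s)`"): the `k`-power analogue of `rc_top`; the two new hypotheses are written out. -/
theorem brg49_rc_top_k (t : ℝ) (ht1 : 1 / 2 ≤ t) (ht2 : t < 1) (hUE : RcUEta t)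
    (hRecK : ∃ K0 : ℕ, ∀ K : ℕ, K0 ≤ K → ∃ (ρ k : ℕ) (C : ℝ) (n0 : ℕ), 2 ≤ ρ ∧ 2 ≤ k ∧ ρ < k ^ 2 ∧ 1 ≤ C ∧
      ∀ n N : ℕ, n0 ≤ n → ρ * n ≤ N → N ≤ ρ ^ 2 * n → rcU t N (2 * K * N) ≤ (C * rcU t n (2 * K * n)) ^ k)
    (hD' : ∃ c : ℝ, 0 < c ∧ ∀ M : ℕ, ∃ s, M ≤ s ∧ Real.exp (-(c * Real.sqrt s)) < rcEta t (4 * s) (7 * (4 * s))) :
    ∃ (κ n0 : ℕ) (p : ℝ), 2 ≤ κ ∧ 0 < p ∧ ∀ n : ℕ, n0 ≤ n →
      p ≤ rswP t (rswBox 0 (κ * n)) true
        (fun ω => RswSep (rswBox 0 (κ * n)) false ω (rswBox 0 n) (rswLayer (rswBox 0 (κ * n)))) := by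
  have h0 : 0 < t := by linarith
  obtain ⟨κ, J, hκ, P⟩ := hUE
  obtain ⟨K0, R⟩ := hRecK
  obtain ⟨c, hc, hD⟩ := hD'
  obtain ⟨ρ, k, C, n2, hρ, hk2, hk, hC, R⟩ := R (max K0 κ) (le_max_left _ _)
  set K := max K0 κ with hK
  have hK1 : κ ≤ K := le_max_right _ _
  have hC0 : (0 : ℝ) < C := by linarith
  have key := brg49_dich_k_poly (fun n => rcU t n (2 * K * n)) (fun s => rcEta t (4 * s) (7 * (4 * s))) ρ k J n2 C c
    hC hc hρ hk2 hk (fun n => rc_U_nonneg h0 ht2.le _ _) R (fun s hs => P K s (by omega) hs) hD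
  refine ⟨2 * K, max n2 1, 1 / (2 * C ^ 2), by omega, by positivity, fun n hn => ?_⟩
  have := key n (le_trans (le_max_left _ _) hn) (le_trans (le_max_right _ _) hn)
  have h2 : 1 / (2 * C ^ 2) ≤ rcU t n (2 * K * n) := by
    rw [div_le_iff₀ (by positivity)]
    linarith
  exact h2

end TopK

end Claimed.Agent.R292
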