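/-
Row 292 (S0540), unit BRIDGE, pen helper149, prefix `brl149_`.      no sorry

EXACT FINITE-VOLUME CONVEXITY TOOLS AT `c ≥ 1`, on the systems `Mdl231Sys` of `Model/Fkg231` (helper231).

* `brl149_ff4`        four functions theorem with four finite sets;
* **`brl149_lsm`** (T1)   `Z_A(b₁) Z_A(b₂) ≤ Z_A(b₁ ⊓ b₂) Z_A(b₁ ⊔ b₂)`: the partition function is log-supermodular
                      in the boundary function;
* **`brl149_rise`**, `brl149_rise_sq` (T2)   log-concavity in the rise of ANY part `U` of the boundary;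
* `brl149_fold_principle`, `brl149_fold_fun`   the abstract folding principle: a nonnegative log-supermodular function of a
                      profile `ξ : X → ℤ` which is invariant under all reflections `ξ ↦ 2 m - ξ` is maximal on the
                      profiles of oscillation `≤ 1`;
* **`brl149_flat_max`** (T3)   the flat boundary function maximises the partition function.

BLOCK 2 (appended 19:50Z, prefix `brc149_`): from the torus sectors `svZN` to flat boxes and back; see its own header below.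
-/
import Claimed.Agent.R292.Model.Fkg231
import Claimed.Agent.R292.Bridge.Sect149
import Claimed.Agent.R290.SvaHeight

set_option autoImplicit false

namespace Claimed.Agent.R292

open Finset
open scoped FinsetFamily

/-! ## 1. Four functions, four sets -/

theorem brl149_ff4 {α : Type*} [DistribLattice α] (S₁ S₂ S₃ S₄ : Finset α) (f₁ f₂ f₃ f₄ : α → ℝ)
    (h₁ : ∀ a ∈ S₁, 0 ≤ f₁ a) (h₂ : ∀ a ∈ S₂, 0 ≤ f₂ a)
    (h₃ : ∀ a ∈ S₃, 0 ≤ f₃ a) (h₄ : ∀ a ∈ S₄, 0 ≤ f₄ a)
    (h : ∀ a ∈ S₁, ∀ c ∈ S₂, a ⊓ c ∈ S₃ ∧ a ⊔ c ∈ S₄ ∧ f₁ a * f₂ c ≤ f₃ (a ⊓ c) * f₄ (a ⊔ c)) :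
    (∑ a ∈ S₁, f₁ a) * ∑ c ∈ S₂, f₂ c ≤ (∑ a ∈ S₃, f₃ a) * ∑ c ∈ S₄, f₄ c := by
  classical
  have nn : ∀ (S : Finset α) (f : α → ℝ), (∀ a ∈ S, 0 ≤ f a) →
      (0 : α → ℝ) ≤ fun a => if a ∈ S then f a else 0 := by
    intro S f hf a
    show (0 : ℝ) ≤ if a ∈ S then f a else 0
    split_ifs with ha
    · exact hf a ha
    · exact le_rfl
  have key := four_functions_theorem (fun a => if a ∈ S₁ then f₁ a else 0)
    (fun a => if a ∈ S₂ then f₂ a else 0) (fun a => if a ∈ S₃ then f₃ a else 0)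
    (fun a => if a ∈ S₄ then f₄ a else 0) (nn _ _ h₁) (nn _ _ h₂) (nn _ _ h₃) (nn _ _ h₄)
    (by
      intro a c
      by_cases ha : a ∈ S₁
      · by_cases hc : c ∈ S₂
        · obtain ⟨i1, i2, i3⟩ := h a ha c hc
          simp only [ha, hc, i1, i2, if_true]
          exact i3
        · simp only [hc, if_false, mul_zero]
          exact mul_nonneg (nn _ _ h₃ _) (nn _ _ h₄ _)
      · simp only [ha, if_false, zero_mul]
        exact mul_nonneg (nn _ _ h₃ _) (nn _ _ h₄ _)) S₁ S₂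
  have e : ∀ (S : Finset α) (f : α → ℝ), ∑ a ∈ S, (if a ∈ S then f a else 0) = ∑ a ∈ S, f a :=
    fun S f => Finset.sum_congr rfl fun a ha => if_pos ha
  rw [e, e] at key
  have s1 : S₁ ⊼ S₂ ⊆ S₃ := by
    intro x hx
    obtain ⟨a, ha, c, hc, rfl⟩ := Finset.mem_infs.1 hx
    exact (h a ha c hc).1
  have s2 : S₁ ⊻ S₂ ⊆ S₄ := by
    intro x hx
    obtain ⟨a, ha, c, hc, rfl⟩ := Finset.mem_sups.1 hx
    exact (h a ha c hc).2.1
  have b1 : ∑ a ∈ S₁ ⊼ S₂, (if a ∈ S₃ then f₃ a else 0) ≤ ∑ a ∈ S₃, f₃ a := by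
    rw [← e S₃ f₃]
    exact Finset.sum_le_sum_of_subset_of_nonneg s1 fun a _ _ => nn _ _ h₃ a
  have b2 : ∑ a ∈ S₁ ⊻ S₂, (if a ∈ S₄ then f₄ a else 0) ≤ ∑ a ∈ S₄, f₄ a := by
    rw [← e S₄ f₄]
    exact Finset.sum_le_sum_of_subset_of_nonneg s2 fun a _ _ => nn _ _ h₄ a
  exact key.trans (mul_le_mul b1 b2 (Finset.sum_nonneg fun a _ => nn _ _ h₄ a)
    (Finset.sum_nonneg h₃))

/-! ## 2. (T1) log-supermodularity of the partition function in the boundary function -/

variable {V : Type}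

theorem brl149_adm_inf_sup {S : Mdl231Sys V} {A : Finset V} {b₁ b₂ K K' : V → ℤ}
    (h : S.Adm A b₁ K) (h' : S.Adm A b₂ K') :
    S.Adm A (b₁ ⊓ b₂) (K ⊓ K') ∧ S.Adm A (b₁ ⊔ b₂) (K ⊔ K') := by
  obtain ⟨h1, h2⟩ := mdl231_ht_inf_sup h.2 h'.2
  refine ⟨⟨fun x hx => ?_, h1⟩, ⟨fun x hx => ?_, h2⟩⟩
  · rw [Pi.inf_apply, Pi.inf_apply, h.1 x hx, h'.1 x hx]
  · rw [Pi.sup_apply, Pi.sup_apply, h.1 x hx, h'.1 x hx]

/-- **(T1)** -/
theorem brl149_lsm {c : ℝ} (hc : 1 ≤ c) (S : Mdl231Sys V) (A : Finset V)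
    (hfin : ∀ b, {K | S.Adm A b K}.Finite) (b₁ b₂ : V → ℤ) :
    S.Z c A b₁ * S.Z c A b₂ ≤ S.Z c A (b₁ ⊓ b₂) * S.Z c A (b₁ ⊔ b₂) := by
  have hc0 : (0 : ℝ) ≤ c := by linarith
  unfold Mdl231Sys.Z
  refine brl149_ff4 _ _ _ _ (fun K => c ^ S.nC K) (fun K => c ^ S.nC K) (fun K => c ^ S.nC K)
    (fun K => c ^ S.nC K) (fun _ _ => pow_nonneg hc0 _) (fun _ _ => pow_nonneg hc0 _)
    (fun _ _ => pow_nonneg hc0 _) (fun _ _ => pow_nonneg hc0 _) (fun K hK K' hK' => ?_)
  rw [mdl231_mem_cfg (hfin _)] at hK hK' ⊢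
  rw [mdl231_mem_cfg (hfin _)]
  obtain ⟨h1, h2⟩ := brl149_adm_inf_sup hK hK'
  exact ⟨h1, h2, mdl231_wt_inf_sup hc hK.2 hK'.2⟩

theorem brl149_Z_shift (S : Mdl231Sys V) (c : ℝ) (A : Finset V) (b : V → ℤ) (m : ℤ) :
    S.Z c A (fun x => b x + 2 * m) = S.Z c A b := by
  rw [mdl231_Z_eq, mdl231_Z_eq, mdl231_shift_S]

theorem brl149_Z_refl (S : Mdl231Sys V) (c : ℝ) (A : Finset V) (b : V → ℤ) (m : ℤ) :
    S.Z c A (fun x => 2 * m - b x) = S.Z c A b := by
  rw [mdl231_Z_eq, mdl231_Z_eq]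
  have := mdl231_iso S c A b (fun _ => (1 : ℝ))
    ((Equiv.neg ℤ).trans (Equiv.addRight (2 * m))) (Or.inr ⟨m, fun a => by simp⟩)
  have e : (fun x => ((Equiv.neg ℤ).trans (Equiv.addRight (2 * m))) (b x)) =
      fun x => 2 * m - b x := by
    funext x
    simp
    ring
  rw [e] at this
  exact this

theorem brl149_Z_congr (S : Mdl231Sys V) (c : ℝ) (A : Finset V) {b b' : V → ℤ}
    (h : ∀ x, x ∉ A → b x = b' x) : S.Z c A b = S.Z c A b' := by
  unfold Mdl231Sys.Z
  rw [mdl231_cfg_congr h]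

/-! ## 3. (T2) log-concavity in the rise -/

open Classical in
/-- the boundary function `b`, raised by `r` on the part `U`. -/
noncomputable def brl149_lift (b : V → ℤ) (U : Set V) (r : ℤ) : V → ℤ :=
  fun x => if x ∈ U then b x + r else b x

/-- **(T2)**, general form. -/
theorem brl149_rise {c : ℝ} (hc : 1 ≤ c) (S : Mdl231Sys V) (A : Finset V)
    (hfin : ∀ b, {K | S.Adm A b K}.Finite) (b : V → ℤ) (U : Set V) {r₁ r₂ : ℤ} (hr : r₁ + 2 ≤ r₂) :
    S.Z c A (brl149_lift b U r₁) * S.Z c A (brl149_lift b U r₂) ≤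
      S.Z c A (brl149_lift b U (r₁ + 2)) * S.Z c A (brl149_lift b U (r₂ - 2)) := by
  have key := brl149_lsm hc S A hfin (brl149_lift b U r₂) (fun x => brl149_lift b U r₁ x + 2 * 1)
  rw [brl149_Z_shift] at key
  have e1 : (brl149_lift b U r₂ ⊓ fun x => brl149_lift b U r₁ x + 2 * 1) =
      brl149_lift b U (r₁ + 2) := by
    funext x
    simp only [Pi.inf_apply, brl149_lift]
    split_ifs
    · rw [inf_eq_right.2 (by linarith)]; ring
    · rw [inf_eq_left.2 (by linarith)]
  have e2 : (brl149_lift b U r₂ ⊔ fun x => brl149_lift b U r₁ x + 2 * 1) =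
      fun x => brl149_lift b U (r₂ - 2) x + 2 * 1 := by
    funext x
    simp only [Pi.sup_apply, brl149_lift]
    split_ifs
    · rw [sup_eq_left.2 (by linarith)]; ring
    · rw [sup_eq_right.2 (by linarith)]
  rw [e1, e2, brl149_Z_shift] at key
  linarith

/-- **(T2)**: `Z(r+2) Z(r-2) ≤ Z(r)^2`. -/
theorem brl149_rise_sq {c : ℝ} (hc : 1 ≤ c) (S : Mdl231Sys V) (A : Finset V)
    (hfin : ∀ b, {K | S.Adm A b K}.Finite) (b : V → ℤ) (U : Set V) (r : ℤ) :
    S.Z c A (brl149_lift b U (r - 2)) * S.Z c A (brl149_lift b U (r + 2)) ≤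
      S.Z c A (brl149_lift b U r) ^ 2 := by
  have := brl149_rise hc S A hfin b U (r₁ := r - 2) (r₂ := r + 2) (by linarith)
  have e1 : r - 2 + 2 = r := by ring
  have e2 : r + 2 - 2 = r := by ring
  rw [e1, e2] at this
  rw [pow_two]
  exact this

/-! ## 4. The folding principle -/

/-- abstract form. -/
theorem brl149_fold_principle {L : Type*} [Lattice L] (Φ : L → ℝ) (hΦ : ∀ a, 0 ≤ Φ a)
    (hlsm : ∀ a b, Φ a * Φ b ≤ Φ (a ⊓ b) * Φ (a ⊔ b)) (rg : L → ℕ) (Φ₀ : ℝ)
    (hstep : ∀ a, 2 ≤ rg a → ∃ a', Φ a' = Φ a ∧ rg (a ⊓ a') < rg a ∧ rg (a ⊔ a') < rg a)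
    (hbase : ∀ a, rg a ≤ 1 → Φ a ≤ Φ₀) : ∀ a, Φ a ≤ Φ₀ := by
  have main : ∀ n : ℕ, ∀ a, rg a ≤ n → Φ a ≤ Φ₀ := by
    intro n
    induction n with
    | zero => intro a ha; exact hbase a (by omega)
    | succ n ih =>
      intro a ha
      by_cases h2 : 2 ≤ rg a
      · obtain ⟨a', e, h1, h3⟩ := hstep a h2
        have k1 := ih (a ⊓ a') (by omega)
        have k2 := ih (a ⊔ a') (by omega)
        have k := hlsm a a'
        rw [e] at k
        have h0 : 0 ≤ Φ₀ := (hΦ _).trans k1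
        have : Φ a * Φ a ≤ Φ₀ * Φ₀ := k.trans (mul_le_mul k1 k2 (hΦ _) h0)
        exact abs_le_of_sq_le_sq' (by nlinarith) h0 |>.2
      · exact hbase a (by omega)
  intro a
  exact main (rg a) a le_rfl

/-- oscillation of a profile on a finite type. -/
def brl149_osc {X : Type*} [Fintype X] (ξ : X → ℤ) : ℕ :=
  (Finset.univ ×ˢ Finset.univ : Finset (X × X)).sup (fun p => (ξ p.1 - ξ p.2).toNat)

theorem brl149_osc_le_iff {X : Type*} [Fintype X] (ξ : X → ℤ) (n : ℕ) :
    brl149_osc ξ ≤ n ↔ ∀ x y, ξ x - ξ y ≤ n := by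
  unfold brl149_osc
  rw [Finset.sup_le_iff]
  constructor
  · intro h x y
    have := h (x, y) (by simp)
    simp only at this
    omega
  · intro h p _
    have := h p.1 p.2
    omega

/-- **Folding principle for profiles.** -/
theorem brl149_fold_fun {X : Type*} [Fintype X] (Φ : (X → ℤ) → ℝ) (hΦ : ∀ ξ, 0 ≤ Φ ξ)
    (hlsm : ∀ ξ ξ', Φ ξ * Φ ξ' ≤ Φ (ξ ⊓ ξ') * Φ (ξ ⊔ ξ'))
    (hsym : ∀ (m : ℤ) (ξ : X → ℤ), Φ (fun x => 2 * m - ξ x) = Φ ξ) (Φ₀ : ℝ)
    (hbase : ∀ ξ : X → ℤ, (∀ x y, ξ x - ξ y ≤ 1) → Φ ξ ≤ Φ₀) : ∀ ξ, Φ ξ ≤ Φ₀ := by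
  refine brl149_fold_principle Φ hΦ hlsm brl149_osc Φ₀ (fun ξ h2 => ?_) (fun ξ h1 => ?_)
  · -- X is nonempty
    have hne : (Finset.univ : Finset X).Nonempty := by
      by_contra hcon
      rw [Finset.not_nonempty_iff_eq_empty] at hcon
      have : brl149_osc ξ ≤ 0 := by
        rw [brl149_osc_le_iff]
        intro x
        exact absurd (Finset.mem_univ x) (by rw [hcon]; exact Finset.notMem_empty x)
      omega
    obtain ⟨x₀, _, hx₀⟩ := Finset.exists_min_image Finset.univ ξ hne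
    obtain ⟨x₁, _, hx₁⟩ := Finset.exists_max_image Finset.univ ξ hne
    set lo := ξ x₀ with hlo
    set hi := ξ x₁ with hhi
    have hlo' : ∀ x, lo ≤ ξ x := fun x => hx₀ x (Finset.mem_univ x)
    have hhi' : ∀ x, ξ x ≤ hi := fun x => hx₁ x (Finset.mem_univ x)
    -- the oscillation is `hi - lo`
    have hR : (brl149_osc ξ : ℤ) = hi - lo := by
      apply le_antisymm
      · have : brl149_osc ξ ≤ (hi - lo).toNat := by
          rw [brl149_osc_le_iff]
          intro x y
          have := hlo' y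
          have := hhi' x
          omega
        have h3 := hlo' x₁
        omega
      · have := (brl149_osc_le_iff ξ (brl149_osc ξ)).1 le_rfl x₁ x₀
        exact this
    set m : ℤ := (lo + hi + 1) / 2 with hm
    have hm1 : 2 * m ≤ lo + hi + 1 := by omega
    have hm2 : lo + hi ≤ 2 * m := by omega
    refine ⟨fun x => 2 * m - ξ x, hsym m ξ, ?_, ?_⟩
    · have : brl149_osc (ξ ⊓ fun x => 2 * m - ξ x) ≤ brl149_osc ξ - 1 := by
        rw [brl149_osc_le_iff]
        intro x y
        simp only [Pi.inf_apply]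
        have a1 := hlo' x
        have a2 := hhi' x
        have a3 := hlo' y
        have a4 := hhi' y
        have : ((brl149_osc ξ - 1 : ℕ) : ℤ) = hi - lo - 1 := by omega
        rw [this]
        omega
      omega
    · have : brl149_osc (ξ ⊔ fun x => 2 * m - ξ x) ≤ brl149_osc ξ - 1 := by
        rw [brl149_osc_le_iff]
        intro x y
        simp only [Pi.sup_apply]
        have a1 := hlo' x
        have a2 := hhi' x
        have a3 := hlo' y
        have a4 := hhi' y
        have : ((brl149_osc ξ - 1 : ℕ) : ℤ) = hi - lo - 1 := by omega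
        rw [this]
        omega
      omega
  · refine hbase ξ ?_
    have := (brl149_osc_le_iff ξ 1).1 h1
    simpa using this

/-- folding for a family of boundary functions indexed by profiles. -/
theorem brl149_fold_sys {c : ℝ} (hc : 1 ≤ c) (S : Mdl231Sys V) (A : Finset V)
    (hfin : ∀ b, {K | S.Adm A b K}.Finite) {X : Type*} [Fintype X] (β : (X → ℤ) → (V → ℤ))
    (hinf : ∀ ξ ξ', S.Z c A (β ξ ⊓ β ξ') = S.Z c A (β (ξ ⊓ ξ')))
    (hsup : ∀ ξ ξ', S.Z c A (β ξ ⊔ β ξ') = S.Z c A (β (ξ ⊔ ξ')))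
    (hsym : ∀ (m : ℤ) (ξ : X → ℤ), S.Z c A (β fun x => 2 * m - ξ x) = S.Z c A (β ξ)) (Φ₀ : ℝ)
    (hbase : ∀ ξ : X → ℤ, (∀ x y, ξ x - ξ y ≤ 1) → S.Z c A (β ξ) ≤ Φ₀) :
    ∀ ξ, S.Z c A (β ξ) ≤ Φ₀ := by
  refine brl149_fold_fun (fun ξ => S.Z c A (β ξ)) (fun ξ => mdl231_Z_nonneg (by linarith) S A _)
    (fun ξ ξ' => ?_) hsym Φ₀ hbase
  have := brl149_lsm hc S A hfin (β ξ) (β ξ')
  rw [hinf, hsup] at this
  exact this

/-! ## 5. (T3) the flat boundary function maximises the partition function -/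

open Classical in
/-- the vertices touched by an edge. -/
noncomputable def brl149_W (S : Mdl231Sys V) : Finset V :=
  S.E.image Prod.fst ∪ S.E.image Prod.snd

theorem brl149_mem_W_of_adj {S : Mdl231Sys V} {x y : V} (h : Mdl231Adj S.E x y) :
    x ∈ brl149_W S ∧ y ∈ brl149_W S := by
  classical
  unfold brl149_W
  rcases h with h | h
  · exact ⟨Finset.mem_union_left _ (Finset.mem_image.2 ⟨_, h, rfl⟩),
      Finset.mem_union_right _ (Finset.mem_image.2 ⟨_, h, rfl⟩)⟩
  · exact ⟨Finset.mem_union_right _ (Finset.mem_image.2 ⟨_, h, rfl⟩),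
      Finset.mem_union_left _ (Finset.mem_image.2 ⟨_, h, rfl⟩)⟩

/-- the partition function sees the boundary function only on the vertices touched by an edge
(and its parity elsewhere). -/
theorem brl149_Z_congr_on (S : Mdl231Sys V) (c : ℝ) (A : Finset V) {b b' : V → ℤ}
    (hev : ∀ x, x ∉ A → (b' x - b x) % 2 = 0)
    (h : ∀ x ∈ brl149_W S, x ∉ A → b x = b' x) : S.Z c A b' = S.Z c A b := by
  classical
  set d : V → ℤ := fun x => if x ∈ A then 0 else b' x - b x with hd
  have hd0 : ∀ x ∈ brl149_W S, d x = 0 := by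
    intro x hx
    simp only [hd]
    split_ifs with hA
    · rfl
    · rw [h x hx hA]; ring
  have hdev : ∀ x, d x % 2 = 0 := by
    intro x
    simp only [hd]
    split_ifs with hA
    · rfl
    · exact hev x hA
  rw [mdl231_Z_eq, mdl231_Z_eq]
  refine mdl231_Sm_map (S := S) (S' := S) (A := A) (A' := A) (b := b) (b' := b')
    (Equiv.addRight d) (fun K => ?_) (fun K _ => ?_) c (fun _ => (1 : ℝ))
  · show S.Adm A b K ↔ S.Adm A b' (K + d)
    unfold Mdl231Sys.Adm Mdl231Sys.Ht
    constructor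
    · rintro ⟨h1, h2, h3⟩
      refine ⟨fun x hx => ?_, fun x => ?_, fun e he => ?_⟩
      · simp only [Pi.add_apply, hd, if_neg hx, h1 x hx]; ring
      · have := h2 x
        have := hdev x
        simp only [Pi.add_apply]
        omega
      · have hW := brl149_mem_W_of_adj (S := S) (x := e.1) (y := e.2) (Or.inl he)
        simp only [Pi.add_apply, hd0 _ hW.1, hd0 _ hW.2, add_zero]
        exact h3 e he
    · rintro ⟨h1, h2, h3⟩
      refine ⟨fun x hx => ?_, fun x => ?_, fun e he => ?_⟩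
      · have := h1 x hx
        simp only [Pi.add_apply, hd, if_neg hx] at this
        linarith
      · have := h2 x
        have := hdev x
        simp only [Pi.add_apply] at *
        omega
      · have hW := brl149_mem_W_of_adj (S := S) (x := e.1) (y := e.2) (Or.inl he)
        have := h3 e he
        simp only [Pi.add_apply, hd0 _ hW.1, hd0 _ hW.2, add_zero] at this
        exact this
  · show S.nC (K + d) = S.nC K
    unfold Mdl231Sys.nC
    refine Finset.sum_congr rfl fun p hp => ?_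
    obtain ⟨s1, s2, s3, s4⟩ := S.side p hp
    have w1 := (brl149_mem_W_of_adj s1).1
    have w2 := (brl149_mem_W_of_adj s1).2
    have w3 := (brl149_mem_W_of_adj s3).1
    have w4 := (brl149_mem_W_of_adj s3).2
    simp only [Pi.add_apply, hd0 _ w1, hd0 _ w2, hd0 _ w3, hd0 _ w4, add_zero]

/-- a boundary function of the wrong parity has no configuration. -/
theorem brl149_Z_eq_zero_of_parity (S : Mdl231Sys V) (c : ℝ) (A : Finset V) {b : V → ℤ} {x : V}
    (hx : x ∉ A) (hp : (b x - S.par x) % 2 ≠ 0) : S.Z c A b = 0 := by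
  unfold Mdl231Sys.Z
  have : S.cfg A b = ∅ := by
    rw [Finset.eq_empty_iff_forall_notMem]
    intro K hK
    have h := mdl231_adm_of_mem hK
    have h1 := h.2.1 x
    rw [h.1 x hx] at h1
    exact hp h1
  rw [this, Finset.sum_empty]

/-- the flat boundary function (values `0` and `1`). -/
def brl149_flat (S : Mdl231Sys V) : V → ℤ := fun x => S.par x % 2

open Classical in
/-- **(T3)** the flat boundary function maximises the partition function, `c ≥ 1`. -/
theorem brl149_flat_max {c : ℝ} (hc : 1 ≤ c) (S : Mdl231Sys V) (A : Finset V)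
    (hfin : ∀ b, {K | S.Adm A b K}.Finite) (b : V → ℤ) :
    S.Z c A b ≤ S.Z c A (brl149_flat S) := by
  have hc0 : (0 : ℝ) ≤ c := by linarith
  -- parity
  by_cases hpar : ∀ x, x ∉ A → (b x - S.par x) % 2 = 0
  swap
  · simp only [not_forall] at hpar
    obtain ⟨x, hx, hp⟩ := hpar
    rw [brl149_Z_eq_zero_of_parity S c A hx hp]
    exact mdl231_Z_nonneg hc0 S A _
  -- profiles on the finite set of the boundary vertices which matter
  set X := {x // x ∈ brl149_W S \ A} with hX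
  let β : (X → ℤ) → (V → ℤ) := fun ξ x =>
    if hx : x ∈ brl149_W S \ A then ξ ⟨x, hx⟩ else brl149_flat S x
  have hβ : ∀ (ξ : X → ℤ) (x : X), β ξ x.1 = ξ x := by
    intro ξ x
    simp only [β, dif_pos x.2]
    rfl
  have hβ' : ∀ (ξ : X → ℤ) (x : V), x ∉ brl149_W S \ A → β ξ x = brl149_flat S x := by
    intro ξ x hx
    simp only [β, dif_neg hx]
  have main := brl149_fold_sys hc S A hfin β
    (fun ξ ξ' => by
      congr 1
      funext x
      by_cases hx : x ∈ brl149_W S \ A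
      · simp only [Pi.inf_apply, β, dif_pos hx]
      · simp only [Pi.inf_apply, β, dif_neg hx, inf_idem])
    (fun ξ ξ' => by
      congr 1
      funext x
      by_cases hx : x ∈ brl149_W S \ A
      · simp only [Pi.sup_apply, β, dif_pos hx]
      · simp only [Pi.sup_apply, β, dif_neg hx, sup_idem])
    (fun m ξ => by
      rw [← brl149_Z_refl S c A (β ξ) m]
      refine brl149_Z_congr_on S c A (fun x hxA => ?_) (fun x hxW hxA => ?_)
      · by_cases hx : x ∈ brl149_W S \ A
        · simp only [β, dif_pos hx]; simp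
        · simp only [β, dif_neg hx, brl149_flat]; omega
      · have hx : x ∈ brl149_W S \ A := Finset.mem_sdiff.2 ⟨hxW, hxA⟩
        simp only [β, dif_pos hx])
    (S.Z c A (brl149_flat S))
    (fun ξ hξ => by
      -- oscillation at most one
      by_cases hp : ∀ x : X, (ξ x - S.par x.1) % 2 = 0
      swap
      · simp only [not_forall] at hp
        obtain ⟨x, hp⟩ := hp
        have hxA : x.1 ∉ A := (Finset.mem_sdiff.1 x.2).2
        rw [brl149_Z_eq_zero_of_parity S c A (b := β ξ) hxA (by rw [hβ]; exact hp)]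
        exact mdl231_Z_nonneg hc0 S A _
      by_cases hne : Nonempty X
      swap
      · apply le_of_eq
        congr 1
        funext x
        by_cases hx : x ∈ brl149_W S \ A
        · exact absurd ⟨⟨x, hx⟩⟩ hne
        · exact hβ' ξ x hx
      obtain ⟨x₀⟩ := hne
      obtain ⟨x₀, _, hx₀⟩ := Finset.exists_min_image Finset.univ ξ ⟨x₀, Finset.mem_univ _⟩
      have hlo : ∀ x, ξ x = ξ x₀ ∨ ξ x = ξ x₀ + 1 := by
        intro x
        have h1 := hx₀ x (Finset.mem_univ x)
        have h2 := hξ x x₀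
        omega
      rcases Int.even_or_odd' (ξ x₀) with ⟨j, hj | hj⟩
      · -- flat + 2 j
        apply le_of_eq
        rw [← brl149_Z_shift S c A (brl149_flat S) j]
        refine brl149_Z_congr_on S c A (fun x hxA => ?_) (fun x hxW hxA => ?_)
        · by_cases hx : x ∈ brl149_W S \ A
          · have e := hβ ξ ⟨x, hx⟩
            simp only at e
            rw [e]
            have := hp ⟨x, hx⟩
            simp only [brl149_flat] at *
            omega
          · rw [hβ' ξ x hx]; omega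
        · have hx : x ∈ brl149_W S \ A := Finset.mem_sdiff.2 ⟨hxW, hxA⟩
          have e := hβ ξ ⟨x, hx⟩
          simp only at e
          rw [e]
          have h1 := hp ⟨x, hx⟩
          have h2 := hlo ⟨x, hx⟩
          simp only [brl149_flat] at *
          omega
      · -- 2 (j+1) - flat
        apply le_of_eq
        rw [← brl149_Z_refl S c A (brl149_flat S) (j + 1)]
        refine brl149_Z_congr_on S c A (fun x hxA => ?_) (fun x hxW hxA => ?_)
        · by_cases hx : x ∈ brl149_W S \ A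
          · have e := hβ ξ ⟨x, hx⟩
            simp only at e
            rw [e]
            have := hp ⟨x, hx⟩
            simp only [brl149_flat] at *
            omega
          · rw [hβ' ξ x hx]; simp only [brl149_flat]; omega
        · have hx : x ∈ brl149_W S \ A := Finset.mem_sdiff.2 ⟨hxW, hxA⟩
          have e := hβ ξ ⟨x, hx⟩
          simp only at e
          rw [e]
          have h1 := hp ⟨x, hx⟩
          have h2 := hlo ⟨x, hx⟩
          simp only [brl149_flat] at *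
          omega)
    (fun x => b x.1)
  refine le_trans (le_of_eq ?_) main
  refine brl149_Z_congr_on S c A (fun x hxA => ?_) (fun x hxW hxA => ?_)
  · by_cases hx : x ∈ brl149_W S \ A
    · simp only [β, dif_pos hx]; simp
    · simp only [β, dif_neg hx, brl149_flat]
      have := hpar x hxA
      omega
  · have hx : x ∈ brl149_W S \ A := Finset.mem_sdiff.2 ⟨hxW, hxA⟩
    simp only [β, dif_pos hx]

end Claimed.Agent.R292

/-
BLOCK 2.  Row 292 (S0540), unit BRIDGE, pen helper149, prefix `brc149_`.      no sorry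

FROM THE TORUS SECTORS `svZN` TO FLAT BOXES AND BACK (note (E6) of the wall team), `c ≥ 1`.

`brc149_sys M H` : the rectangle of faces `[0,M] × [0,H]` of the six-vertex lattice in the vocabulary `Mdl231Sys` of
helper231; `brc149_free` : all faces of the rows `1 … H-1` are free (FREE SIDES), `brc149_int` : only the interior faces.
`brc149_F c M H r` : partition function with free sides, bottom row flat (`0/1`), top row flat `+ r`.

RESULTS
* `brc149_Z_mv`, `brc149_Z_mh`    the two mirrors of the rectangle (`H` even, `M` even)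
* `brc149_fold`                   any boundary function with `b (x,H) = b (x,0) + r` : `Z_free b ≤ F r`   (`H` even)
* `brc149_F_logconcave`           `F (r-2) * F (r+2) ≤ F r ^ 2`
* `brc149_svZN_le`                `svZN c M H n ≤ 2 ^ M * F (2 n - H)`                                  (`H` even)
* `brc149_glue`                   a box whose boundary function closes up on the torus is a part of the sector
* `brc149_int_le`                 flat rows, ARBITRARY sides : `Z_int K₀ ≤ svZN c M H n`                 (`M` even)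
* `brc149_F_le`                   `F (2 n - H) ≤ 4 ^ H * svZN c M H n`                                  (`M` even)
* `brc149_sector_logconcave`      `svZN (n-1) * svZN (n+1) ≤ 4 ^ M * 16 ^ H * svZN n ^ 2`
* `brc149_F_concave`, `brc149_sector_concave`   the same at ALL scales: `svZN n₁ * svZN n₂ ≤ 4^M 16^H svZN (n₁+j) * svZN (n₂-j)`
* `brc149_sector_max`             `svZN c M (2L) n ≤ 2 ^ M * 4 ^ (2L) * svZN c M (2L) L`
* **`brc149_stiff_nonneg`**       `1 ≤ c → SvStiff c A → 0 ≤ A`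
-/

namespace Claimed.Agent.R292

open Claims Claims.C0466 Claimed.Agent.R290 Finset

/-! ## 1. The rectangle -/

/-- the plaquette with lower left face `p`. -/
def brc149_pl (p : ℤ × ℤ) : (ℤ × ℤ) × (ℤ × ℤ) × (ℤ × ℤ) × (ℤ × ℤ) :=
  (p, (p.1 + 1, p.2), (p.1 + 1, p.2 + 1), (p.1, p.2 + 1))

/-- the rectangle of faces `[0,M] × [0,H]`. -/
noncomputable def brc149_sys (M H : ℕ) : Mdl231Sys (ℤ × ℤ) where
  E := ((Ico (0 : ℤ) M ×ˢ Icc (0 : ℤ) H).image fun p => (p, (p.1 + 1, p.2))) ∪
    ((Icc (0 : ℤ) M ×ˢ Ico (0 : ℤ) H).image fun p => (p, (p.1, p.2 + 1)))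
  P := (Ico (0 : ℤ) M ×ˢ Ico (0 : ℤ) H).image brc149_pl
  par := fun p => p.1 + p.2
  side := by
    intro p hp
    obtain ⟨q, hq, rfl⟩ := Finset.mem_image.1 hp
    rw [Finset.mem_product, Finset.mem_Ico, Finset.mem_Ico] at hq
    obtain ⟨⟨h1, h2⟩, h3, h4⟩ := hq
    refine ⟨Or.inl ?_, Or.inr ?_, Or.inr ?_, Or.inl ?_⟩
    · refine Finset.mem_union_left _ (Finset.mem_image.2 ⟨q, ?_, rfl⟩)
      rw [Finset.mem_product, Finset.mem_Ico, Finset.mem_Icc]
      exact ⟨⟨h1, h2⟩, h3, h4.le⟩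
    · refine Finset.mem_union_right _ (Finset.mem_image.2 ⟨(q.1 + 1, q.2), ?_, rfl⟩)
      rw [Finset.mem_product, Finset.mem_Icc, Finset.mem_Ico]
      exact ⟨⟨by simp only; omega, by simp only; omega⟩, h3, h4⟩
    · refine Finset.mem_union_left _ (Finset.mem_image.2 ⟨(q.1, q.2 + 1), ?_, rfl⟩)
      rw [Finset.mem_product, Finset.mem_Ico, Finset.mem_Icc]
      exact ⟨⟨h1, h2⟩, by simp only; omega, by simp only; omega⟩
    · refine Finset.mem_union_right _ (Finset.mem_image.2 ⟨q, ?_, rfl⟩)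
      rw [Finset.mem_product, Finset.mem_Icc, Finset.mem_Ico]
      exact ⟨⟨h1, h2.le⟩, h3, h4⟩

/-- a face of the rectangle. -/
def brc149_inR (M H : ℕ) (p : ℤ × ℤ) : Prop := 0 ≤ p.1 ∧ p.1 ≤ M ∧ 0 ≤ p.2 ∧ p.2 ≤ H

theorem brc149_mem_E {M H : ℕ} {e : (ℤ × ℤ) × (ℤ × ℤ)} :
    e ∈ (brc149_sys M H).E ↔ brc149_inR M H e.1 ∧ brc149_inR M H e.2 ∧
      ((e.2.1 = e.1.1 + 1 ∧ e.2.2 = e.1.2) ∨ (e.2.1 = e.1.1 ∧ e.2.2 = e.1.2 + 1)) := by
  obtain ⟨⟨a, b⟩, c, d⟩ := e
  simp only [brc149_sys, brc149_inR, Finset.mem_union, Finset.mem_image, Finset.mem_product,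
    Finset.mem_Ico, Finset.mem_Icc, Prod.mk.injEq, Prod.exists]
  constructor
  · rintro (⟨x, y, h, ⟨rfl, rfl⟩, rfl, rfl⟩ | ⟨x, y, h, ⟨rfl, rfl⟩, rfl, rfl⟩)
    · refine ⟨by omega, by omega, Or.inl ⟨rfl, rfl⟩⟩
    · refine ⟨by omega, by omega, Or.inr ⟨rfl, rfl⟩⟩
  · rintro ⟨h1, h2, (⟨h3, h4⟩ | ⟨h3, h4⟩)⟩
    · exact Or.inl ⟨a, b, by omega, ⟨rfl, rfl⟩, h3.symm, h4.symm⟩
    · exact Or.inr ⟨a, b, by omega, ⟨rfl, rfl⟩, h3.symm, h4.symm⟩

theorem brc149_adj_iff {M H : ℕ} {p q : ℤ × ℤ} :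
    Mdl231Adj (brc149_sys M H).E p q ↔ brc149_inR M H p ∧ brc149_inR M H q ∧
      ((q.1 = p.1 + 1 ∧ q.2 = p.2) ∨ (q.1 = p.1 ∧ q.2 = p.2 + 1) ∨
        (p.1 = q.1 + 1 ∧ p.2 = q.2) ∨ (p.1 = q.1 ∧ p.2 = q.2 + 1)) := by
  unfold Mdl231Adj
  rw [brc149_mem_E, brc149_mem_E]
  simp only
  tauto

theorem brc149_mem_W {V : Type} {S : Mdl231Sys V} {x : V} (hx : x ∈ brl149_W S) :
    ∃ e ∈ S.E, e.1 = x ∨ e.2 = x := by
  classical
  unfold brl149_W at hx
  rw [Finset.mem_union, Finset.mem_image, Finset.mem_image] at hx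
  rcases hx with ⟨e, he, rfl⟩ | ⟨e, he, rfl⟩
  · exact ⟨e, he, Or.inl rfl⟩
  · exact ⟨e, he, Or.inr rfl⟩

theorem brc149_W_sub {M H : ℕ} {p : ℤ × ℤ} (hp : p ∈ brl149_W (brc149_sys M H)) :
    brc149_inR M H p := by
  obtain ⟨e, he, rfl | rfl⟩ := brc149_mem_W hp
  · exact (brc149_mem_E.1 he).1
  · exact (brc149_mem_E.1 he).2.1

/-- heights of the rectangle system in plain words. -/
theorem brc149_ht_iff {M H : ℕ} {K : ℤ × ℤ → ℤ} :
    (brc149_sys M H).Ht K ↔ (∀ p : ℤ × ℤ, (K p - (p.1 + p.2)) % 2 = 0) ∧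
      (∀ x y : ℤ, 0 ≤ x → x < M → 0 ≤ y → y ≤ H → (K (x + 1, y) - K (x, y) = 1 ∨
        K (x + 1, y) - K (x, y) = -1)) ∧
      (∀ x y : ℤ, 0 ≤ x → x ≤ M → 0 ≤ y → y < H → (K (x, y + 1) - K (x, y) = 1 ∨
        K (x, y + 1) - K (x, y) = -1)) := by
  unfold Mdl231Sys.Ht
  constructor
  · rintro ⟨h1, h2⟩
    refine ⟨h1, fun x y a1 a2 a3 a4 => ?_, fun x y a1 a2 a3 a4 => ?_⟩
    · have := h2 ((x, y), (x + 1, y)) (brc149_mem_E.2 ⟨⟨a1, a2.le, a3, a4⟩,
        ⟨by simp only; omega, by simp only; omega, a3, a4⟩, Or.inl ⟨rfl, rfl⟩⟩)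
      simp only at this
      omega
    · have := h2 ((x, y), (x, y + 1)) (brc149_mem_E.2 ⟨⟨a1, a2, a3, a4.le⟩,
        ⟨a1, a2, by simp only; omega, by simp only; omega⟩, Or.inr ⟨rfl, rfl⟩⟩)
      simp only at this
      omega
  · rintro ⟨h1, h2, h3⟩
    refine ⟨h1, fun e he => ?_⟩
    obtain ⟨⟨a, b⟩, c, d⟩ := e
    obtain ⟨i1, i2, (⟨j1, j2⟩ | ⟨j1, j2⟩)⟩ := brc149_mem_E.1 he
    · simp only at j1 j2
      have := h2 a b i1.1 (by have := i2.2.1; simp only at this; omega) i1.2.2.1 i1.2.2.2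
      simp only
      rw [j1, j2]
      omega
    · simp only at j1 j2
      have := h3 a b i1.1 i1.2.1 i1.2.2.1 (by have := i2.2.2.2; simp only at this; omega)
      simp only
      rw [j1, j2]
      omega

/-- the number of type-c plaquettes as a sum over the lower left faces. -/
theorem brc149_nC_eq (M H : ℕ) (K : ℤ × ℤ → ℤ) :
    (brc149_sys M H).nC K = ∑ p ∈ Ico (0 : ℤ) M ×ˢ Ico (0 : ℤ) H,
      if K p = K (p.1 + 1, p.2 + 1) ∧ K (p.1 + 1, p.2) = K (p.1, p.2 + 1) then 1 else 0 := by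
  unfold Mdl231Sys.nC
  show ∑ p ∈ (Ico (0 : ℤ) M ×ˢ Ico (0 : ℤ) H).image brc149_pl, _ = _
  rw [Finset.sum_image]
  · rfl
  · intro p _ q _ h
    exact congrArg Prod.fst h

/-- free sides: all the faces of the rows `1 … H-1`. -/
noncomputable def brc149_free (M H : ℕ) : Finset (ℤ × ℤ) := Icc (0 : ℤ) M ×ˢ Ioo (0 : ℤ) H

/-- the interior faces. -/
noncomputable def brc149_int (M H : ℕ) : Finset (ℤ × ℤ) := Ioo (0 : ℤ) M ×ˢ Ioo (0 : ℤ) H

theorem brc149_mem_free {M H : ℕ} {p : ℤ × ℤ} :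
    p ∈ brc149_free M H ↔ 0 ≤ p.1 ∧ p.1 ≤ M ∧ 0 < p.2 ∧ p.2 < H := by
  simp only [brc149_free, Finset.mem_product, Finset.mem_Icc, Finset.mem_Ioo]
  tauto

theorem brc149_mem_int {M H : ℕ} {p : ℤ × ℤ} :
    p ∈ brc149_int M H ↔ 0 < p.1 ∧ p.1 < M ∧ 0 < p.2 ∧ p.2 < H := by
  simp only [brc149_int, Finset.mem_product, Finset.mem_Ioo]
  tauto

theorem brc149_reach (M H : ℕ) (x : ℤ) (hx0 : 0 ≤ x) (hxM : x ≤ M) (n : ℕ) (hn : n ≤ H) :
    Relation.ReflTransGen (Mdl231Adj (brc149_sys M H).E) (x, (n : ℤ)) (x, 0) := by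
  induction n with
  | zero => exact Relation.ReflTransGen.refl
  | succ n ih =>
    refine Relation.ReflTransGen.head ?_ (ih (by omega))
    rw [brc149_adj_iff]
    refine ⟨⟨hx0, hxM, by simp only; positivity, by simp only; exact_mod_cast hn⟩,
      ⟨hx0, hxM, by simp only; positivity, by simp only; exact_mod_cast (by omega : n ≤ H)⟩,
      Or.inr (Or.inr (Or.inr ⟨rfl, by push_cast; ring⟩))⟩

theorem brc149_fin_free (M H : ℕ) (b : ℤ × ℤ → ℤ) :
    {K | (brc149_sys M H).Adm (brc149_free M H) b K}.Finite := by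
  refine mdl231_finite_of_reach _ _ _ fun p hp => ?_
  rw [brc149_mem_free] at hp
  refine ⟨(p.1, 0), by rw [brc149_mem_free]; simp, ?_⟩
  have := brc149_reach M H p.1 hp.1 hp.2.1 p.2.toNat (by omega)
  rwa [show ((p.2.toNat : ℕ) : ℤ) = p.2 by omega] at this

theorem brc149_fin_int (M H : ℕ) (b : ℤ × ℤ → ℤ) :
    {K | (brc149_sys M H).Adm (brc149_int M H) b K}.Finite := by
  refine mdl231_finite_of_reach _ _ _ fun p hp => ?_
  rw [brc149_mem_int] at hp
  refine ⟨(p.1, 0), by rw [brc149_mem_int]; simp, ?_⟩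
  have := brc149_reach M H p.1 hp.1.le hp.2.1.le p.2.toNat (by omega)
  rwa [show ((p.2.toNat : ℕ) : ℤ) = p.2 by omega] at this

/-! ## 2. Symmetries -/

theorem brc149_ht_adj {V : Type} {S : Mdl231Sys V} {K : V → ℤ} :
    S.Ht K ↔ (∀ x, (K x - S.par x) % 2 = 0) ∧
      ∀ x y, Mdl231Adj S.E x y → (K x - K y = 1 ∨ K x - K y = -1) := by
  constructor
  · intro h
    exact ⟨h.1, fun x y hxy => mdl231_step h hxy⟩
  · rintro ⟨h1, h2⟩
    exact ⟨h1, fun e he => h2 e.1 e.2 (Or.inl he)⟩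

/-- a symmetry of a system: a bijection `ρ` of the vertices and a bijection `φ` of the values. -/
theorem brc149_sym {V : Type} (S : Mdl231Sys V) (c : ℝ) (A : Finset V) (b : V → ℤ) (ρ : V ≃ V)
    (φ : ℤ ≃ ℤ) (hA : ∀ x, ρ x ∈ A ↔ x ∈ A)
    (hpar : ∀ x a, (φ a - S.par x) % 2 = 0 ↔ (a - S.par (ρ x)) % 2 = 0)
    (hstep : ∀ a a', (φ a - φ a' = 1 ∨ φ a - φ a' = -1) ↔ (a - a' = 1 ∨ a - a' = -1))
    (hE : ∀ x y, Mdl231Adj S.E (ρ x) (ρ y) ↔ Mdl231Adj S.E x y)
    (hP : ∀ K : V → ℤ, S.nC (fun x => K (ρ x)) = S.nC K) :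
    S.Z c A (fun x => φ (b (ρ x))) = S.Z c A b := by
  let Φ : (V → ℤ) ≃ (V → ℤ) :=
    { toFun := fun K x => φ (K (ρ x))
      invFun := fun K x => φ.symm (K (ρ.symm x))
      left_inv := fun K => by funext x; simp
      right_inv := fun K => by funext x; simp }
  rw [mdl231_Z_eq, mdl231_Z_eq]
  refine mdl231_Sm_map (S := S) (S' := S) (A := A) (A' := A) (b := b)
    (b' := fun x => φ (b (ρ x))) Φ (fun K => ?_) (fun K _ => ?_) c (fun _ => (1 : ℝ))
  · show S.Adm A b K ↔ S.Adm A (fun x => φ (b (ρ x))) (fun x => φ (K (ρ x)))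
    unfold Mdl231Sys.Adm
    rw [brc149_ht_adj, brc149_ht_adj]
    constructor
    · rintro ⟨h1, h2, h3⟩
      refine ⟨fun x hx => ?_, fun x => ?_, fun x y hxy => ?_⟩
      · simp only
        rw [h1 (ρ x) (fun h => hx ((hA x).1 h))]
      · exact (hpar x _).2 (h2 (ρ x))
      · exact (hstep _ _).2 (h3 _ _ ((hE x y).2 hxy))
    · rintro ⟨h1, h2, h3⟩
      refine ⟨fun x hx => ?_, fun x => ?_, fun x y hxy => ?_⟩
      · have h := h1 (ρ.symm x) (fun h => hx (by
          have := (hA (ρ.symm x)).2 h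
          simpa using this))
        simp only [Equiv.apply_symm_apply] at h
        exact φ.injective h
      · have := (hpar (ρ.symm x) _).1 (h2 (ρ.symm x))
        simpa using this
      · have h := h3 (ρ.symm x) (ρ.symm y) ((hE _ _).1 (by simpa using hxy))
        have := (hstep _ _).1 h
        simpa using this
  · show S.nC (fun x => φ (K (ρ x))) = S.nC K
    rw [← hP K]
    unfold Mdl231Sys.nC
    refine Finset.sum_congr rfl fun p _ => ?_
    simp only [φ.injective.eq_iff]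

/-- the mirror `y ↦ H - y`. -/
def brc149_mv (H : ℕ) : (ℤ × ℤ) ≃ (ℤ × ℤ) where
  toFun p := (p.1, H - p.2)
  invFun p := (p.1, H - p.2)
  left_inv p := by simp
  right_inv p := by simp

/-- the mirror `x ↦ M - x`. -/
def brc149_mh (M : ℕ) : (ℤ × ℤ) ≃ (ℤ × ℤ) where
  toFun p := (M - p.1, p.2)
  invFun p := (M - p.1, p.2)
  left_inv p := by simp
  right_inv p := by simp

theorem brc149_nC_mv (M H : ℕ) (K : ℤ × ℤ → ℤ) :
    (brc149_sys M H).nC (fun p => K (brc149_mv H p)) = (brc149_sys M H).nC K := by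
  rw [brc149_nC_eq, brc149_nC_eq]
  refine Finset.sum_nbij' (fun p => (p.1, H - 1 - p.2)) (fun p => (p.1, H - 1 - p.2)) ?_ ?_ ?_ ?_ ?_
  · intro p hp
    simp only [Finset.mem_product, Finset.mem_Ico] at hp ⊢
    omega
  · intro p hp
    simp only [Finset.mem_product, Finset.mem_Ico] at hp ⊢
    omega
  · intro p _
    ext <;> simp
  · intro p _
    ext <;> simp
  · intro p _
    have e1 : (H : ℤ) - (p.2 + 1) = H - 1 - p.2 := by ring
    have e2 : (H : ℤ) - p.2 = H - 1 - p.2 + 1 := by ring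
    refine if_congr ?_ rfl rfl
    show (K (p.1, (H : ℤ) - p.2) = K (p.1 + 1, (H : ℤ) - (p.2 + 1)) ∧
      K (p.1 + 1, (H : ℤ) - p.2) = K (p.1, (H : ℤ) - (p.2 + 1))) ↔ _
    rw [e1, e2]
    constructor
    · rintro ⟨h1, h2⟩
      exact ⟨h2.symm, h1.symm⟩
    · rintro ⟨h1, h2⟩
      exact ⟨h2.symm, h1.symm⟩

theorem brc149_nC_mh (M H : ℕ) (K : ℤ × ℤ → ℤ) :
    (brc149_sys M H).nC (fun p => K (brc149_mh M p)) = (brc149_sys M H).nC K := by
  rw [brc149_nC_eq, brc149_nC_eq]
  refine Finset.sum_nbij' (fun p => (M - 1 - p.1, p.2)) (fun p => (M - 1 - p.1, p.2)) ?_ ?_ ?_ ?_ ?_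
  · intro p hp
    simp only [Finset.mem_product, Finset.mem_Ico] at hp ⊢
    omega
  · intro p hp
    simp only [Finset.mem_product, Finset.mem_Ico] at hp ⊢
    omega
  · intro p _
    ext <;> simp
  · intro p _
    ext <;> simp
  · intro p _
    have e1 : (M : ℤ) - (p.1 + 1) = M - 1 - p.1 := by ring
    have e2 : (M : ℤ) - p.1 = M - 1 - p.1 + 1 := by ring
    refine if_congr ?_ rfl rfl
    show (K ((M : ℤ) - p.1, p.2) = K ((M : ℤ) - (p.1 + 1), p.2 + 1) ∧
      K ((M : ℤ) - (p.1 + 1), p.2) = K ((M : ℤ) - p.1, p.2 + 1)) ↔ _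
    rw [e1, e2]
    constructor
    · rintro ⟨h1, h2⟩
      exact ⟨h2, h1⟩
    · rintro ⟨h1, h2⟩
      exact ⟨h2, h1⟩

/-- **vertical mirror + reflection of the values**, `H` even; `A` any mirror-symmetric free set. -/
theorem brc149_Z_mv (c : ℝ) (M H : ℕ) (hH : Even H) (A : Finset (ℤ × ℤ))
    (hA : ∀ p, brc149_mv H p ∈ A ↔ p ∈ A) (b : ℤ × ℤ → ℤ) (m : ℤ) :
    (brc149_sys M H).Z c A (fun p => 2 * m - b (p.1, H - p.2)) = (brc149_sys M H).Z c A b := by
  obtain ⟨L, hL⟩ := hH
  have := brc149_sym (brc149_sys M H) c A b (brc149_mv H)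
    ((Equiv.neg ℤ).trans (Equiv.addRight (2 * m))) hA
    (fun x a => by
      show (((Equiv.neg ℤ).trans (Equiv.addRight (2 * m))) a - (x.1 + x.2)) % 2 = 0 ↔
        (a - (x.1 + ((H : ℤ) - x.2))) % 2 = 0
      simp only [Equiv.trans_apply, Equiv.neg_apply, Equiv.coe_addRight]
      omega)
    (fun a a' => by
      simp only [Equiv.trans_apply, Equiv.neg_apply, Equiv.coe_addRight]
      omega)
    (fun x y => by
      rw [brc149_adj_iff, brc149_adj_iff]
      simp only [brc149_mv, Equiv.coe_fn_mk, brc149_inR]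
      constructor
      · rintro ⟨h1, h2, h3⟩
        refine ⟨by omega, by omega, by omega⟩
      · rintro ⟨h1, h2, h3⟩
        refine ⟨by omega, by omega, by omega⟩)
    (brc149_nC_mv M H)
  rw [← this]
  congr 1
  funext p
  simp only [Equiv.trans_apply, Equiv.neg_apply, Equiv.coe_addRight, brc149_mv, Equiv.coe_fn_mk]
  ring

/-- **horizontal mirror**, `M` even. -/
theorem brc149_Z_mh (c : ℝ) (M H : ℕ) (hM : Even M) (A : Finset (ℤ × ℤ))
    (hA : ∀ p, brc149_mh M p ∈ A ↔ p ∈ A) (b : ℤ × ℤ → ℤ) :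
    (brc149_sys M H).Z c A (fun p => b (M - p.1, p.2)) = (brc149_sys M H).Z c A b := by
  obtain ⟨L, hL⟩ := hM
  have := brc149_sym (brc149_sys M H) c A b (brc149_mh M) (Equiv.refl ℤ) hA
    (fun x a => by
      show ((Equiv.refl ℤ) a - (x.1 + x.2)) % 2 = 0 ↔ (a - (((M : ℤ) - x.1) + x.2)) % 2 = 0
      simp only [Equiv.refl_apply]
      omega)
    (fun a a' => by simp only [Equiv.refl_apply])
    (fun x y => by
      rw [brc149_adj_iff, brc149_adj_iff]
      simp only [brc149_mh, Equiv.coe_fn_mk, brc149_inR]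
      constructor
      · rintro ⟨h1, h2, h3⟩
        refine ⟨by omega, by omega, by omega⟩
      · rintro ⟨h1, h2, h3⟩
        refine ⟨by omega, by omega, by omega⟩)
    (brc149_nC_mh M H)
  rw [← this]
  rfl

/-! ## 3. Free sides: the flat rows maximise the periodic closure -/

/-- boundary function: bottom row `ξ`, top row `ξ + r`, flat elsewhere. -/
def brc149_bd (H : ℕ) (r : ℤ) (ξ : ℤ → ℤ) : ℤ × ℤ → ℤ := fun p =>
  if p.2 = 0 then ξ p.1 else if p.2 = H then ξ p.1 + r else (p.1 + p.2) % 2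

/-- the partition function with free sides, bottom row flat, top row flat `+ r`. -/
noncomputable def brc149_F (c : ℝ) (M H : ℕ) (r : ℤ) : ℝ :=
  (brc149_sys M H).Z c (brc149_free M H) (brc149_bd H r fun x => x % 2)

theorem brc149_F_nonneg {c : ℝ} (hc : 0 ≤ c) (M H : ℕ) (r : ℤ) : 0 ≤ brc149_F c M H r :=
  mdl231_Z_nonneg hc _ _ _

theorem brc149_free_mv (M H : ℕ) (p : ℤ × ℤ) :
    brc149_mv H p ∈ brc149_free M H ↔ p ∈ brc149_free M H := by
  rw [brc149_mem_free, brc149_mem_free]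
  simp only [brc149_mv, Equiv.coe_fn_mk]
  omega

theorem brc149_int_mh (M H : ℕ) (p : ℤ × ℤ) :
    brc149_mh M p ∈ brc149_int M H ↔ p ∈ brc149_int M H := by
  rw [brc149_mem_int, brc149_mem_int]
  simp only [brc149_mh, Equiv.coe_fn_mk]
  omega

/-- two boundary functions which agree on the two rows of the rectangle and have the same parity
elsewhere give the same partition function with free sides. -/
theorem brc149_free_congr (c : ℝ) (M H : ℕ) {b b' : ℤ × ℤ → ℤ}
    (hev : ∀ p, p ∉ brc149_free M H → (b' p - b p) % 2 = 0)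
    (h0 : ∀ x : ℤ, 0 ≤ x → x ≤ M → b (x, 0) = b' (x, 0))
    (h1 : ∀ x : ℤ, 0 ≤ x → x ≤ M → b (x, H) = b' (x, H)) :
    (brc149_sys M H).Z c (brc149_free M H) b' = (brc149_sys M H).Z c (brc149_free M H) b := by
  refine brl149_Z_congr_on _ c _ hev fun p hpW hpA => ?_
  have hR := brc149_W_sub hpW
  rw [brc149_mem_free] at hpA
  obtain ⟨x, y⟩ := p
  simp only [brc149_inR] at hR hpA
  have : y = 0 ∨ y = H := by omega
  rcases this with rfl | rfl
  · exact h0 x hR.1 hR.2.1
  · exact h1 x hR.1 hR.2.1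

/-- reflection of the profile. -/
theorem brc149_bd_sym (c : ℝ) (M H : ℕ) (hH : Even H) (hH0 : 0 < H) (r' : ℤ) (ξ : ℤ → ℤ) (m : ℤ)
    (hξ : ∀ x, (ξ x - x) % 2 = 0) :
    (brc149_sys M H).Z c (brc149_free M H) (brc149_bd H (2 * r') fun x => 2 * m - ξ x) =
      (brc149_sys M H).Z c (brc149_free M H) (brc149_bd H (2 * r') ξ) := by
  rw [← brc149_Z_mv c M H hH _ (brc149_free_mv M H) (brc149_bd H (2 * r') ξ) (m + r')]
  obtain ⟨L, hL⟩ := hH
  have hHz : (H : ℤ) ≠ 0 := by exact_mod_cast hH0.ne'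
  refine brc149_free_congr c M H (fun p _ => ?_) (fun x _ _ => ?_) (fun x _ _ => ?_)
  · obtain ⟨x, y⟩ := p
    simp only [brc149_bd]
    have := hξ x
    by_cases h0 : y = 0
    · subst h0
      simp only [sub_zero, if_true, if_neg hHz]
      omega
    · by_cases h1 : y = H
      · subst h1
        simp only [sub_self, if_true, if_neg hHz]
        omega
      · have h2 : (H : ℤ) - y ≠ 0 := by omega
        have h3 : (H : ℤ) - y ≠ H := by omega
        simp only [if_neg h0, if_neg h1, if_neg h2, if_neg h3]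
        omega
  · simp only [brc149_bd, sub_zero, if_true, if_neg hHz]
    ring
  · simp only [brc149_bd, sub_self, if_true, if_neg hHz]
    ring

open Classical in
/-- **the flat rows maximise the periodic closure** (free sides). -/
theorem brc149_fold {c : ℝ} (hc : 1 ≤ c) (M H : ℕ) (hH : Even H) (hH0 : 0 < H) (r : ℤ)
    (b : ℤ × ℤ → ℤ) (htie : ∀ x : ℤ, 0 ≤ x → x ≤ M → b (x, H) = b (x, 0) + r) :
    (brc149_sys M H).Z c (brc149_free M H) b ≤ brc149_F c M H r := by
  have hc0 : (0 : ℝ) ≤ c := by linarith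
  have hHz : (H : ℤ) ≠ 0 := by exact_mod_cast hH0.ne'
  set S := brc149_sys M H with hS
  set A := brc149_free M H with hA
  -- parity
  by_cases hpar : ∀ p, p ∉ A → (b p - (p.1 + p.2)) % 2 = 0
  swap
  · simp only [not_forall] at hpar
    obtain ⟨p, hp, hp'⟩ := hpar
    rw [brl149_Z_eq_zero_of_parity S c A hp hp']
    exact brc149_F_nonneg hc0 M H r
  have hA0 : ∀ x : ℤ, (x, (0 : ℤ)) ∉ A := fun x => by rw [hA, brc149_mem_free]; simp
  have hAH : ∀ x : ℤ, (x, (H : ℤ)) ∉ A := fun x => by rw [hA, brc149_mem_free]; simp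
  -- `r` is even
  obtain ⟨L, hL⟩ := hH
  have hr : ∃ r', r = 2 * r' := by
    have h1 := hpar (0, 0) (hA0 0)
    have h2 := hpar (0, H) (hAH 0)
    have h3 := htie 0 le_rfl (by positivity)
    simp only at h1 h2
    exact ⟨r / 2, by omega⟩
  obtain ⟨r', rfl⟩ := hr
  set X := {x : ℤ // x ∈ Icc (0 : ℤ) M} with hX
  let ext : (X → ℤ) → ℤ → ℤ := fun ξ x => if hx : x ∈ Icc (0 : ℤ) M then ξ ⟨x, hx⟩ else x % 2
  have hext : ∀ (ξ : X → ℤ) (x : X), ext ξ x.1 = ξ x := by
    intro ξ x
    simp only [ext, dif_pos x.2]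
    rfl
  have hext' : ∀ (ξ : X → ℤ) (x : ℤ), x ∉ Icc (0 : ℤ) M → ext ξ x = x % 2 := by
    intro ξ x hx
    simp only [ext, dif_neg hx]
  let β : (X → ℤ) → (ℤ × ℤ → ℤ) := fun ξ => brc149_bd H (2 * r') (ext ξ)
  have hflat : ext (fun x : X => x.1 % 2) = fun x => x % 2 := by
    funext x
    by_cases hx : x ∈ Icc (0 : ℤ) M
    · exact hext (fun x : X => x.1 % 2) ⟨x, hx⟩
    · exact hext' (fun x : X => x.1 % 2) x hx
  -- a profile of the wrong parity
  have hzero : ∀ ξ : X → ℤ, (¬ ∀ x : X, (ξ x - x.1) % 2 = 0) → S.Z c A (β ξ) = 0 := by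
    intro ξ hp
    simp only [not_forall] at hp
    obtain ⟨x, hp⟩ := hp
    refine brl149_Z_eq_zero_of_parity S c A (hA0 x.1) ?_
    show (brc149_bd H (2 * r') (ext ξ) (x.1, 0) - (x.1 + 0)) % 2 ≠ 0
    simp only [brc149_bd, if_true, hext, add_zero]
    exact hp
  have hparext : ∀ ξ : X → ℤ, (∀ x : X, (ξ x - x.1) % 2 = 0) → ∀ x, (ext ξ x - x) % 2 = 0 := by
    intro ξ hp x
    by_cases hx : x ∈ Icc (0 : ℤ) M
    · have := hp ⟨x, hx⟩
      rw [← hext ξ ⟨x, hx⟩] at this
      exact this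
    · rw [hext' ξ x hx]; omega
  have hsym : ∀ (m : ℤ) (ξ : X → ℤ), S.Z c A (β fun x => 2 * m - ξ x) = S.Z c A (β ξ) := by
    intro m ξ
    by_cases hp : ∀ x : X, (ξ x - x.1) % 2 = 0
    · rw [← brc149_bd_sym c M H ⟨L, hL⟩ hH0 r' (ext ξ) m (hparext ξ hp)]
      refine brc149_free_congr c M H (fun p _ => ?_) (fun x h0 h1 => ?_) (fun x h0 h1 => ?_)
      · obtain ⟨x, y⟩ := p
        have e : (ext (fun x => 2 * m - ξ x) x - (2 * m - ext ξ x)) % 2 = 0 := by
          by_cases hx : x ∈ Icc (0 : ℤ) M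
          · have e1 := hext (fun x => 2 * m - ξ x) ⟨x, hx⟩
            have e2 := hext ξ ⟨x, hx⟩
            simp only at e1 e2
            rw [e1, e2]; simp
          · rw [hext' (fun x => 2 * m - ξ x) x hx, hext' ξ x hx]; omega
        simp only [β, brc149_bd]
        split_ifs <;> omega
      · have hx : x ∈ Icc (0 : ℤ) M := Finset.mem_Icc.2 ⟨h0, h1⟩
        have e1 := hext (fun x => 2 * m - ξ x) ⟨x, hx⟩
        have e2 := hext ξ ⟨x, hx⟩
        simp only at e1 e2
        simp only [β, brc149_bd, if_true, e1, e2]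
      · have hx : x ∈ Icc (0 : ℤ) M := Finset.mem_Icc.2 ⟨h0, h1⟩
        have e1 := hext (fun x => 2 * m - ξ x) ⟨x, hx⟩
        have e2 := hext ξ ⟨x, hx⟩
        simp only at e1 e2
        simp only [β, brc149_bd, if_true, if_neg hHz, e1, e2]
    · rw [hzero ξ hp, hzero (fun x => 2 * m - ξ x) (fun h => hp fun x => by
        have := h x
        omega)]
  have main := brl149_fold_sys hc S A (brc149_fin_free M H) β
    (fun ξ ξ' => by
      congr 1
      funext p
      have e : ∀ x, ext (ξ ⊓ ξ') x = ext ξ x ⊓ ext ξ' x := by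
        intro x
        by_cases hx : x ∈ Icc (0 : ℤ) M
        · simp only [ext, dif_pos hx, Pi.inf_apply]
        · simp only [ext, dif_neg hx, inf_idem]
      simp only [β, brc149_bd, Pi.inf_apply, e]
      split_ifs
      · rfl
      · omega
      · exact inf_idem _)
    (fun ξ ξ' => by
      congr 1
      funext p
      have e : ∀ x, ext (ξ ⊔ ξ') x = ext ξ x ⊔ ext ξ' x := by
        intro x
        by_cases hx : x ∈ Icc (0 : ℤ) M
        · simp only [ext, dif_pos hx, Pi.sup_apply]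
        · simp only [ext, dif_neg hx, sup_idem]
      simp only [β, brc149_bd, Pi.sup_apply, e]
      split_ifs
      · rfl
      · omega
      · exact sup_idem _)
    hsym (brc149_F c M H (2 * r'))
    (fun ξ hξ => by
      by_cases hp : ∀ x : X, (ξ x - x.1) % 2 = 0
      swap
      · rw [hzero ξ hp]
        exact brc149_F_nonneg hc0 M H _
      have x₀ : X := ⟨0, Finset.mem_Icc.2 ⟨le_rfl, by positivity⟩⟩
      obtain ⟨x₀, _, hx₀⟩ := Finset.exists_min_image Finset.univ ξ ⟨x₀, Finset.mem_univ _⟩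
      have hlo : ∀ x, ξ x = ξ x₀ ∨ ξ x = ξ x₀ + 1 := by
        intro x
        have h1 := hx₀ x (Finset.mem_univ x)
        have h2 := hξ x x₀
        omega
      rcases Int.even_or_odd' (ξ x₀) with ⟨j, hj | hj⟩
      · apply le_of_eq
        unfold brc149_F
        rw [← brl149_Z_shift S c A (brc149_bd H (2 * r') fun x => x % 2) j]
        have e : ∀ x, 0 ≤ x → x ≤ (M : ℤ) → ext ξ x = x % 2 + 2 * j := by
          intro x h0 h1
          have hx : x ∈ Icc (0 : ℤ) M := Finset.mem_Icc.2 ⟨h0, h1⟩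
          have e2 := hext ξ ⟨x, hx⟩
          simp only at e2
          rw [e2]
          have a1 := hp ⟨x, hx⟩
          have a2 := hlo ⟨x, hx⟩
          simp only at a1
          omega
        refine brc149_free_congr c M H (fun p _ => ?_) (fun x h0 h1 => ?_) (fun x h0 h1 => ?_)
        · obtain ⟨x, y⟩ := p
          have := hparext ξ hp x
          simp only [β, brc149_bd]
          split_ifs <;> omega
        · simp only [β, brc149_bd, if_true, e x h0 h1]
        · simp only [β, brc149_bd, if_true, if_neg hHz, e x h0 h1]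
          ring
      · apply le_of_eq
        have e : ξ = fun x : X => 2 * (j + 1) - x.1 % 2 := by
          funext x
          have a1 := hp x
          have a2 := hlo x
          omega
        rw [e, hsym (j + 1) (fun x : X => x.1 % 2)]
        show S.Z c A (brc149_bd H (2 * r') (ext fun x : X => x.1 % 2)) = _
        rw [hflat]
        rfl)
    (fun x => b (x.1, 0))
  refine le_trans (le_of_eq ?_) main
  have e : ∀ x, 0 ≤ x → x ≤ (M : ℤ) → ext (fun x : X => b (x.1, 0)) x = b (x, 0) := by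
    intro x h0 h1
    have hx : x ∈ Icc (0 : ℤ) M := Finset.mem_Icc.2 ⟨h0, h1⟩
    exact hext (fun x : X => b (x.1, 0)) ⟨x, hx⟩
  refine brc149_free_congr c M H (fun p hp => ?_) (fun x h0 h1 => ?_) (fun x h0 h1 => ?_)
  · obtain ⟨x, y⟩ := p
    have a1 := hpar (x, y) hp
    have a2 := hparext (fun x : X => b (x.1, 0)) (fun x => by
      have := hpar (x.1, 0) (hA0 x.1)
      simpa using this) x
    simp only at a1
    simp only [β, brc149_bd]
    split_ifs with h1 h2
    · subst h1; omega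
    · subst h2; omega
    · omega
  · simp only [β, brc149_bd, if_true, e x h0 h1]
  · simp only [β, brc149_bd, if_true, if_neg hHz, e x h0 h1]
    exact (htie x h0 h1).symm

/-- **log-concavity in the rise** of the flat box with free sides. -/
theorem brc149_F_logconcave {c : ℝ} (hc : 1 ≤ c) (M H : ℕ) (hH0 : 0 < H) (r : ℤ) :
    brc149_F c M H (r - 2) * brc149_F c M H (r + 2) ≤ brc149_F c M H r ^ 2 := by
  classical
  have hHz : (H : ℤ) ≠ 0 := by exact_mod_cast hH0.ne'
  have key := brl149_rise_sq hc (brc149_sys M H) (brc149_free M H) (brc149_fin_free M H)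
    (brc149_bd H 0 fun x => x % 2) {p | p.2 = (H : ℤ)} r
  have e : ∀ s : ℤ, brl149_lift (brc149_bd H 0 fun x => x % 2) {p | p.2 = (H : ℤ)} s =
      brc149_bd H s fun x => x % 2 := by
    intro s
    funext p
    simp only [brl149_lift, brc149_bd, Set.mem_ofPred_eq]
    by_cases h1 : p.2 = H
    · have h0 : p.2 ≠ 0 := by rw [h1]; exact hHz
      simp only [if_pos h1, if_neg h0, add_zero]
    · simp only [if_neg h1]
  rw [e, e, e] at key
  exact key

/-! ## 4. From the torus to the box with free sides -/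

theorem brc149_sum_Ico {β : Type*} [AddCommMonoid β] (n : ℕ) (f : ℤ → β) :
    ∑ x ∈ Ico (0 : ℤ) n, f x = ∑ j ∈ Finset.range n, f (j : ℤ) := by
  refine Finset.sum_nbij' (fun x => x.toNat) (fun j => (j : ℤ)) ?_ ?_ ?_ ?_ ?_
  · intro x hx
    rw [Finset.mem_Ico] at hx
    rw [Finset.mem_range]
    omega
  · intro j hj
    rw [Finset.mem_range] at hj
    rw [Finset.mem_Ico]
    omega
  · intro x hx
    rw [Finset.mem_Ico] at hx
    omega
  · intro j _
    simp
  · intro x hx
    rw [Finset.mem_Ico] at hx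
    rw [show ((x.toNat : ℕ) : ℤ) = x by omega]

open Classical in
/-- the height of a torus configuration, cut to the rectangle. -/
noncomputable def brc149_K {M H : ℕ} (ω : ZMod M × ZMod H × Bool → Bool) : ℤ × ℤ → ℤ :=
  fun p => if brc149_inR M H p then svaHeight ω p else (p.1 + p.2) % 2

theorem brc149_K_in {M H : ℕ} (ω : ZMod M × ZMod H × Bool → Bool) {p : ℤ × ℤ}
    (hp : brc149_inR M H p) : brc149_K ω p = svaHeight ω p := if_pos hp

theorem brc149_K_out {M H : ℕ} (ω : ZMod M × ZMod H × Bool → Bool) {p : ℤ × ℤ}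
    (hp : ¬ brc149_inR M H p) : brc149_K ω p = (p.1 + p.2) % 2 := if_neg hp

theorem brc149_DH_cases {M H : ℕ} (ω : ZMod M × ZMod H × Bool → Bool) (a b : ℤ) :
    svaDH ω a b = 1 ∨ svaDH ω a b = -1 := by
  unfold svaDH; split_ifs <;> simp

theorem brc149_DV_cases {M H : ℕ} (ω : ZMod M × ZMod H × Bool → Bool) (a b : ℤ) :
    svaDV ω a b = 1 ∨ svaDV ω a b = -1 := by
  unfold svaDV; split_ifs <;> simp

theorem brc149_K_ht {M H : ℕ} {ω : ZMod M × ZMod H × Bool → Bool} (hice : br149_ice ω) :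
    (brc149_sys M H).Ht (brc149_K ω) := by
  rw [brc149_ht_iff]
  refine ⟨fun p => ?_, fun x y a1 a2 a3 a4 => ?_, fun x y a1 a2 a3 a4 => ?_⟩
  · by_cases hp : brc149_inR M H p
    · rw [brc149_K_in ω hp]
      have := sva_increment_parity ω (0, 0) p
      simp only [sub_zero] at this
      exact this
    · rw [brc149_K_out ω hp]
      omega
  · rw [brc149_K_in ω (p := (x + 1, y)) ⟨by simp only; omega, by simp only; omega, a3, a4⟩,
      brc149_K_in ω (p := (x, y)) ⟨a1, a2.le, a3, a4⟩, svaHeight_right ω hice]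
    exact brc149_DV_cases ω _ _
  · rw [brc149_K_in ω (p := (x, y + 1)) ⟨a1, a2, by simp only; omega, by simp only; omega⟩,
      brc149_K_in ω (p := (x, y)) ⟨a1, a2, a3, a4.le⟩, svaHeight_up ω]
    exact brc149_DH_cases ω _ _

/-- the rise of the height over one vertical period. -/
theorem brc149_rise {M H : ℕ} (ω : ZMod M × ZMod H × Bool → Bool) (x : ℤ) :
    svaHeight ω (x, H) - svaHeight ω (x, 0) = 2 * br149_col ω x - H := by
  have h1 : svaS (fun b => svaDH ω x (b + 1)) 0 H = svaHeight ω (x, H) - svaHeight ω (x, 0) :=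
    svaS_eq_sub _ (fun b => svaHeight ω (x, b)) (fun b => svaHeight_up ω x b) _ _
  rw [← h1, svaS_zero_natCast]
  have h2 := br149_sum_shift (L := H) (fun b => svaDH ω x (b + 1))
    (fun b => by
      simp only [svaDH]
      rw [show b + (H : ℤ) + 1 = b + 1 + H by ring, br149_svH_add_L])
  simp only [sub_add_cancel] at h2
  rw [← h2, br149_col_eq_sum, Finset.mul_sum]
  have h3 : (H : ℤ) = ∑ j ∈ Finset.range H, (1 : ℤ) := by simp
  rw [h3, ← Finset.sum_sub_distrib]
  refine Finset.sum_congr rfl fun j _ => ?_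
  unfold svaDH
  by_cases h : svH ω x (j : ℤ) = true
  · rw [if_pos h, if_pos h]; norm_num
  · rw [if_neg h, if_neg h]; norm_num

theorem brc149_isC_iff {M H : ℕ} {ω : ZMod M × ZMod H × Bool → Bool} (hice : br149_ice ω)
    (x y : ℤ) :
    (svaHeight ω (x, y) = svaHeight ω (x + 1, y + 1) ∧
      svaHeight ω (x + 1, y) = svaHeight ω (x, y + 1)) ↔ svIsC ω (x + 1) (y + 1) := by
  have h1 := svaHeight_up ω x y
  have h2 := svaHeight_up ω (x + 1) y
  have h3 := svaHeight_right ω hice x y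
  have h4 := svaHeight_right ω hice x (y + 1)
  unfold svIsC
  rw [add_sub_cancel_right]
  unfold svaDH at h1 h2
  have h3' := brc149_DV_cases ω (x + 1) y
  have h4' := brc149_DV_cases ω (x + 1) (y + 1)
  cases e1 : svH ω x (y + 1) <;> cases e2 : svH ω (x + 1) (y + 1) <;>
    simp only [e1, e2, if_true, if_false, Bool.false_eq_true, and_self, and_false, false_and,
      or_self, or_true, true_or, iff_true, iff_false, reduceCtorEq] at h1 h2 ⊢ <;> omega

theorem brc149_isC_add_M {M H : ℕ} (ω : ZMod M × ZMod H × Bool → Bool) (a b : ℤ) :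
    svIsC ω (a + M) b ↔ svIsC ω a b := by
  unfold svIsC
  rw [show a + (M : ℤ) - 1 = a - 1 + M by ring, br149_svH_add_M, br149_svH_add_M]

theorem brc149_isC_add_H {M H : ℕ} (ω : ZMod M × ZMod H × Bool → Bool) (a b : ℤ) :
    svIsC ω a (b + H) ↔ svIsC ω a b := by
  unfold svIsC
  rw [br149_svH_add_L, br149_svH_add_L]

open Classical in
/-- the number of vertices of type `c` is the number of plaquettes of type `c`. -/
theorem brc149_K_nC {M H : ℕ} {ω : ZMod M × ZMod H × Bool → Bool} (hice : br149_ice ω) :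
    (brc149_sys M H).nC (brc149_K ω) = svNumC ω := by
  have key : (((brc149_sys M H).nC (brc149_K ω) : ℕ) : ℤ) = (svNumC ω : ℤ) := by
    rw [brc149_nC_eq]
    unfold svNumC
    rw [Finset.card_filter, Finset.sum_product, Finset.sum_product]
    push_cast
    rw [brc149_sum_Ico]
    let g : ℤ → ℤ → ℤ := fun a b => if svIsC ω a b then 1 else 0
    have e1 : ∀ a ∈ Finset.range M, (∑ y ∈ Ico (0 : ℤ) H,
        (if brc149_K ω ((a : ℤ), y) = brc149_K ω ((a : ℤ) + 1, y + 1) ∧
          brc149_K ω ((a : ℤ) + 1, y) = brc149_K ω ((a : ℤ), y + 1) then (1 : ℤ) else 0)) =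
        ∑ b ∈ Finset.range H, g ((a : ℤ) + 1) b := by
      intro a ha
      rw [Finset.mem_range] at ha
      rw [brc149_sum_Ico]
      have := br149_sum_shift (L := H) (fun b => g ((a : ℤ) + 1) (b + 1)) (fun b => by
        simp only [g]
        rw [show b + (H : ℤ) + 1 = b + 1 + H by ring]
        exact if_congr (brc149_isC_add_H ω _ _) rfl rfl)
      simp only [sub_add_cancel] at this
      rw [this]
      refine Finset.sum_congr rfl fun b hb => ?_
      rw [Finset.mem_range] at hb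
      have ha' : (a : ℤ) < M := by exact_mod_cast ha
      have hb' : (b : ℤ) < H := by exact_mod_cast hb
      have ha0 : (0 : ℤ) ≤ a := by positivity
      have hb0 : (0 : ℤ) ≤ b := by positivity
      rw [brc149_K_in ω (p := ((a : ℤ), (b : ℤ))) ⟨ha0, ha'.le, hb0, hb'.le⟩,
        brc149_K_in ω (p := ((a : ℤ) + 1, (b : ℤ) + 1))
          ⟨by simp only; omega, by simp only; omega, by simp only; omega, by simp only; omega⟩,
        brc149_K_in ω (p := ((a : ℤ) + 1, (b : ℤ)))
          ⟨by simp only; omega, by simp only; omega, hb0, hb'.le⟩,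
        brc149_K_in ω (p := ((a : ℤ), (b : ℤ) + 1))
          ⟨ha0, ha'.le, by simp only; omega, by simp only; omega⟩]
      exact if_congr (brc149_isC_iff hice _ _) rfl rfl
    rw [Finset.sum_congr rfl e1]
    have := br149_sum_shift (L := M) (fun a => ∑ b ∈ Finset.range H, g (a + 1) b) (fun a => by
      refine Finset.sum_congr rfl fun b _ => ?_
      simp only [g]
      rw [show a + (M : ℤ) + 1 = a + 1 + M by ring]
      exact if_congr (brc149_isC_add_M ω _ _) rfl rfl)
    simp only [sub_add_cancel] at this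
    rw [← this]
  exact_mod_cast key

/-- the data on which we condition: the vertical arrows of the bottom row. -/
def brc149_dat {M H : ℕ} (ω : ZMod M × ZMod H × Bool → Bool) : Fin M → Bool :=
  fun x => svV ω (((x : ℕ) : ℤ) + 1) 0

theorem brc149_bot {M H : ℕ} {ω ω' : ZMod M × ZMod H × Bool → Bool} (hice : br149_ice ω)
    (hice' : br149_ice ω') (hd : brc149_dat ω = brc149_dat ω') (x : ℕ) (hx : x ≤ M) :
    svaHeight ω ((x : ℤ), 0) = svaHeight ω' ((x : ℤ), 0) := by
  induction x with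
  | zero => simp only [Nat.cast_zero, svaHeight_zero]
  | succ x ih =>
    have h1 := svaHeight_right ω hice x 0
    have h2 := svaHeight_right ω' hice' x 0
    have h3 := congrFun hd ⟨x, by omega⟩
    simp only [brc149_dat] at h3
    unfold svaDV at h1 h2
    rw [h3] at h1
    have := ih (by omega)
    push_cast
    omega

theorem brc149_H_of_DH {M H : ℕ} {ω ω' : ZMod M × ZMod H × Bool → Bool} {a b : ℤ}
    (h : svaDH ω a b = svaDH ω' a b) : svH ω a b = svH ω' a b := by
  unfold svaDH at h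
  cases e1 : svH ω a b <;> cases e2 : svH ω' a b <;> simp [e1, e2] at h ⊢

theorem brc149_V_of_DV {M H : ℕ} {ω ω' : ZMod M × ZMod H × Bool → Bool} {a b : ℤ}
    (h : svaDV ω a b = svaDV ω' a b) : svV ω a b = svV ω' a b := by
  unfold svaDV at h
  cases e1 : svV ω a b <;> cases e2 : svV ω' a b <;> simp [e1, e2] at h ⊢

/-- the cut height determines the configuration. -/
theorem brc149_K_inj {M H : ℕ} [NeZero M] [NeZero H] {ω ω' : ZMod M × ZMod H × Bool → Bool}
    (hice : br149_ice ω) (hice' : br149_ice ω') (h : brc149_K ω = brc149_K ω') : ω = ω' := by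
  have hh : ∀ p, brc149_inR M H p → svaHeight ω p = svaHeight ω' p := by
    intro p hp
    rw [← brc149_K_in ω hp, ← brc149_K_in ω' hp, h]
  funext ⟨i, j, s⟩
  have hi : (((i.val : ℕ) : ℤ) : ZMod M) = i := by
    rw [Int.cast_natCast, ZMod.natCast_zmod_val]
  have hj : (((j.val : ℕ) : ℤ) : ZMod H) = j := by
    rw [Int.cast_natCast, ZMod.natCast_zmod_val]
  have hi' : (((((i - 1).val : ℕ) : ℤ) + 1 : ℤ) : ZMod M) = i := by
    rw [Int.cast_add, Int.cast_natCast, ZMod.natCast_zmod_val]; simp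
  have hj' : (((((j - 1).val : ℕ) : ℤ) + 1 : ℤ) : ZMod H) = j := by
    rw [Int.cast_add, Int.cast_natCast, ZMod.natCast_zmod_val]; simp
  have bi := ZMod.val_lt i
  have bj := ZMod.val_lt j
  have bi' := ZMod.val_lt (i - 1)
  have bj' := ZMod.val_lt (j - 1)
  cases s with
  | false =>
    have e : svH ω (i.val : ℤ) (((j - 1).val : ℤ) + 1) = svH ω' (i.val : ℤ) (((j - 1).val : ℤ) + 1) := by
      apply brc149_H_of_DH
      rw [← svaHeight_up, ← svaHeight_up,
        hh _ ⟨by simp only; omega, by simp only; omega, by simp only; omega, by simp only; omega⟩,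
        hh _ ⟨by simp only; omega, by simp only; omega, by simp only; omega, by simp only; omega⟩]
    unfold svH at e
    rwa [hi, hj'] at e
  | true =>
    have e : svV ω (((i - 1).val : ℤ) + 1) (j.val : ℤ) = svV ω' (((i - 1).val : ℤ) + 1) (j.val : ℤ) := by
      apply brc149_V_of_DV
      rw [← svaHeight_right ω hice, ← svaHeight_right ω' hice',
        hh _ ⟨by simp only; omega, by simp only; omega, by simp only; omega, by simp only; omega⟩,
        hh _ ⟨by simp only; omega, by simp only; omega, by simp only; omega, by simp only; omega⟩]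
    unfold svV at e
    rwa [hi', hj] at e

open Classical in
/-- **from the torus to the flat box**: the sector `n` of the torus `M × H` is at most `2 ^ M` flat
boxes with free sides and rise `2 n - H`. -/
theorem brc149_svZN_le {c : ℝ} (hc : 1 ≤ c) (M H n : ℕ) [NeZero M] [NeZero H] (hH : Even H) :
    svZN c M H n ≤ 2 ^ M * brc149_F c M H (2 * n - H) := by
  have hc0 : (0 : ℝ) ≤ c := by linarith
  have hH0 : 0 < H := Nat.pos_of_ne_zero (NeZero.ne H)
  rw [br149_svZN_eq_sum, ← Finset.sum_filter, ← Finset.sum_fiberwise _ brc149_dat]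
  have hb : ∀ d ∈ (Finset.univ : Finset (Fin M → Bool)),
      ∑ ω ∈ (Finset.univ.filter fun ω : ZMod M × ZMod H × Bool → Bool => svAdmN n ω) with
        brc149_dat ω = d, c ^ svNumC ω ≤ brc149_F c M H (2 * n - H) := by
    intro d _
    set s := (Finset.univ.filter fun ω : ZMod M × ZMod H × Bool → Bool => svAdmN n ω).filter
      fun ω => brc149_dat ω = d with hs
    have hmem : ∀ ω ∈ s, br149_ice ω ∧ (∀ i, br149_col ω i = n) ∧ brc149_dat ω = d := by
      intro ω hω
      rw [hs, Finset.mem_filter, Finset.mem_filter] at hω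
      exact ⟨hω.1.2.1, hω.1.2.2, hω.2⟩
    rcases s.eq_empty_or_nonempty with h0 | ⟨ω₀, hω₀⟩
    · rw [h0, Finset.sum_empty]
      exact brc149_F_nonneg hc0 M H _
    obtain ⟨i0, c0, d0⟩ := hmem ω₀ hω₀
    have htop : ∀ ω ∈ s, ∀ x : ℤ, 0 ≤ x → x ≤ M →
        brc149_K ω (x, (H : ℤ)) = brc149_K ω (x, 0) + (2 * n - H) := by
      intro ω hω x h0 h1
      rw [brc149_K_in ω (p := (x, (H : ℤ))) ⟨h0, h1, by simp only; positivity, le_rfl⟩,
        brc149_K_in ω (p := (x, (0 : ℤ))) ⟨h0, h1, le_rfl, by simp only; positivity⟩]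
      have := brc149_rise ω x
      rw [(hmem ω hω).2.1 x] at this
      omega
    refine le_trans ?_ (brc149_fold hc M H hH hH0 (2 * n - H) (brc149_K ω₀) (htop ω₀ hω₀))
    unfold Mdl231Sys.Z
    have e1 : ∑ ω ∈ s, c ^ svNumC ω = ∑ K ∈ s.image brc149_K, c ^ (brc149_sys M H).nC K := by
      rw [Finset.sum_image]
      · exact Finset.sum_congr rfl fun ω hω => by rw [brc149_K_nC (hmem ω hω).1]
      · intro ω hω ω' hω' h
        exact brc149_K_inj (hmem ω hω).1 (hmem ω' hω').1 h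
    rw [e1]
    refine Finset.sum_le_sum_of_subset_of_nonneg ?_ fun K _ _ => pow_nonneg hc0 _
    intro K hK
    obtain ⟨ω, hω, rfl⟩ := Finset.mem_image.1 hK
    rw [mdl231_mem_cfg (brc149_fin_free M H _)]
    refine ⟨fun p hp => ?_, brc149_K_ht (hmem ω hω).1⟩
    by_cases hR : brc149_inR M H p
    · obtain ⟨x, y⟩ := p
      rw [brc149_mem_free] at hp
      simp only [brc149_inR] at hR hp
      have hbot : brc149_K ω (x, 0) = brc149_K ω₀ (x, 0) := by
        rw [brc149_K_in ω (p := (x, (0 : ℤ))) ⟨hR.1, hR.2.1, le_rfl, by simp only; positivity⟩,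
          brc149_K_in ω₀ (p := (x, (0 : ℤ))) ⟨hR.1, hR.2.1, le_rfl, by simp only; positivity⟩]
        have := brc149_bot (hmem ω hω).1 i0 ((hmem ω hω).2.2.trans d0.symm) x.toNat (by omega)
        rwa [show ((x.toNat : ℕ) : ℤ) = x by omega] at this
      have : y = 0 ∨ y = H := by omega
      rcases this with rfl | rfl
      · exact hbot
      · rw [htop ω hω x hR.1 hR.2.1, htop ω₀ hω₀ x hR.1 hR.2.1, hbot]
    · rw [brc149_K_out ω hR, brc149_K_out ω₀ hR]
  refine (Finset.sum_le_sum hb).trans (le_of_eq ?_)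
  rw [Finset.sum_const, Finset.card_univ, Fintype.card_fun, Fintype.card_bool, Fintype.card_fin,
    nsmul_eq_mul]
  push_cast
  ring

/-! ## 5. From the box to the torus -/

/-- the periodic extension with rise `r`. -/
def brc149_ext (M H : ℕ) (r : ℤ) (K : ℤ × ℤ → ℤ) : ℤ × ℤ → ℤ :=
  fun p => K (p.1 % M, p.2 % H) + r * (p.2 / H)

theorem brc149_ext_add (M H : ℕ) (hH : 0 < H) (r : ℤ) (K : ℤ × ℤ → ℤ) (x y q s : ℤ) :
    brc149_ext M H r K (x + M * q, y + H * s) = brc149_ext M H r K (x, y) + r * s := by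
  have hHz : (H : ℤ) ≠ 0 := by exact_mod_cast hH.ne'
  simp only [brc149_ext]
  rw [Int.add_mul_emod_self_left, Int.add_mul_emod_self_left, Int.add_mul_ediv_left _ _ hHz]
  ring

theorem brc149_ext_in {M H : ℕ} (hM : 0 < M) (hH : 0 < H) {r : ℤ} {K : ℤ × ℤ → ℤ}
    (t1 : ∀ y : ℤ, 0 ≤ y → y ≤ H → K (M, y) = K (0, y))
    (t2 : ∀ x : ℤ, 0 ≤ x → x ≤ M → K (x, H) = K (x, 0) + r) {p : ℤ × ℤ}
    (hp : brc149_inR M H p) : brc149_ext M H r K p = K p := by
  obtain ⟨x, y⟩ := p
  obtain ⟨h1, h2, h3, h4⟩ := hp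
  simp only at h1 h2 h3 h4
  simp only [brc149_ext]
  have hMz : (0 : ℤ) < M := by exact_mod_cast hM
  have hHz : (0 : ℤ) < H := by exact_mod_cast hH
  rcases h2.lt_or_eq with hx | rfl
  · rw [Int.emod_eq_of_lt h1 hx]
    rcases h4.lt_or_eq with hy | rfl
    · rw [Int.emod_eq_of_lt h3 hy, Int.ediv_eq_zero_of_lt h3 hy]; ring
    · rw [Int.emod_self, Int.ediv_self hHz.ne', t2 x h1 h2]; ring
  · rw [Int.emod_self]
    rcases h4.lt_or_eq with hy | rfl
    · rw [Int.emod_eq_of_lt h3 hy, Int.ediv_eq_zero_of_lt h3 hy, t1 y h3 h4]; ring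
    · rw [Int.emod_self, Int.ediv_self hHz.ne', t1 _ h3 le_rfl, t2 0 le_rfl hMz.le]; ring

theorem brc149_ext_red {M H : ℕ} (hM : 0 < M) (hH : 0 < H) {r : ℤ} {K : ℤ × ℤ → ℤ}
    (t1 : ∀ y : ℤ, 0 ≤ y → y ≤ H → K (M, y) = K (0, y))
    (t2 : ∀ x : ℤ, 0 ≤ x → x ≤ M → K (x, H) = K (x, 0) + r) (x y : ℤ) :
    ∃ x' y' t : ℤ, 0 ≤ x' ∧ x' < M ∧ 0 ≤ y' ∧ y' < H ∧
      brc149_ext M H r K (x, y) = K (x', y') + t ∧
      brc149_ext M H r K (x + 1, y) = K (x' + 1, y') + t ∧
      brc149_ext M H r K (x, y + 1) = K (x', y' + 1) + t := by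
  have hMz : (0 : ℤ) < M := by exact_mod_cast hM
  have hHz : (0 : ℤ) < H := by exact_mod_cast hH
  have a1 := Int.emod_nonneg x hMz.ne'
  have a2 := Int.emod_lt_of_pos x hMz
  have a3 := Int.emod_nonneg y hHz.ne'
  have a4 := Int.emod_lt_of_pos y hHz
  have key : ∀ i j : ℤ, 0 ≤ i → i ≤ 1 → 0 ≤ j → j ≤ 1 →
      brc149_ext M H r K (x + i, y + j) = K (x % M + i, y % H + j) + r * (y / H) := by
    intro i j i0 i1 j0 j1
    have e := brc149_ext_add M H hH r K (x % M + i) (y % H + j) (x / M) (y / H)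
    rw [show x % M + i + M * (x / M) = x + i by have := Int.emod_add_mul_ediv x M; linarith,
      show y % H + j + H * (y / H) = y + j by have := Int.emod_add_mul_ediv y H; linarith] at e
    rw [e, brc149_ext_in hM hH t1 t2
      ⟨by simp only; omega, by simp only; omega, by simp only; omega, by simp only; omega⟩]
  refine ⟨x % M, y % H, r * (y / H), a1, a2, a3, a4, ?_, ?_, ?_⟩
  · simpa using key 0 0 le_rfl zero_le_one le_rfl zero_le_one
  · simpa using key 1 0 zero_le_one le_rfl le_rfl zero_le_one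
  · simpa using key 0 1 le_rfl zero_le_one zero_le_one le_rfl

/-- the arrows of a height function of the plane. -/
def brc149_om (M H : ℕ) (G : ℤ × ℤ → ℤ) : ZMod M × ZMod H × Bool → Bool := fun e =>
  match e.2.2 with
  | false => decide (G ((e.1.val : ℤ), (e.2.1.val : ℤ)) - G ((e.1.val : ℤ), (e.2.1.val : ℤ) - 1) = 1)
  | true => decide (G ((e.1.val : ℤ), (e.2.1.val : ℤ)) - G ((e.1.val : ℤ) - 1, (e.2.1.val : ℤ)) = -1)

section om
variable {M H : ℕ} [NeZero M] [NeZero H] {G : ℤ × ℤ → ℤ} {r : ℤ}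

omit [NeZero M] [NeZero H] in
theorem brc149_om_red (hper : ∀ x y q s : ℤ, G (x + M * q, y + H * s) = G (x, y) + r * s)
    (a b i j : ℤ) : G (a % M + i, b % H + j) = G (a + i, b + j) - r * (b / H) := by
  have e := hper (a % M + i) (b % H + j) (a / M) (b / H)
  rw [show a % M + i + M * (a / M) = a + i by have := Int.emod_add_mul_ediv a M; linarith,
    show b % H + j + H * (b / H) = b + j by have := Int.emod_add_mul_ediv b H; linarith] at e
  linarith

theorem brc149_om_H (hper : ∀ x y q s : ℤ, G (x + M * q, y + H * s) = G (x, y) + r * s)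
    (a b : ℤ) : svH (brc149_om M H G) a b = decide (G (a, b) - G (a, b - 1) = 1) := by
  unfold svH
  show decide (G ((((a : ZMod M).val : ℕ) : ℤ), (((b : ZMod H).val : ℕ) : ℤ)) -
    G ((((a : ZMod M).val : ℕ) : ℤ), (((b : ZMod H).val : ℕ) : ℤ) - 1) = 1) = _
  rw [ZMod.val_intCast, ZMod.val_intCast]
  have e1 := brc149_om_red hper a b 0 0
  have e2 := brc149_om_red hper a b 0 (-1)
  simp only [add_zero] at e1 e2
  rw [e1, show b % (H : ℤ) - 1 = b % H + -1 by ring, e2, show b - 1 = b + -1 by ring]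
  congr 1
  apply propext
  constructor <;> intro h <;> linarith

theorem brc149_om_V (hper : ∀ x y q s : ℤ, G (x + M * q, y + H * s) = G (x, y) + r * s)
    (a b : ℤ) : svV (brc149_om M H G) a b = decide (G (a, b) - G (a - 1, b) = -1) := by
  unfold svV
  show decide (G ((((a : ZMod M).val : ℕ) : ℤ), (((b : ZMod H).val : ℕ) : ℤ)) -
    G ((((a : ZMod M).val : ℕ) : ℤ) - 1, (((b : ZMod H).val : ℕ) : ℤ)) = -1) = _
  rw [ZMod.val_intCast, ZMod.val_intCast]
  have e1 := brc149_om_red hper a b 0 0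
  have e2 := brc149_om_red hper a b (-1) 0
  simp only [add_zero] at e1 e2
  rw [e1, show a % (M : ℤ) - 1 = a % M + -1 by ring, e2, show a - 1 = a + -1 by ring]
  congr 1
  apply propext
  constructor <;> intro h <;> linarith

theorem brc149_om_DH (hper : ∀ x y q s : ℤ, G (x + M * q, y + H * s) = G (x, y) + r * s)
    (hv : ∀ x y : ℤ, G (x, y + 1) - G (x, y) = 1 ∨ G (x, y + 1) - G (x, y) = -1) (a b : ℤ) :
    svaDH (brc149_om M H G) a b = G (a, b) - G (a, b - 1) := by
  unfold svaDH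
  rw [brc149_om_H hper]
  have := hv a (b - 1)
  rw [sub_add_cancel] at this
  by_cases h : G (a, b) - G (a, b - 1) = 1
  · simp [h]
  · simp only [h, decide_false, Bool.false_eq_true, if_false]
    omega

theorem brc149_om_DV (hper : ∀ x y q s : ℤ, G (x + M * q, y + H * s) = G (x, y) + r * s)
    (hh : ∀ x y : ℤ, G (x + 1, y) - G (x, y) = 1 ∨ G (x + 1, y) - G (x, y) = -1) (a b : ℤ) :
    svaDV (brc149_om M H G) a b = G (a, b) - G (a - 1, b) := by
  unfold svaDV
  rw [brc149_om_V hper]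
  have := hh (a - 1) b
  rw [sub_add_cancel] at this
  by_cases h : G (a, b) - G (a - 1, b) = -1
  · simp [h]
  · simp only [h, decide_false, Bool.false_eq_true, if_false]
    omega

theorem brc149_om_ice (hper : ∀ x y q s : ℤ, G (x + M * q, y + H * s) = G (x, y) + r * s)
    (hh : ∀ x y : ℤ, G (x + 1, y) - G (x, y) = 1 ∨ G (x + 1, y) - G (x, y) = -1)
    (hv : ∀ x y : ℤ, G (x, y + 1) - G (x, y) = 1 ∨ G (x, y + 1) - G (x, y) = -1) :
    br149_ice (brc149_om M H G) := by
  intro a b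
  rw [sva_closed_iff, brc149_om_DH hper hv, brc149_om_DH hper hv, brc149_om_DV hper hh,
    brc149_om_DV hper hh]
  ring

theorem brc149_om_height (hper : ∀ x y q s : ℤ, G (x + M * q, y + H * s) = G (x, y) + r * s)
    (hh : ∀ x y : ℤ, G (x + 1, y) - G (x, y) = 1 ∨ G (x + 1, y) - G (x, y) = -1)
    (hv : ∀ x y : ℤ, G (x, y + 1) - G (x, y) = 1 ∨ G (x, y + 1) - G (x, y) = -1) (p : ℤ × ℤ) :
    svaHeight (brc149_om M H G) p = G p - G (0, 0) := by
  unfold svaHeight
  rw [sva_increment_eq,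
    svaS_eq_sub _ (fun a => G (a, 0)) (fun a => by
      rw [brc149_om_DV hper hh, add_sub_cancel_right]),
    svaS_eq_sub _ (fun b => G (p.1, b)) (fun b => by
      rw [brc149_om_DH hper hv, add_sub_cancel_right])]
  ring

theorem brc149_om_col (hper : ∀ x y q s : ℤ, G (x + M * q, y + H * s) = G (x, y) + r * s)
    (hh : ∀ x y : ℤ, G (x + 1, y) - G (x, y) = 1 ∨ G (x + 1, y) - G (x, y) = -1)
    (hv : ∀ x y : ℤ, G (x, y + 1) - G (x, y) = 1 ∨ G (x, y + 1) - G (x, y) = -1) (n : ℕ)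
    (hr : r = 2 * n - H) : svAdmN n (brc149_om M H G) := by
  rw [br149_admN_iff]
  refine ⟨brc149_om_ice hper hh hv, ?_⟩
  have h1 := brc149_rise (brc149_om M H G) 0
  rw [brc149_om_height hper hh hv, brc149_om_height hper hh hv] at h1
  have h2 := hper 0 0 0 1
  simp only [mul_zero, add_zero, zero_add, mul_one] at h2
  omega

end om

theorem brc149_svZN_nonneg {c : ℝ} (hc0 : 0 ≤ c) (M H n : ℕ) : 0 ≤ svZN c M H n := by
  classical
  unfold svZN
  refine tsum_nonneg fun ω => ?_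
  split_ifs
  · exact pow_nonneg hc0 _
  · exact le_rfl

/-- **gluing**: a box whose boundary function closes up on the torus is a part of the sector. -/
theorem brc149_glue {c : ℝ} (hc0 : 0 ≤ c) (M H n : ℕ) [NeZero M] [NeZero H] (β : ℤ × ℤ → ℤ)
    (t1 : ∀ y : ℤ, 0 ≤ y → y ≤ H → β (M, y) = β (0, y))
    (t2 : ∀ x : ℤ, 0 ≤ x → x ≤ M → β (x, H) = β (x, 0) + (2 * n - H)) :
    (brc149_sys M H).Z c (brc149_int M H) β ≤ svZN c M H n := by
  classical
  have hM : 0 < M := Nat.pos_of_ne_zero (NeZero.ne M)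
  have hH : 0 < H := Nat.pos_of_ne_zero (NeZero.ne H)
  obtain ⟨r, hr⟩ : ∃ r : ℤ, r = 2 * n - H := ⟨_, rfl⟩
  rw [← hr] at t2
  let Ω : (ℤ × ℤ → ℤ) → (ZMod M × ZMod H × Bool → Bool) :=
    fun K => brc149_om M H (brc149_ext M H r K)
  have fact : ∀ K ∈ (brc149_sys M H).cfg (brc149_int M H) β,
      svAdmN n (Ω K) ∧ (∀ p, brc149_inR M H p → brc149_K (Ω K) p = K p - β (0, 0)) := by
    intro K hK
    obtain ⟨hKb, hKh⟩ := mdl231_adm_of_mem hK
    have k1 : ∀ y : ℤ, 0 ≤ y → y ≤ H → K (M, y) = K (0, y) := by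
      intro y h0 h1
      rw [hKb (M, y) (by rw [brc149_mem_int]; simp), hKb (0, y) (by rw [brc149_mem_int]; simp),
        t1 y h0 h1]
    have k2 : ∀ x : ℤ, 0 ≤ x → x ≤ M → K (x, H) = K (x, 0) + r := by
      intro x h0 h1
      rw [hKb (x, H) (by rw [brc149_mem_int]; simp), hKb (x, 0) (by rw [brc149_mem_int]; simp),
        t2 x h0 h1]
    rw [brc149_ht_iff] at hKh
    have hper := brc149_ext_add M H hH r K
    have hh : ∀ x y : ℤ, brc149_ext M H r K (x + 1, y) - brc149_ext M H r K (x, y) = 1 ∨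
        brc149_ext M H r K (x + 1, y) - brc149_ext M H r K (x, y) = -1 := by
      intro x y
      obtain ⟨x', y', t, a1, a2, a3, a4, e1, e2, e3⟩ := brc149_ext_red hM hH k1 k2 x y
      rw [e1, e2]
      have := hKh.2.1 x' y' a1 a2 a3 a4.le
      omega
    have hv : ∀ x y : ℤ, brc149_ext M H r K (x, y + 1) - brc149_ext M H r K (x, y) = 1 ∨
        brc149_ext M H r K (x, y + 1) - brc149_ext M H r K (x, y) = -1 := by
      intro x y
      obtain ⟨x', y', t, a1, a2, a3, a4, e1, e2, e3⟩ := brc149_ext_red hM hH k1 k2 x y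
      rw [e1, e3]
      have := hKh.2.2 x' y' a1 a2.le a3 a4
      omega
    refine ⟨brc149_om_col hper hh hv n hr, fun p hp => ?_⟩
    rw [brc149_K_in _ hp, brc149_om_height hper hh hv, brc149_ext_in hM hH k1 k2 hp,
      brc149_ext_in hM hH k1 k2 (p := (0, 0))
        ⟨le_rfl, by simp only; positivity, le_rfl, by simp only; positivity⟩,
      hKb (0, 0) (by rw [brc149_mem_int]; simp)]
  rw [br149_svZN_eq_sum, ← Finset.sum_filter]
  unfold Mdl231Sys.Z
  have e1 : ∑ K ∈ (brc149_sys M H).cfg (brc149_int M H) β, c ^ (brc149_sys M H).nC K =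
      ∑ ω ∈ ((brc149_sys M H).cfg (brc149_int M H) β).image Ω, c ^ svNumC ω := by
    rw [Finset.sum_image]
    · refine Finset.sum_congr rfl fun K hK => ?_
      rw [← brc149_K_nC (fact K hK).1.1, brc149_nC_eq, brc149_nC_eq]
      congr 1
      refine Finset.sum_congr rfl fun p hp => ?_
      rw [Finset.mem_product, Finset.mem_Ico, Finset.mem_Ico] at hp
      obtain ⟨⟨a1, a2⟩, a3, a4⟩ := hp
      rw [(fact K hK).2 p ⟨a1, a2.le, a3, a4.le⟩,
        (fact K hK).2 (p.1 + 1, p.2 + 1)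
          ⟨by simp only; omega, by simp only; omega, by simp only; omega, by simp only; omega⟩,
        (fact K hK).2 (p.1 + 1, p.2) ⟨by simp only; omega, by simp only; omega, a3, a4.le⟩,
        (fact K hK).2 (p.1, p.2 + 1) ⟨a1, a2.le, by simp only; omega, by simp only; omega⟩]
      refine if_congr ?_ rfl rfl
      constructor <;> rintro ⟨h1, h2⟩ <;> constructor <;> omega
    · intro K hK K' hK' h
      funext p
      by_cases hp : brc149_inR M H p
      · have a := (fact K hK).2 p hp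
        have b := (fact K' hK').2 p hp
        rw [show Ω K = Ω K' from h] at a
        omega
      · have hp' : p ∉ brc149_int M H := by
          rw [brc149_mem_int]
          unfold brc149_inR at hp
          omega
        rw [(mdl231_adm_of_mem hK).1 p hp', (mdl231_adm_of_mem hK').1 p hp']
  rw [e1]
  refine Finset.sum_le_sum_of_subset_of_nonneg ?_ (fun _ _ _ => pow_nonneg hc0 _)
  intro ω hω
  obtain ⟨K, hK, rfl⟩ := Finset.mem_image.1 hω
  exact Finset.mem_filter.2 ⟨Finset.mem_univ _, (fact K hK).1⟩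

/-- a box with flat rows and ARBITRARY sides is at most the sector (`M` even): mirror + LSM. -/
theorem brc149_int_le {c : ℝ} (hc : 1 ≤ c) (M H n : ℕ) [NeZero M] [NeZero H] (hM : Even M)
    (K₀ : ℤ × ℤ → ℤ) (hbot : ∀ x : ℤ, K₀ (x, 0) = x % 2)
    (htop : ∀ x : ℤ, K₀ (x, H) = x % 2 + (2 * n - H)) :
    (brc149_sys M H).Z c (brc149_int M H) K₀ ≤ svZN c M H n := by
  have hc0 : (0 : ℝ) ≤ c := by linarith
  have e := brc149_Z_mh c M H hM (brc149_int M H) (brc149_int_mh M H) K₀
  have l := brl149_lsm hc (brc149_sys M H) (brc149_int M H) (brc149_fin_int M H) K₀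
    (fun p => K₀ (M - p.1, p.2))
  have g1 := brc149_glue hc0 M H n (K₀ ⊓ fun p => K₀ (M - p.1, p.2))
    (fun y _ _ => by
      simp only [Pi.inf_apply, sub_self, sub_zero]
      exact inf_comm _ _)
    (fun x _ _ => by
      simp only [Pi.inf_apply, hbot, htop]
      omega)
  have g2 := brc149_glue hc0 M H n (K₀ ⊔ fun p => K₀ (M - p.1, p.2))
    (fun y _ _ => by
      simp only [Pi.sup_apply, sub_self, sub_zero]
      exact sup_comm _ _)
    (fun x _ _ => by
      simp only [Pi.sup_apply, hbot, htop]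
      omega)
  rw [e] at l
  have hz := mdl231_Z_nonneg hc0 (brc149_sys M H) (brc149_int M H) K₀
  have hs := brc149_svZN_nonneg hc0 M H n
  exact (mul_self_le_mul_self_iff hz hs).2
    (l.trans (mul_le_mul g1 g2 (mdl231_Z_nonneg hc0 _ _ _) hs))

/-- the data of the two sides. -/
def brc149_side (M H : ℕ) (K : ℤ × ℤ → ℤ) : Fin H × Bool → Bool := fun e =>
  decide (K ((if e.2 = true then (M : ℤ) else 0), ((e.1 : ℕ) : ℤ) + 1) -
    K ((if e.2 = true then (M : ℤ) else 0), ((e.1 : ℕ) : ℤ)) = 1)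

theorem brc149_side_eq {M H : ℕ} {K K' : ℤ × ℤ → ℤ} (hK : (brc149_sys M H).Ht K)
    (hK' : (brc149_sys M H).Ht K') (hs : brc149_side M H K = brc149_side M H K') (s : Bool)
    (h0 : K ((if s = true then (M : ℤ) else 0), 0) = K' ((if s = true then (M : ℤ) else 0), 0))
    (y : ℕ) (hy : y ≤ H) :
    K ((if s = true then (M : ℤ) else 0), (y : ℤ)) =
      K' ((if s = true then (M : ℤ) else 0), (y : ℤ)) := by
  rw [brc149_ht_iff] at hK hK'
  have hx0 : (0 : ℤ) ≤ (if s = true then (M : ℤ) else 0) := by split_ifs <;> positivity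
  have hx1 : (if s = true then (M : ℤ) else 0) ≤ (M : ℤ) := by split_ifs <;> simp
  induction y with
  | zero => simpa using h0
  | succ y ih =>
    have h1 := congrFun hs (⟨y, by omega⟩, s)
    simp only [brc149_side, decide_eq_decide] at h1
    have h2 := hK.2.2 _ (y : ℤ) hx0 hx1 (by positivity) (by exact_mod_cast hy)
    have h3 := hK'.2.2 _ (y : ℤ) hx0 hx1 (by positivity) (by exact_mod_cast hy)
    have h4 := ih (by omega)
    push_cast
    by_cases h5 : K ((if s = true then (M : ℤ) else 0), (y : ℤ) + 1) -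
        K ((if s = true then (M : ℤ) else 0), (y : ℤ)) = 1
    · have := h1.1 h5
      omega
    · have : ¬ (K' ((if s = true then (M : ℤ) else 0), (y : ℤ) + 1) -
        K' ((if s = true then (M : ℤ) else 0), (y : ℤ)) = 1) := fun h => h5 (h1.2 h)
      omega

open Classical in
/-- **from the flat box to the torus**: the flat box with free sides and rise `2 n - H` is at most
`4 ^ H` sectors `n` of the torus. -/
theorem brc149_F_le {c : ℝ} (hc : 1 ≤ c) (M H n : ℕ) [NeZero M] [NeZero H] (hM : Even M) :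
    brc149_F c M H (2 * n - H) ≤ 4 ^ H * svZN c M H n := by
  have hc0 : (0 : ℝ) ≤ c := by linarith
  have hH0 : 0 < H := Nat.pos_of_ne_zero (NeZero.ne H)
  have hHz : (H : ℤ) ≠ 0 := by exact_mod_cast hH0.ne'
  unfold brc149_F Mdl231Sys.Z
  set b₀ := brc149_bd H (2 * n - H) fun x => x % 2 with hb₀
  rw [← Finset.sum_fiberwise _ (brc149_side M H)]
  have hb : ∀ d ∈ (Finset.univ : Finset (Fin H × Bool → Bool)),
      ∑ K ∈ (brc149_sys M H).cfg (brc149_free M H) b₀ with brc149_side M H K = d,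
        c ^ (brc149_sys M H).nC K ≤ svZN c M H n := by
    intro d _
    set s := ((brc149_sys M H).cfg (brc149_free M H) b₀).filter
      fun K => brc149_side M H K = d with hs
    have hmem : ∀ K ∈ s, (brc149_sys M H).Adm (brc149_free M H) b₀ K ∧ brc149_side M H K = d := by
      intro K hK
      rw [hs, Finset.mem_filter] at hK
      exact ⟨mdl231_adm_of_mem hK.1, hK.2⟩
    rcases s.eq_empty_or_nonempty with h0 | ⟨K₀, hK₀⟩
    · rw [h0, Finset.sum_empty]
      exact brc149_svZN_nonneg hc0 M H n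
    obtain ⟨⟨b0, ht0⟩, d0⟩ := hmem K₀ hK₀
    refine le_trans ?_ (brc149_int_le hc M H n hM K₀
      (fun x => by
        rw [b0 (x, 0) (by rw [brc149_mem_free]; simp), hb₀]
        simp only [brc149_bd, if_true])
      (fun x => by
        rw [b0 (x, H) (by rw [brc149_mem_free]; simp), hb₀]
        simp only [brc149_bd, if_true, if_neg hHz]))
    unfold Mdl231Sys.Z
    refine Finset.sum_le_sum_of_subset_of_nonneg ?_ fun K _ _ => pow_nonneg hc0 _
    intro K hK
    obtain ⟨⟨b1, ht1⟩, d1⟩ := hmem K hK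
    rw [mdl231_mem_cfg (brc149_fin_int M H _)]
    refine ⟨fun p hp => ?_, ht1⟩
    by_cases hf : p ∈ brc149_free M H
    · obtain ⟨x, y⟩ := p
      rw [brc149_mem_free] at hf
      rw [brc149_mem_int] at hp
      simp only at hf hp
      have hx : x = 0 ∨ x = M := by omega
      have hy : ((y.toNat : ℕ) : ℤ) = y := by omega
      rcases hx with rfl | rfl
      · have := brc149_side_eq ht1 ht0 (d1.trans d0.symm) false
          (by
            simp only [Bool.false_eq_true, if_false]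
            rw [b1 (0, 0) (by rw [brc149_mem_free]; simp), b0 (0, 0) (by rw [brc149_mem_free]; simp)])
          y.toNat (by omega)
        simpa only [Bool.false_eq_true, if_false, hy] using this
      · have := brc149_side_eq ht1 ht0 (d1.trans d0.symm) true
          (by
            simp only [if_true]
            rw [b1 (M, 0) (by rw [brc149_mem_free]; simp), b0 (M, 0) (by rw [brc149_mem_free]; simp)])
          y.toNat (by omega)
        simpa only [if_true, hy] using this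
    · rw [b1 p hf, b0 p hf]
  refine (Finset.sum_le_sum hb).trans (le_of_eq ?_)
  rw [Finset.sum_const, Finset.card_univ, Fintype.card_fun, Fintype.card_bool, Fintype.card_prod,
    Fintype.card_fin, Fintype.card_bool, nsmul_eq_mul, pow_mul']
  push_cast
  norm_num

/-! ## 6. The sandwich and the approximate log-concavity of the sectors -/

/-- **approximate log-concavity of the sectors of the torus**, `c ≥ 1`, both sides even. -/
theorem brc149_sector_logconcave {c : ℝ} (hc : 1 ≤ c) (M H n : ℕ) [NeZero M] [NeZero H]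
    (hM : Even M) (hH : Even H) (hn : 1 ≤ n) :
    svZN c M H (n - 1) * svZN c M H (n + 1) ≤ 4 ^ M * 16 ^ H * svZN c M H n ^ 2 := by
  have hc0 : (0 : ℝ) ≤ c := by linarith
  have hH0 : 0 < H := Nat.pos_of_ne_zero (NeZero.ne H)
  have u1 := brc149_svZN_le hc M H (n - 1) hH
  have u2 := brc149_svZN_le hc M H (n + 1) hH
  have l := brc149_F_le hc M H n hM
  have lc := brc149_F_logconcave hc M H hH0 (2 * n - H)
  rw [show (2 * ((n - 1 : ℕ) : ℤ) - (H : ℤ)) = 2 * n - H - 2 by
    rw [Nat.cast_sub hn]; push_cast; ring] at u1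
  rw [show (2 * ((n + 1 : ℕ) : ℤ) - (H : ℤ)) = 2 * n - H + 2 by push_cast; ring] at u2
  have f0 := brc149_F_nonneg hc0 M H (2 * n - H)
  have f1 := brc149_F_nonneg hc0 M H (2 * n - H - 2)
  have f2 := brc149_F_nonneg hc0 M H (2 * n - H + 2)
  have s0 := brc149_svZN_nonneg hc0 M H n
  have s2 := brc149_svZN_nonneg hc0 M H (n + 1)
  calc svZN c M H (n - 1) * svZN c M H (n + 1)
      ≤ (2 ^ M * brc149_F c M H (2 * n - H - 2)) * (2 ^ M * brc149_F c M H (2 * n - H + 2)) :=
        mul_le_mul u1 u2 s2 (by positivity)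
    _ = 4 ^ M * (brc149_F c M H (2 * n - H - 2) * brc149_F c M H (2 * n - H + 2)) := by
        rw [show (4 : ℝ) = 2 * 2 by norm_num, mul_pow]; ring
    _ ≤ 4 ^ M * brc149_F c M H (2 * n - H) ^ 2 := by gcongr
    _ ≤ 4 ^ M * (4 ^ H * svZN c M H n) ^ 2 := by gcongr
    _ = 4 ^ M * 16 ^ H * svZN c M H n ^ 2 := by
        rw [show (16 : ℝ) = 4 * 4 by norm_num, mul_pow, mul_pow]; ring

/-! ## 7. Concavity at all scales; the middle sector is the largest; the stiffness is nonnegative -/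

/-- **(T2)** with an arbitrary step. -/
theorem brc149_rise_gen {V : Type} {c : ℝ} (hc : 1 ≤ c) (S : Mdl231Sys V) (A : Finset V)
    (hfin : ∀ b, {K | S.Adm A b K}.Finite) (b : V → ℤ) (U : Set V) {r₁ r₂ j : ℤ} (hj : 0 ≤ j)
    (hr : r₁ + 2 * j ≤ r₂) :
    S.Z c A (brl149_lift b U r₁) * S.Z c A (brl149_lift b U r₂) ≤
      S.Z c A (brl149_lift b U (r₁ + 2 * j)) * S.Z c A (brl149_lift b U (r₂ - 2 * j)) := by
  have key := brl149_lsm hc S A hfin (brl149_lift b U r₂) (fun x => brl149_lift b U r₁ x + 2 * j)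
  rw [brl149_Z_shift] at key
  have e1 : (brl149_lift b U r₂ ⊓ fun x => brl149_lift b U r₁ x + 2 * j) =
      brl149_lift b U (r₁ + 2 * j) := by
    funext x
    simp only [Pi.inf_apply, brl149_lift]
    split_ifs
    · rw [inf_eq_right.2 (by linarith)]; ring
    · rw [inf_eq_left.2 (by linarith)]
  have e2 : (brl149_lift b U r₂ ⊔ fun x => brl149_lift b U r₁ x + 2 * j) =
      fun x => brl149_lift b U (r₂ - 2 * j) x + 2 * j := by
    funext x
    simp only [Pi.sup_apply, brl149_lift]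
    split_ifs
    · rw [sup_eq_left.2 (by linarith)]; ring
    · rw [sup_eq_right.2 (by linarith)]
  rw [e1, e2, brl149_Z_shift] at key
  linarith

/-- **concavity at all scales** of the flat box with free sides. -/
theorem brc149_F_concave {c : ℝ} (hc : 1 ≤ c) (M H : ℕ) (hH0 : 0 < H) {r₁ r₂ j : ℤ} (hj : 0 ≤ j)
    (hr : r₁ + 2 * j ≤ r₂) :
    brc149_F c M H r₁ * brc149_F c M H r₂ ≤
      brc149_F c M H (r₁ + 2 * j) * brc149_F c M H (r₂ - 2 * j) := by
  classical
  have hHz : (H : ℤ) ≠ 0 := by exact_mod_cast hH0.ne'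
  have key := brc149_rise_gen hc (brc149_sys M H) (brc149_free M H) (brc149_fin_free M H)
    (brc149_bd H 0 fun x => x % 2) {p | p.2 = (H : ℤ)} hj hr
  have e : ∀ s : ℤ, brl149_lift (brc149_bd H 0 fun x => x % 2) {p | p.2 = (H : ℤ)} s =
      brc149_bd H s fun x => x % 2 := by
    intro s
    funext p
    simp only [brl149_lift, brc149_bd, Set.mem_ofPred_eq]
    by_cases h1 : p.2 = H
    · have h0 : p.2 ≠ 0 := by rw [h1]; exact hHz
      simp only [if_pos h1, if_neg h0, add_zero]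
    · simp only [if_neg h1]
  rw [e, e, e, e] at key
  exact key

/-- **concavity at all scales of the sectors of the torus**, up to the boundary factor. -/
theorem brc149_sector_concave {c : ℝ} (hc : 1 ≤ c) (M H : ℕ) [NeZero M] [NeZero H]
    (hM : Even M) (hH : Even H) {n₁ n₂ j : ℕ} (h : n₁ + j ≤ n₂) :
    svZN c M H n₁ * svZN c M H n₂ ≤
      4 ^ M * 16 ^ H * (svZN c M H (n₁ + j) * svZN c M H (n₂ - j)) := by
  have hc0 : (0 : ℝ) ≤ c := by linarith
  have hH0 : 0 < H := Nat.pos_of_ne_zero (NeZero.ne H)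
  have u1 := brc149_svZN_le hc M H n₁ hH
  have u2 := brc149_svZN_le hc M H n₂ hH
  have l1 := brc149_F_le hc M H (n₁ + j) hM
  have l2 := brc149_F_le hc M H (n₂ - j) hM
  have lc := brc149_F_concave hc M H hH0 (r₁ := 2 * n₁ - H) (r₂ := 2 * n₂ - H) (j := j)
    (by positivity) (by have : (n₁ : ℤ) + j ≤ n₂ := by exact_mod_cast h
                        linarith)
  rw [show (2 * ((n₁ + j : ℕ) : ℤ) - (H : ℤ)) = 2 * n₁ - H + 2 * j by push_cast; ring] at l1
  rw [show (2 * ((n₂ - j : ℕ) : ℤ) - (H : ℤ)) = 2 * n₂ - H - 2 * j by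
    rw [Nat.cast_sub (by omega)]; ring] at l2
  have f1 := brc149_F_nonneg hc0 M H (2 * n₁ - H)
  have f2 := brc149_F_nonneg hc0 M H (2 * n₂ - H)
  have f3 := brc149_F_nonneg hc0 M H (2 * n₁ - H + 2 * j)
  have f4 := brc149_F_nonneg hc0 M H (2 * n₂ - H - 2 * j)
  have s2 := brc149_svZN_nonneg hc0 M H n₂
  have s3 := brc149_svZN_nonneg hc0 M H (n₁ + j)
  have s4 := brc149_svZN_nonneg hc0 M H (n₂ - j)
  calc svZN c M H n₁ * svZN c M H n₂
      ≤ (2 ^ M * brc149_F c M H (2 * n₁ - H)) * (2 ^ M * brc149_F c M H (2 * n₂ - H)) :=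
        mul_le_mul u1 u2 s2 (by positivity)
    _ = 4 ^ M * (brc149_F c M H (2 * n₁ - H) * brc149_F c M H (2 * n₂ - H)) := by
        rw [show (4 : ℝ) = 2 * 2 by norm_num, mul_pow]; ring
    _ ≤ 4 ^ M * (brc149_F c M H (2 * n₁ - H + 2 * j) * brc149_F c M H (2 * n₂ - H - 2 * j)) := by
        gcongr
    _ ≤ 4 ^ M * ((4 ^ H * svZN c M H (n₁ + j)) * (4 ^ H * svZN c M H (n₂ - j))) := by
        gcongr
    _ = 4 ^ M * 16 ^ H * (svZN c M H (n₁ + j) * svZN c M H (n₂ - j)) := by
        rw [show (16 : ℝ) = 4 * 4 by norm_num, mul_pow]; ring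

/-- **the middle sector is the largest**, up to the boundary factor. -/
theorem brc149_sector_max {c : ℝ} (hc : 1 ≤ c) (M L : ℕ) [NeZero M] [NeZero L] (hM : Even M)
    {n : ℕ} (hn : n ≤ L) :
    svZN c M (2 * L) n ≤ 2 ^ M * 4 ^ (2 * L) * svZN c M (2 * L) L := by
  have hc0 : (0 : ℝ) ≤ c := by linarith
  have : NeZero (2 * L) := ⟨by have := NeZero.ne L; omega⟩
  have key := brc149_sector_concave hc M (2 * L) hM (even_two_mul L) (n₁ := n) (n₂ := 2 * L - n)
    (j := L - n) (by omega)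
  rw [br149_svZN_symm c M (2 * L) (by omega : n ≤ 2 * L), show n + (L - n) = L by omega,
    show 2 * L - n - (L - n) = L by omega] at key
  have s0 := brc149_svZN_nonneg hc0 M (2 * L) n
  have s1 := brc149_svZN_nonneg hc0 M (2 * L) L
  refine (mul_self_le_mul_self_iff s0 (by positivity)).2 (key.trans (le_of_eq ?_))
  rw [show (4 : ℝ) ^ M = 2 ^ M * 2 ^ M by rw [← mul_pow]; norm_num,
    show (16 : ℝ) ^ (2 * L) = 4 ^ (2 * L) * 4 ^ (2 * L) by rw [← mul_pow]; norm_num]
  ring

/-- **the stiffness of the torus is nonnegative** for `c ≥ 1`. -/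
theorem brc149_stiff_nonneg {c A : ℝ} (hc : 1 ≤ c) (h : SvStiff c A) : 0 ≤ A := by
  have hc0 : (0 : ℝ) ≤ c := by linarith
  by_contra hA
  rw [not_le] at hA
  obtain ⟨s₀, hs₀, Hs⟩ := h (-A / 4) (by linarith)
  have hs : (0 : ℝ) < s₀ / 2 := by positivity
  have H1 := Hs (s₀ / 2) hs (by linarith)
  set s := s₀ / 2 with hsdef
  set η : ℝ := -A / 4 * s ^ 2 with hη
  have hηpos : 0 < η := by
    have : 0 < s ^ 2 := by positivity
    have : 0 < -A / 4 := by linarith
    positivity
  obtain ⟨L₀, hL₀⟩ := exists_nat_gt (2 / η)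
  obtain ⟨M₀, hM₀⟩ := exists_nat_gt (5 / η)
  obtain ⟨L, hL1, hL2⟩ := (H1.and (Filter.eventually_ge_atTop (L₀ + 1))).exists
  obtain ⟨N, hN⟩ := Filter.eventually_atTop.1 hL1
  have hb := hN (2 * (N + M₀ + 1)) (by omega)
  set M := 2 * (N + M₀ + 1) with hMdef
  have : NeZero M := ⟨by omega⟩
  have : NeZero L := ⟨by omega⟩
  have : NeZero (2 * L) := ⟨by omega⟩
  have hMe : Even M := even_two_mul _
  have hmax := brc149_sector_max hc M L hMe (n := L - ⌊s * L⌋₊) (Nat.sub_le _ _)
  have p1 := br149_svZN_pos hc0 M (2 * L) (n := L - ⌊s * L⌋₊) (by omega)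
  have p2 := br149_svZN_pos hc0 M (2 * L) (n := L) (by omega)
  have hlog : Real.log (svZN c M (2 * L) (L - ⌊s * L⌋₊)) - Real.log (svZN c M (2 * L) L) ≤
      M * Real.log 2 + (2 * L : ℕ) * Real.log 4 := by
    have := Real.log_le_log p1 hmax
    rw [Real.log_mul (by positivity) p2.ne', Real.log_mul (by positivity) (by positivity),
      Real.log_pow, Real.log_pow] at this
    linarith
  have hl2 : Real.log 2 ≤ 1 := by
    have := Real.log_le_sub_one_of_pos (by norm_num : (0 : ℝ) < 2)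
    linarith
  have hl4 : Real.log 4 ≤ 2 := by
    rw [show (4 : ℝ) = 2 ^ 2 by norm_num, Real.log_pow]
    push_cast
    linarith
  have hLr : (2 : ℝ) / η < L := by
    have : ((L₀ + 1 : ℕ) : ℝ) ≤ L := by exact_mod_cast hL2
    push_cast at this
    linarith
  have hMr : (5 : ℝ) / η < M := by
    have : ((M₀ : ℕ) : ℝ) ≤ M := by exact_mod_cast (by omega : M₀ ≤ M)
    linarith
  have hLpos : (0 : ℝ) < L := lt_trans (by positivity) hLr
  have hMpos : (0 : ℝ) < M := lt_trans (by positivity) hMr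
  have hL' : 2 < η * L := by
    rw [div_lt_iff₀ hηpos] at hLr
    linarith
  have hM' : 5 < η * M := by
    rw [div_lt_iff₀ hηpos] at hMr
    linarith
  set X := (Real.log (svZN c M (2 * L) (L - ⌊s * L⌋₊)) - Real.log (svZN c M (2 * L) L)) /
    (2 * L * M) with hX
  have hXlow : η ≤ X := by
    have := (abs_le.1 hb).1
    rw [hη]
    nlinarith [this]
  have hXup : X < η := by
    rw [hX, div_lt_iff₀ (by positivity)]
    push_cast at hlog
    have a1 : (M : ℝ) * Real.log 2 ≤ M := by nlinarith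
    have a2 : (2 * (L : ℝ)) * Real.log 4 ≤ 4 * L := by nlinarith
    have a3 : 2 * (M : ℝ) < η * L * M := by nlinarith
    have a4 : 5 * (L : ℝ) < η * M * L := by nlinarith
    nlinarith
  linarith

end Claimed.Agent.R292
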