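import Claimed.Agent.R292.Defs.Top

/-!
# Row 292, BRIDGE: how to USE `AtFlatGFF` without a Poisson solver   (helper69, prefix `brg69_`)

`AtFlatGFF t v` asks for a pair `(φ, u)` with `-lap2 u = φ` in `D`, `u = 0` on the frontier.
We CHOOSE the pair: `u` any smooth function with compact support in `D`, and `φ := -lap2 u`.

* `brg69_lap2_eq`    `lap2 u = ∂₁∂₁ u + ∂₂∂₂ u` in terms of `fderiv`;
* `brg69_pair`       all the clauses that `AtFlatGFF` (and the frozen S0540) ask of `(φ, u)`;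
* `brg69_energy`     `∫_D φ u = ∫ (∂₁u)² + (∂₂u)²`   (Dirichlet energy);
* `brg69_flat_use`   `AtFlatGFF t v` gives the moments of the pairing with `-lap2 u`.
-/

set_option autoImplicit false

namespace Claimed.Agent.R292

open MeasureTheory Filter Topology
open Claims Claimed.Agent.R291

/-- directional derivative. -/
noncomputable def brg69_d (v : ℝ × ℝ) (u : ℝ × ℝ → ℝ) : ℝ × ℝ → ℝ := fun z => fderiv ℝ u z v

theorem brg69_d_contDiff {u : ℝ × ℝ → ℝ} (hu : ContDiff ℝ ((⊤ : ℕ∞) : WithTop ℕ∞) u)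
    (v : ℝ × ℝ) : ContDiff ℝ ((⊤ : ℕ∞) : WithTop ℕ∞) (brg69_d v u) :=
  (hu.fderiv_right (m := ((⊤ : ℕ∞) : WithTop ℕ∞)) (by simp)).clm_apply contDiff_const

theorem brg69_d_tsupport (u : ℝ × ℝ → ℝ) (v : ℝ × ℝ) : tsupport (brg69_d v u) ⊆ tsupport u :=
  tsupport_fderiv_apply_subset ℝ v

theorem brg69_deriv_fst {u : ℝ × ℝ → ℝ} (hu : Differentiable ℝ u) (s y : ℝ) :
    deriv (fun t => u (t, y)) s = brg69_d (1, 0) u (s, y) := by
  have h1 : HasDerivAt (fun t : ℝ => ((t, y) : ℝ × ℝ)) ((1, 0) : ℝ × ℝ) s :=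
    (hasDerivAt_id s).prodMk (hasDerivAt_const s y)
  exact ((hu (s, y)).hasFDerivAt.comp_hasDerivAt s h1).deriv

theorem brg69_deriv_snd {u : ℝ × ℝ → ℝ} (hu : Differentiable ℝ u) (x s : ℝ) :
    deriv (fun t => u (x, t)) s = brg69_d (0, 1) u (x, s) := by
  have h1 : HasDerivAt (fun t : ℝ => ((x, t) : ℝ × ℝ)) ((0, 1) : ℝ × ℝ) s :=
    (hasDerivAt_const s x).prodMk (hasDerivAt_id s)
  exact ((hu (x, s)).hasFDerivAt.comp_hasDerivAt s h1).deriv

theorem brg69_lap2_eq {u : ℝ × ℝ → ℝ} (hu : ContDiff ℝ ((⊤ : ℕ∞) : WithTop ℕ∞) u) (z : ℝ × ℝ) :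
    C0468.lap2 u z = brg69_d (1, 0) (brg69_d (1, 0) u) z + brg69_d (0, 1) (brg69_d (0, 1) u) z := by
  have hd : Differentiable ℝ u := hu.differentiable (by simp)
  have hd1 : Differentiable ℝ (brg69_d (1, 0) u) := (brg69_d_contDiff hu _).differentiable (by simp)
  have hd2 : Differentiable ℝ (brg69_d (0, 1) u) := (brg69_d_contDiff hu _).differentiable (by simp)
  unfold C0468.lap2
  have e1 : (fun s => deriv (fun t => u (t, z.2)) s) = fun s => brg69_d (1, 0) u (s, z.2) :=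
    funext fun s => brg69_deriv_fst hd s z.2
  have e2 : (fun s => deriv (fun t => u (z.1, t)) s) = fun s => brg69_d (0, 1) u (z.1, s) :=
    funext fun s => brg69_deriv_snd hd z.1 s
  rw [e1, e2, brg69_deriv_fst hd1, brg69_deriv_snd hd2]

/-- the source that belongs to `u`. -/
noncomputable def brg69_src (u : ℝ × ℝ → ℝ) : ℝ × ℝ → ℝ := fun z => -C0468.lap2 u z

theorem brg69_src_eq {u : ℝ × ℝ → ℝ} (hu : ContDiff ℝ ((⊤ : ℕ∞) : WithTop ℕ∞) u) :
    brg69_src u = fun z =>
      -(brg69_d (1, 0) (brg69_d (1, 0) u) z + brg69_d (0, 1) (brg69_d (0, 1) u) z) :=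
  funext fun z => by rw [brg69_src, brg69_lap2_eq hu]

theorem brg69_src_contDiff {u : ℝ × ℝ → ℝ} (hu : ContDiff ℝ ((⊤ : ℕ∞) : WithTop ℕ∞) u) :
    ContDiff ℝ ((⊤ : ℕ∞) : WithTop ℕ∞) (brg69_src u) := by
  rw [brg69_src_eq hu]
  exact ((brg69_d_contDiff (brg69_d_contDiff hu _) _).add
    (brg69_d_contDiff (brg69_d_contDiff hu _) _)).neg

theorem brg69_src_tsupport {u : ℝ × ℝ → ℝ} (hu : ContDiff ℝ ((⊤ : ℕ∞) : WithTop ℕ∞) u) :
    tsupport (brg69_src u) ⊆ tsupport u := by
  apply closure_minimal _ (isClosed_tsupport u)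
  intro z hz
  rw [Function.mem_support, brg69_src_eq hu] at hz
  by_cases h1 : brg69_d (1, 0) (brg69_d (1, 0) u) z = 0
  · have h2 : brg69_d (0, 1) (brg69_d (0, 1) u) z ≠ 0 := by
      intro h2; apply hz; simp [h1, h2]
    exact brg69_d_tsupport _ _ (brg69_d_tsupport _ _ (subset_tsupport _ h2))
  · exact brg69_d_tsupport _ _ (brg69_d_tsupport _ _ (subset_tsupport _ h1))

/-- **The pair.** Every clause that `AtFlatGFF` / the frozen S0540 asks of `(φ, u)`. -/
theorem brg69_pair {D : Set (ℝ × ℝ)} (hD : IsOpen D) {u : ℝ × ℝ → ℝ}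
    (hu : ContDiff ℝ ((⊤ : ℕ∞) : WithTop ℕ∞) u) (huc : HasCompactSupport u)
    (huD : tsupport u ⊆ D) :
    ContDiff ℝ ((⊤ : ℕ∞) : WithTop ℕ∞) (brg69_src u) ∧ HasCompactSupport (brg69_src u) ∧
      tsupport (brg69_src u) ⊆ D ∧ ContDiffOn ℝ 2 u D ∧ ContinuousOn u (closure D) ∧
      (∀ z ∈ frontier D, u z = 0) ∧ (∀ z ∈ D, -C0468.lap2 u z = brg69_src u z) := by
  refine ⟨brg69_src_contDiff hu, huc.of_isClosed_subset (isClosed_tsupport _) (brg69_src_tsupport hu),
    (brg69_src_tsupport hu).trans huD, (hu.of_le (WithTop.coe_le_coe.2 le_top)).contDiffOn,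
    hu.continuous.continuousOn, ?_, fun z _ => rfl⟩
  intro z hz
  rw [hD.frontier_eq] at hz
  exact image_eq_zero_of_notMem_tsupport (fun h => hz.2 (huD h))

theorem brg69_parts {u : ℝ × ℝ → ℝ} (hu : ContDiff ℝ ((⊤ : ℕ∞) : WithTop ℕ∞) u)
    (huc : HasCompactSupport u) (v : ℝ × ℝ) :
    ∫ z, u z * brg69_d v (brg69_d v u) z = -∫ z, (brg69_d v u z) ^ 2 := by
  have hdu := brg69_d_contDiff hu v
  have hddu := brg69_d_contDiff hdu v
  have hcd : HasCompactSupport (brg69_d v u) :=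
    huc.of_isClosed_subset (isClosed_tsupport _) (brg69_d_tsupport u v)
  have key := integral_mul_fderiv_eq_neg_fderiv_mul_of_integrable (μ := (volume : Measure (ℝ × ℝ)))
    (f := u) (g := brg69_d v u) (v := v)
    ((hdu.continuous.mul hdu.continuous).integrable_of_hasCompactSupport hcd.mul_left)
    ((hu.continuous.mul hddu.continuous).integrable_of_hasCompactSupport huc.mul_right)
    ((hu.continuous.mul hdu.continuous).integrable_of_hasCompactSupport huc.mul_right)
    (fun x _ => (hu.differentiable (by simp)) x)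
    (fun x _ => (hdu.differentiable (by simp)) x)
  calc ∫ z, u z * brg69_d v (brg69_d v u) z = -∫ z, fderiv ℝ u z v * brg69_d v u z := key
    _ = -∫ z, (brg69_d v u z) ^ 2 := by
        congr 1
        apply integral_congr_ae
        filter_upwards with z
        simp only [brg69_d]; ring

/-- **Dirichlet energy.** -/
theorem brg69_energy {D : Set (ℝ × ℝ)} {u : ℝ × ℝ → ℝ}
    (hu : ContDiff ℝ ((⊤ : ℕ∞) : WithTop ℕ∞) u) (huc : HasCompactSupport u)
    (huD : tsupport u ⊆ D) :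
    ∫ z in D, brg69_src u z * u z =
      ∫ z, ((brg69_d (1, 0) u z) ^ 2 + (brg69_d (0, 1) u z) ^ 2) := by
  have hd1 := brg69_d_contDiff hu (1, 0)
  have hd2 := brg69_d_contDiff hu (0, 1)
  have hdd1 := brg69_d_contDiff hd1 (1, 0)
  have hdd2 := brg69_d_contDiff hd2 (0, 1)
  have hc1 : HasCompactSupport (brg69_d (1, 0) u) :=
    huc.of_isClosed_subset (isClosed_tsupport _) (brg69_d_tsupport u _)
  have hc2 : HasCompactSupport (brg69_d (0, 1) u) :=
    huc.of_isClosed_subset (isClosed_tsupport _) (brg69_d_tsupport u _)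
  rw [setIntegral_eq_integral_of_forall_compl_eq_zero (fun z hz => by
    rw [image_eq_zero_of_notMem_tsupport (f := u) (fun h => hz (huD h)), mul_zero])]
  have i1 : Integrable (fun z => u z * brg69_d (1, 0) (brg69_d (1, 0) u) z) :=
    (hu.continuous.mul hdd1.continuous).integrable_of_hasCompactSupport huc.mul_right
  have i2 : Integrable (fun z => u z * brg69_d (0, 1) (brg69_d (0, 1) u) z) :=
    (hu.continuous.mul hdd2.continuous).integrable_of_hasCompactSupport huc.mul_right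
  have j1 : Integrable (fun z => (brg69_d (1, 0) u z) ^ 2) :=
    (hd1.continuous.pow 2).integrable_of_hasCompactSupport (by
      have := hc1.mul_left (f := brg69_d (1, 0) u)
      simpa [pow_two] using this)
  have j2 : Integrable (fun z => (brg69_d (0, 1) u z) ^ 2) :=
    (hd2.continuous.pow 2).integrable_of_hasCompactSupport (by
      have := hc2.mul_left (f := brg69_d (0, 1) u)
      simpa [pow_two] using this)
  calc ∫ z, brg69_src u z * u z
      = ∫ z, (-(u z * brg69_d (1, 0) (brg69_d (1, 0) u) z) +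
          -(u z * brg69_d (0, 1) (brg69_d (0, 1) u) z)) := by
        apply integral_congr_ae
        filter_upwards with z
        rw [brg69_src_eq hu]; ring
    _ = -(∫ z, u z * brg69_d (1, 0) (brg69_d (1, 0) u) z) +
          -(∫ z, u z * brg69_d (0, 1) (brg69_d (0, 1) u) z) := by
        have := integral_add i1.neg i2.neg
        simp only [Pi.neg_apply] at this
        rw [this, integral_neg, integral_neg]
    _ = (∫ z, (brg69_d (1, 0) u z) ^ 2) + ∫ z, (brg69_d (0, 1) u z) ^ 2 := by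
        rw [brg69_parts hu huc, brg69_parts hu huc, neg_neg, neg_neg]
    _ = _ := (integral_add j1 j2).symm

/-- the Dirichlet energy of `u`. -/
noncomputable def brg69_dir (u : ℝ × ℝ → ℝ) : ℝ :=
  ∫ z, ((brg69_d (1, 0) u z) ^ 2 + (brg69_d (0, 1) u z) ^ 2)

/-- **How the bridge uses `AtFlatGFF`.** -/
theorem brg69_flat_use {t v : ℝ} (h : AtFlatGFF t v) {D : Set (ℝ × ℝ)} (hDo : IsOpen D)
    (hDb : Bornology.IsBounded D)
    (hDj : ∃ γ : Circle → ℝ × ℝ, Continuous γ ∧ Function.Injective γ ∧ Set.range γ = frontier D)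
    {δ : ℕ → ℝ} {F : ℕ → Finset (ℤ × ℤ)} (happ : C0468.IsAdmissibleApprox D δ F)
    {u : ℝ × ℝ → ℝ} (hu : ContDiff ℝ ((⊤ : ℕ∞) : WithTop ℕ∞) u) (huc : HasCompactSupport u)
    (huD : tsupport u ⊆ D) (k : ℕ) :
    Tendsto (fun n => C0468.atExpect t (δ n) (F n) (brg69_src u) (fun s => s ^ k)) atTop
      (𝓝 (tmmWick (v * brg69_dir u) k)) := by
  obtain ⟨p1, p2, p3, p4, p5, p6, p7⟩ := brg69_pair hDo hu huc huD
  have := h D hDo hDb hDj δ F happ (brg69_src u) p1 p2 p3 u p4 p5 p6 p7 k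
  rwa [brg69_energy hu huc huD] at this

end Claimed.Agent.R292
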