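import Claimed.Agent.R292.Bridge.Lsm149

/-!
# Row 292 (S0540), unit BRIDGE, Bridge/Ratio243 : LEMMA M (monotone ratios) AND THE BC-CHEBYSHEV INEQUALITY      (pen helper243; prefix `brg243_`; 0 sorry)

Two exact tools named in the header of `Exit/Bridge.lean`, in the kernel.  THIS FILE PROVES NEITHER CONTRACT OF `Exit/Bridge.lean`.

Sec. 1.  `Z r := S.Z c A (brl149_lift b U r)` = the partition function with the part `U` of the boundary raised by `r`.  For every `m ≥ 0`:
* `brg243_rise`          `r₁ + 2 m ≤ r₂  →  Z r₁ * Z r₂ ≤ Z (r₁ + 2 m) * Z (r₂ - 2 m)`.  THIS IS `brc149_rise_gen` OF helper149 (`Bridge/Lsm149`, Sec. 7), cited; kept under this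
                         name only because the name was landed before I saw the twin;
* **`brg243_four`**      `z ≤ z'  →  Z (z' + 2 m) * Z z ≤ Z z' * Z (z + 2 m)`;
* **`brg243_ratio`**     (LEMMA M)  `z ≤ z'`, `0 < Z z`, `0 < Z z'`  →  `Z (z' + 2 m) / Z z' ≤ Z (z + 2 m) / Z z`: the ratio is non-increasing in `z`;
* **`brg243_superadd`**  `Z 0 * Z (2 m + 2 n) ≤ Z (2 m) * Z (2 n)`: the cost `- log (Z r / Z 0)` of a rise is super-additive.

Sec. 2.  ABSTRACT two-slab form (no model).  `X` = the mid rows, `w ξ` = the partition function of a half slab between a flat wall and `ξ`, `σ ξ = 2 k - ξ`;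
then `Z(0|2k) = ∑ w ξ * w (σ ξ)` and `Z(0|0) = ∑ w ξ ^ 2` (Hellinger identity of 149 and 9; the decomposition itself is NOT formalised here).  `S` = any observable with `S (σ ξ) = a - S ξ`.
* **`brg243_bc_chebyshev`**   `∑ w ξ * w (σ ξ) ≤ exp (-(θ a / 2)) * ∑ w ξ ^ 2 * exp (θ S ξ)` for every real `θ`      (step (1) of 27's road of 22:30Z, (L2) of 243);
* **`brg243_bc_gauss`**       if the Laplace transform at `θ = a / (2 V)` is at most the Gaussian one of variance `V`, then `∑ w ξ * w (σ ξ) ≤ exp (-(a ^ 2 / (8 V))) * ∑ w ξ ^ 2`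
                              (sharp for the Gaussian free field: `S` = sum of the mid row of a slab `2N × M`, `V = M σ² N / 2`, `a = 2 k M` give `k² M / (σ² N)`).

Sec. 3 (appended 23:38Z).  Three more exact steps of the notes, abstract or from Sec. 1.
* `brg243_even_anti`, `brg243_even_max`   if `Z (-r) = Z r` at the levels used, then `Z (2 n) ≤ Z (2 m)` for `0 ≤ m ≤ n`; in particular `Z (2 n) ≤ Z 0`;
* `brg243_cosh`          `cosh (x + z) * cosh (y + z) ≤ cosh (x + y + z) * cosh z` for `x, y ≥ 0` (the lattice condition survives the weight `∏ cosh (θ a_C)`: step (3) of 27's road);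
* `brg243_jensen`, **`brg243_tilt_mean`**   a-priori mean under a tilt (step (5) of 27's road; Jensen + Cauchy-Schwarz):
                         `E_θ Y ≤ (log E exp (2 θ X) / 2 + log E exp (2 ε Y) / 2 - log E exp (θ X)) / ε` for every `ε > 0` (unnormalised finite sums).
* **`brg243_compare`**, `brg243_compare_ratio`   (appended 23:43Z) Lemma M with two different walls: if `b = b'` on `U`, `b ≤ b'` off `U` and `r ≥ 0`, then
                         `Z (b raised by r on U) * Z b' ≤ Z b * Z (b' raised by r on U)`: the price of raising `U` against a rough wall is at least the price against any HIGHER wall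
                         (e.g. the flat wall at its maximum).  This is the inequality behind (L3) of the notes: it loses the oscillation of the row.
-/

set_option autoImplicit false

namespace Claimed.Agent.R292

variable {V : Type}

/-! ## 1. Lemma M -/

/-- (T2) with an arbitrary even step: `brc149_rise_gen` of helper149, cited. -/
theorem brg243_rise {c : ℝ} (hc : 1 ≤ c) (S : Mdl231Sys V) (A : Finset V)
    (hfin : ∀ b, {K | S.Adm A b K}.Finite) (b : V → ℤ) (U : Set V) {r₁ r₂ m : ℤ} (hm : 0 ≤ m)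
    (hr : r₁ + 2 * m ≤ r₂) :
    S.Z c A (brl149_lift b U r₁) * S.Z c A (brl149_lift b U r₂) ≤
      S.Z c A (brl149_lift b U (r₁ + 2 * m)) * S.Z c A (brl149_lift b U (r₂ - 2 * m)) := by
  exact brc149_rise_gen hc S A hfin b U hm hr

/-- the four-point form of Lemma M. -/
theorem brg243_four {c : ℝ} (hc : 1 ≤ c) (S : Mdl231Sys V) (A : Finset V)
    (hfin : ∀ b, {K | S.Adm A b K}.Finite) (b : V → ℤ) (U : Set V) {z z' m : ℤ} (hm : 0 ≤ m)
    (hz : z ≤ z') :
    S.Z c A (brl149_lift b U (z' + 2 * m)) * S.Z c A (brl149_lift b U z) ≤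
      S.Z c A (brl149_lift b U z') * S.Z c A (brl149_lift b U (z + 2 * m)) := by
  have h := brg243_rise hc S A hfin b U (r₁ := z) (r₂ := z' + 2 * m) hm (by linarith)
  have e : z' + 2 * m - 2 * m = z' := by ring
  rw [e] at h
  linarith

/-- **LEMMA M**: the ratio `Z (z + 2 m) / Z z` is non-increasing in `z`. -/
theorem brg243_ratio {c : ℝ} (hc : 1 ≤ c) (S : Mdl231Sys V) (A : Finset V)
    (hfin : ∀ b, {K | S.Adm A b K}.Finite) (b : V → ℤ) (U : Set V) {z z' m : ℤ} (hm : 0 ≤ m)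
    (hz : z ≤ z') (h0 : 0 < S.Z c A (brl149_lift b U z)) (h0' : 0 < S.Z c A (brl149_lift b U z')) :
    S.Z c A (brl149_lift b U (z' + 2 * m)) / S.Z c A (brl149_lift b U z') ≤
      S.Z c A (brl149_lift b U (z + 2 * m)) / S.Z c A (brl149_lift b U z) := by
  rw [div_le_div_iff₀ h0' h0]
  have h := brg243_four hc S A hfin b U hm hz
  linarith

/-- the cost of a rise is super-additive. -/
theorem brg243_superadd {c : ℝ} (hc : 1 ≤ c) (S : Mdl231Sys V) (A : Finset V)
    (hfin : ∀ b, {K | S.Adm A b K}.Finite) (b : V → ℤ) (U : Set V) {m n : ℤ} (hm : 0 ≤ m) (hn : 0 ≤ n) :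
    S.Z c A (brl149_lift b U 0) * S.Z c A (brl149_lift b U (2 * m + 2 * n)) ≤
      S.Z c A (brl149_lift b U (2 * m)) * S.Z c A (brl149_lift b U (2 * n)) := by
  have h := brg243_rise hc S A hfin b U (r₁ := 0) (r₂ := 2 * m + 2 * n) hm (by linarith)
  have e1 : (0 : ℤ) + 2 * m = 2 * m := by ring
  have e2 : 2 * m + 2 * n - 2 * m = 2 * n := by ring
  rw [e1, e2] at h
  exact h

/-! ## 2. The BC-Chebyshev inequality, abstract two-slab form -/

/-- **BC-Chebyshev.** -/
theorem brg243_bc_chebyshev {X : Type*} [Fintype X] (w S : X → ℝ) (σ : X ≃ X) (a θ : ℝ)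
    (hS : ∀ ξ, S (σ ξ) = a - S ξ) :
    ∑ ξ, w ξ * w (σ ξ) ≤ Real.exp (-(θ * a / 2)) * ∑ ξ, w ξ ^ 2 * Real.exp (θ * S ξ) := by
  set g : X → ℝ := fun ξ => w ξ * Real.exp (θ * S ξ / 2) with hg
  have hsq : ∀ ξ, g ξ ^ 2 = w ξ ^ 2 * Real.exp (θ * S ξ) := by
    intro ξ
    simp only [hg]
    rw [mul_pow, ← Real.exp_nat_mul]
    congr 2
    push_cast
    ring
  have hprod : ∀ ξ, w ξ * w (σ ξ) = Real.exp (-(θ * a / 2)) * (g ξ * g (σ ξ)) := by
    intro ξ
    simp only [hg]
    have e : Real.exp (-(θ * a / 2)) * (Real.exp (θ * S ξ / 2) * Real.exp (θ * S (σ ξ) / 2)) = 1 := by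
      rw [← Real.exp_add, ← Real.exp_add, hS ξ]
      have : -(θ * a / 2) + (θ * S ξ / 2 + θ * (a - S ξ) / 2) = 0 := by ring
      rw [this, Real.exp_zero]
    calc w ξ * w (σ ξ) = w ξ * w (σ ξ) * 1 := by ring
      _ = w ξ * w (σ ξ) *
          (Real.exp (-(θ * a / 2)) * (Real.exp (θ * S ξ / 2) * Real.exp (θ * S (σ ξ) / 2))) := by rw [e]
      _ = _ := by ring
  have hsum : ∑ ξ, g ξ * g (σ ξ) ≤ ∑ ξ, g ξ ^ 2 := by
    have h1 : ∑ ξ, g (σ ξ) ^ 2 = ∑ ξ, g ξ ^ 2 := Equiv.sum_comp σ fun ξ => g ξ ^ 2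
    have h2 : ∑ ξ, g ξ * g (σ ξ) ≤ ∑ ξ, (g ξ ^ 2 + g (σ ξ) ^ 2) / 2 :=
      Finset.sum_le_sum fun ξ _ => by nlinarith [sq_nonneg (g ξ - g (σ ξ))]
    have h3 : ∑ ξ, (g ξ ^ 2 + g (σ ξ) ^ 2) / 2 = ∑ ξ, g ξ ^ 2 := by
      rw [← Finset.sum_div, Finset.sum_add_distrib, h1]
      ring
    linarith
  calc ∑ ξ, w ξ * w (σ ξ) = Real.exp (-(θ * a / 2)) * ∑ ξ, g ξ * g (σ ξ) := by
        rw [Finset.mul_sum]
        exact Finset.sum_congr rfl fun ξ _ => hprod ξ
    _ ≤ Real.exp (-(θ * a / 2)) * ∑ ξ, g ξ ^ 2 :=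
        mul_le_mul_of_nonneg_left hsum (Real.exp_pos _).le
    _ = _ := by
        congr 1
        exact Finset.sum_congr rfl fun ξ _ => hsq ξ

/-- the Gaussian optimum of `brg243_bc_chebyshev`. -/
theorem brg243_bc_gauss {X : Type*} [Fintype X] (w S : X → ℝ) (σ : X ≃ X) (a V : ℝ) (hV : 0 < V)
    (hS : ∀ ξ, S (σ ξ) = a - S ξ)
    (hL : ∑ ξ, w ξ ^ 2 * Real.exp (a / (2 * V) * S ξ) ≤
      Real.exp (V * (a / (2 * V)) ^ 2 / 2) * ∑ ξ, w ξ ^ 2) :
    ∑ ξ, w ξ * w (σ ξ) ≤ Real.exp (-(a ^ 2 / (8 * V))) * ∑ ξ, w ξ ^ 2 := by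
  have h := brg243_bc_chebyshev w S σ a (a / (2 * V)) hS
  have e : Real.exp (-(a / (2 * V) * a / 2)) * Real.exp (V * (a / (2 * V)) ^ 2 / 2) =
      Real.exp (-(a ^ 2 / (8 * V))) := by
    rw [← Real.exp_add]
    congr 1
    field_simp
    ring
  calc ∑ ξ, w ξ * w (σ ξ)
      ≤ Real.exp (-(a / (2 * V) * a / 2)) * ∑ ξ, w ξ ^ 2 * Real.exp (a / (2 * V) * S ξ) := h
    _ ≤ Real.exp (-(a / (2 * V) * a / 2)) *
        (Real.exp (V * (a / (2 * V)) ^ 2 / 2) * ∑ ξ, w ξ ^ 2) :=
        mul_le_mul_of_nonneg_left hL (Real.exp_pos _).le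
    _ = _ := by rw [← mul_assoc, e]

/-! ## 3. Appendix: evenness, the `cosh` lattice condition, the mean under a tilt -/

/-- an even profile of rises is non-increasing on the nonnegative side. -/
theorem brg243_even_anti {c : ℝ} (hc : 1 ≤ c) (S : Mdl231Sys V) (A : Finset V)
    (hfin : ∀ b, {K | S.Adm A b K}.Finite) (b : V → ℤ) (U : Set V) {m n : ℤ} (hm : 0 ≤ m) (hmn : m ≤ n)
    (hen : S.Z c A (brl149_lift b U (-(2 * n))) = S.Z c A (brl149_lift b U (2 * n)))
    (hem : S.Z c A (brl149_lift b U (-(2 * m))) = S.Z c A (brl149_lift b U (2 * m))) :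
    S.Z c A (brl149_lift b U (2 * n)) ≤ S.Z c A (brl149_lift b U (2 * m)) := by
  have hc0 : (0 : ℝ) ≤ c := by linarith
  have h := brg243_rise hc S A hfin b U (r₁ := -(2 * n)) (r₂ := 2 * n) (m := n - m) (by linarith)
    (by linarith)
  have e1 : -(2 * n) + 2 * (n - m) = -(2 * m) := by ring
  have e2 : 2 * n - 2 * (n - m) = 2 * m := by ring
  rw [e1, e2, hen, hem] at h
  have h0 := mdl231_Z_nonneg hc0 S A (brl149_lift b U (2 * n))
  have h1 := mdl231_Z_nonneg hc0 S A (brl149_lift b U (2 * m))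
  nlinarith

/-- an even profile of rises is maximal at `0`. -/
theorem brg243_even_max {c : ℝ} (hc : 1 ≤ c) (S : Mdl231Sys V) (A : Finset V)
    (hfin : ∀ b, {K | S.Adm A b K}.Finite) (b : V → ℤ) (U : Set V) {n : ℤ} (hn : 0 ≤ n)
    (hen : S.Z c A (brl149_lift b U (-(2 * n))) = S.Z c A (brl149_lift b U (2 * n))) :
    S.Z c A (brl149_lift b U (2 * n)) ≤ S.Z c A (brl149_lift b U 0) := by
  have h := brg243_even_anti hc S A hfin b U (m := 0) (n := n) le_rfl hn hen (by simp)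
  simpa using h

/-- the lattice condition for the weight `cosh`. -/
theorem brg243_cosh {x y : ℝ} (hx : 0 ≤ x) (hy : 0 ≤ y) (z : ℝ) :
    Real.cosh (x + z) * Real.cosh (y + z) ≤ Real.cosh (x + y + z) * Real.cosh z := by
  have key : Real.cosh (x + y + z) * Real.cosh z - Real.cosh (x + z) * Real.cosh (y + z) =
      Real.sinh x * Real.sinh y := by
    have e : x + y + z = x + (y + z) := by ring
    rw [e, Real.cosh_add x (y + z), Real.cosh_add x z, Real.cosh_add y z, Real.sinh_add y z]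
    have hz := Real.cosh_sq z
    linear_combination (Real.sinh x * Real.sinh y) * hz
  have h1 : 0 ≤ Real.sinh x := Real.sinh_nonneg_iff.2 hx
  have h2 : 0 ≤ Real.sinh y := Real.sinh_nonneg_iff.2 hy
  nlinarith [mul_nonneg h1 h2]

/-- Jensen for `exp` on a finite probability space. -/
theorem brg243_jensen {Ω : Type*} [Fintype Ω] (p Y : Ω → ℝ) (hp : ∀ ω, 0 ≤ p ω) (h1 : ∑ ω, p ω = 1) :
    Real.exp (∑ ω, p ω * Y ω) ≤ ∑ ω, p ω * Real.exp (Y ω) := by
  have h := convexOn_exp.map_sum_le (t := Finset.univ) (w := p) (p := Y) (fun i _ => hp i) h1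
    (fun i _ => Set.mem_univ _)
  simpa [smul_eq_mul] using h

/-- **a-priori mean under a tilt.** -/
theorem brg243_tilt_mean {Ω : Type*} [Fintype Ω] (μ X Y : Ω → ℝ) (hμ : ∀ ω, 0 ≤ μ ω) (θ ε : ℝ) (hε : 0 < ε)
    (hpos : 0 < ∑ ω, μ ω * Real.exp (θ * X ω)) :
    (∑ ω, μ ω * Real.exp (θ * X ω) * Y ω) / ∑ ω, μ ω * Real.exp (θ * X ω) ≤
      (Real.log (∑ ω, μ ω * Real.exp (2 * θ * X ω)) / 2 + Real.log (∑ ω, μ ω * Real.exp (2 * ε * Y ω)) / 2 -
        Real.log (∑ ω, μ ω * Real.exp (θ * X ω))) / ε := by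
  set A := ∑ ω, μ ω * Real.exp (θ * X ω) with hA
  set p : Ω → ℝ := fun ω => μ ω * Real.exp (θ * X ω) / A with hpdef
  have hp0 : ∀ ω, 0 ≤ p ω := fun ω => div_nonneg (mul_nonneg (hμ ω) (Real.exp_pos _).le) hpos.le
  have hp1 : ∑ ω, p ω = 1 := by
    simp only [hpdef]
    rw [← Finset.sum_div, div_self hpos.ne']
  -- Jensen
  have hJ := brg243_jensen p (fun ω => ε * Y ω) hp0 hp1
  set B := ∑ ω, μ ω * Real.exp (θ * X ω) * Real.exp (ε * Y ω) with hB
  have hJr : ∑ ω, p ω * Real.exp (ε * Y ω) = B / A := by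
    simp only [hpdef, hB]
    rw [Finset.sum_div]
    exact Finset.sum_congr rfl fun ω _ => by ring
  have hJl : ∑ ω, p ω * (ε * Y ω) = ε * ((∑ ω, μ ω * Real.exp (θ * X ω) * Y ω) / A) := by
    simp only [hpdef]
    rw [Finset.sum_div, Finset.mul_sum]
    exact Finset.sum_congr rfl fun ω _ => by ring
  rw [hJr, hJl] at hJ
  have hBpos : 0 < B := by
    have : 0 < B / A := lt_of_lt_of_le (Real.exp_pos _) hJ
    exact (div_pos_iff_of_pos_right hpos).1 this
  -- Cauchy-Schwarz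
  set C := ∑ ω, μ ω * Real.exp (2 * θ * X ω) with hC
  set D := ∑ ω, μ ω * Real.exp (2 * ε * Y ω) with hD
  have hCS : B ^ 2 ≤ C * D := by
    have h := Finset.sum_mul_sq_le_sq_mul_sq Finset.univ
      (fun ω => Real.sqrt (μ ω) * Real.exp (θ * X ω)) (fun ω => Real.sqrt (μ ω) * Real.exp (ε * Y ω))
    have e1 : ∑ ω, Real.sqrt (μ ω) * Real.exp (θ * X ω) * (Real.sqrt (μ ω) * Real.exp (ε * Y ω)) = B := by
      simp only [hB]
      refine Finset.sum_congr rfl fun ω _ => ?_
      have := Real.mul_self_sqrt (hμ ω)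
      calc Real.sqrt (μ ω) * Real.exp (θ * X ω) * (Real.sqrt (μ ω) * Real.exp (ε * Y ω))
          = (Real.sqrt (μ ω) * Real.sqrt (μ ω)) * Real.exp (θ * X ω) * Real.exp (ε * Y ω) := by ring
        _ = _ := by rw [this]
    have e2 : ∑ ω, (Real.sqrt (μ ω) * Real.exp (θ * X ω)) ^ 2 = C := by
      simp only [hC]
      refine Finset.sum_congr rfl fun ω _ => ?_
      rw [mul_pow, Real.sq_sqrt (hμ ω), ← Real.exp_nat_mul]
      congr 2
      push_cast
      ring
    have e3 : ∑ ω, (Real.sqrt (μ ω) * Real.exp (ε * Y ω)) ^ 2 = D := by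
      simp only [hD]
      refine Finset.sum_congr rfl fun ω _ => ?_
      rw [mul_pow, Real.sq_sqrt (hμ ω), ← Real.exp_nat_mul]
      congr 2
      push_cast
      ring
    rw [e1, e2, e3] at h
    exact h
  have hCD : 0 < C * D := lt_of_lt_of_le (by positivity) hCS
  have hC0 : 0 ≤ C := Finset.sum_nonneg fun ω _ => mul_nonneg (hμ ω) (Real.exp_pos _).le
  have hD0 : 0 ≤ D := Finset.sum_nonneg fun ω _ => mul_nonneg (hμ ω) (Real.exp_pos _).le
  have hCpos : 0 < C := by
    rcases hC0.lt_or_eq with h | h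
    · exact h
    · rw [← h, zero_mul] at hCD; exact absurd hCD (lt_irrefl _)
  have hDpos : 0 < D := by
    rcases hD0.lt_or_eq with h | h
    · exact h
    · rw [← h, mul_zero] at hCD; exact absurd hCD (lt_irrefl _)
  -- logarithms
  have hlogB : Real.log B ≤ Real.log C / 2 + Real.log D / 2 := by
    have h := Real.log_le_log (by positivity) hCS
    rw [Real.log_pow, Real.log_mul hCpos.ne' hDpos.ne'] at h
    push_cast at h
    linarith
  have hlogJ : ε * ((∑ ω, μ ω * Real.exp (θ * X ω) * Y ω) / A) ≤ Real.log B - Real.log A := by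
    have h := Real.log_le_log (Real.exp_pos _) hJ
    rw [Real.log_exp, Real.log_div hBpos.ne' hpos.ne'] at h
    exact h
  rw [le_div_iff₀ hε]
  linarith

/-- **Lemma M with two walls**: raising `U` against the wall `b` costs at least as much as against a higher wall `b'`. -/
theorem brg243_compare {c : ℝ} (hc : 1 ≤ c) (S : Mdl231Sys V) (A : Finset V)
    (hfin : ∀ b, {K | S.Adm A b K}.Finite) (b b' : V → ℤ) (U : Set V) {r : ℤ} (hr : 0 ≤ r)
    (hU : ∀ x ∈ U, b x = b' x) (hL : ∀ x, x ∉ U → b x ≤ b' x) :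
    S.Z c A (brl149_lift b U r) * S.Z c A b' ≤ S.Z c A b * S.Z c A (brl149_lift b' U r) := by
  have key := brl149_lsm hc S A hfin (brl149_lift b U r) b'
  have e1 : brl149_lift b U r ⊓ b' = b := by
    funext x
    simp only [Pi.inf_apply, brl149_lift]
    split_ifs with hx
    · rw [← hU x hx, inf_eq_right.2 (by linarith)]
    · rw [inf_eq_left.2 (hL x hx)]
  have e2 : brl149_lift b U r ⊔ b' = brl149_lift b' U r := by
    funext x
    simp only [Pi.sup_apply, brl149_lift]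
    split_ifs with hx
    · rw [← hU x hx, sup_eq_left.2 (by linarith)]
    · rw [sup_eq_right.2 (hL x hx)]
  rw [e1, e2] at key
  exact key

/-- the ratio form of `brg243_compare`. -/
theorem brg243_compare_ratio {c : ℝ} (hc : 1 ≤ c) (S : Mdl231Sys V) (A : Finset V)
    (hfin : ∀ b, {K | S.Adm A b K}.Finite) (b b' : V → ℤ) (U : Set V) {r : ℤ} (hr : 0 ≤ r)
    (hU : ∀ x ∈ U, b x = b' x) (hL : ∀ x, x ∉ U → b x ≤ b' x)
    (h0 : 0 < S.Z c A b) (h0' : 0 < S.Z c A b') :
    S.Z c A (brl149_lift b U r) / S.Z c A b ≤ S.Z c A (brl149_lift b' U r) / S.Z c A b' := by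
  rw [div_le_div_iff₀ h0 h0']
  have h := brg243_compare hc S A hfin b b' U hr hU hL
  linarith

end Claimed.Agent.R292
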