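import Claimed.Agent.R292.Defs.Top

/-!
# Row 292 (S0540), Bridge/Rect89 : RECTANGLES AND 45-DEGREE DIAMONDS AS JORDAN DOMAINS, WITH EXPLICIT ADMISSIBLE APPROXIMATIONS
(owner helper89, post of BR-1 of 243; prefix `atb89`)

Method: a GAUGE is a continuous, positively homogeneous, positive function `g` on the plane.  `atb89Reg g c = {x | g (x - c) < 1}`
is a bounded Jordan domain, with the explicit curve `z ↦ c + z / g z` on the circle.  A staircase region which is a union of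
CONCENTRIC lattice rectangles is the region of the MINIMUM of the rectangle gauges; so the Aztec-type diamonds (centre a vertex, a face
or the midpoint of an edge) are covered.  (A 45-degree rectangle with unequal sides is NOT star-shaped at lattice scale: not covered.)
-/

set_option autoImplicit false

namespace Claimed.Agent.R292

open Filter Topology Set
open Claims

/-- a gauge of the plane. -/
def Atb89Gauge (g : ℝ × ℝ → ℝ) : Prop :=
  Continuous g ∧ (∀ (t : ℝ) (x : ℝ × ℝ), 0 ≤ t → g (t • x) = t * g x) ∧ ∀ x : ℝ × ℝ, x ≠ 0 → 0 < g x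

/-- the region of a gauge with centre `c`. -/
def atb89Reg (g : ℝ × ℝ → ℝ) (c : ℝ × ℝ) : Set (ℝ × ℝ) := {x | g (x - c) < 1}

/-- the point of the plane under a point of the circle. -/
def atb89Pt (z : Circle) : ℝ × ℝ := ((z : ℂ).re, (z : ℂ).im)

/-- the boundary curve of the region of a gauge. -/
noncomputable def atb89Curve (g : ℝ × ℝ → ℝ) (c : ℝ × ℝ) (z : Circle) : ℝ × ℝ :=
  c + (g (atb89Pt z))⁻¹ • atb89Pt z

theorem atb89_defs_cite : True := by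
  have := @Atb89Gauge.eq_1
  have := @atb89Reg.eq_1
  have := @atb89Pt.eq_1
  have := @atb89Curve.eq_1
  trivial

theorem atb89_zero {g : ℝ × ℝ → ℝ} (hg : Atb89Gauge g) : g 0 = 0 := by
  have := hg.2.1 0 0 le_rfl
  simpa using this

theorem atb89_nonneg {g : ℝ × ℝ → ℝ} (hg : Atb89Gauge g) (x : ℝ × ℝ) : 0 ≤ g x := by
  by_cases hx : x = 0
  · rw [hx, atb89_zero hg]
  · exact (hg.2.2 x hx).le

theorem atb89_lower {g : ℝ × ℝ → ℝ} (hg : Atb89Gauge g) : ∃ m : ℝ, 0 < m ∧ ∀ x, m * ‖x‖ ≤ g x := by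
  have hne : (Metric.sphere (0 : ℝ × ℝ) 1).Nonempty := ⟨((1 : ℝ), (0 : ℝ)), by simp [Prod.norm_def]⟩
  obtain ⟨x₀, hx₀, hmin⟩ := (isCompact_sphere (0 : ℝ × ℝ) 1).exists_isMinOn hne hg.1.continuousOn
  have hx₀n : ‖x₀‖ = 1 := by simpa using hx₀
  have hx₀0 : x₀ ≠ 0 := by
    intro h; rw [h] at hx₀n; simp at hx₀n
  refine ⟨g x₀, hg.2.2 x₀ hx₀0, fun x => ?_⟩
  by_cases hx : x = 0
  · rw [hx, atb89_zero hg]; simp
  · have hn : 0 < ‖x‖ := norm_pos_iff.2 hx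
    have h1 : ‖x‖⁻¹ • x ∈ Metric.sphere (0 : ℝ × ℝ) 1 := by
      simp [norm_smul, hn.ne']
    have h2 : g x₀ ≤ g (‖x‖⁻¹ • x) := hmin h1
    have h3 : g x = ‖x‖ * g (‖x‖⁻¹ • x) := by
      rw [← hg.2.1 _ _ hn.le, smul_smul, mul_inv_cancel₀ hn.ne', one_smul]
    rw [h3, mul_comm]
    exact mul_le_mul_of_nonneg_left h2 hn.le

theorem atb89_isOpen {g : ℝ × ℝ → ℝ} (hg : Atb89Gauge g) (c : ℝ × ℝ) : IsOpen (atb89Reg g c) :=
  isOpen_lt (hg.1.comp (continuous_id.sub continuous_const)) continuous_const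

theorem atb89_bounded {g : ℝ × ℝ → ℝ} (hg : Atb89Gauge g) (c : ℝ × ℝ) : Bornology.IsBounded (atb89Reg g c) := by
  obtain ⟨m, hm, hlow⟩ := atb89_lower hg
  refine (Metric.isBounded_ball (x := c) (r := m⁻¹)).subset fun x hx => ?_
  have h1 : m * ‖x - c‖ < 1 := lt_of_le_of_lt (hlow _) hx
  rw [Metric.mem_ball, dist_eq_norm, inv_eq_one_div, lt_div_iff₀ hm]
  linarith

theorem atb89_ray {g : ℝ × ℝ → ℝ} (hg : Atb89Gauge g) (c x : ℝ × ℝ) (t : ℝ) (ht : 0 ≤ t) :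
    g ((c + t • (x - c)) - c) = t * g (x - c) := by
  rw [add_sub_cancel_left, hg.2.1 _ _ ht]

theorem atb89_ray_tendsto (c x : ℝ × ℝ) (l : Filter ℝ) (hl : l ≤ 𝓝 1) :
    Tendsto (fun t : ℝ => c + t • (x - c)) l (𝓝 x) := by
  have h1 : Continuous (fun t : ℝ => c + t • (x - c)) := by fun_prop
  have h2 := (h1.tendsto 1).mono_left hl
  simpa using h2

theorem atb89_closure {g : ℝ × ℝ → ℝ} (hg : Atb89Gauge g) (c : ℝ × ℝ) :
    closure (atb89Reg g c) = {x | g (x - c) ≤ 1} := by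
  apply Subset.antisymm
  · apply closure_minimal
    · intro x hx; exact (show g (x - c) < 1 from hx).le
    · exact isClosed_le (hg.1.comp (continuous_id.sub continuous_const)) continuous_const
  · intro x hx
    have hx' : g (x - c) ≤ 1 := hx
    refine mem_closure_of_tendsto (atb89_ray_tendsto c x (𝓝[<] 1) nhdsWithin_le_nhds) ?_
    filter_upwards [Ioo_mem_nhdsLT (show (0 : ℝ) < 1 by norm_num)] with t ht
    show g ((c + t • (x - c)) - c) < 1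
    rw [atb89_ray hg c x t ht.1.le]
    nlinarith [ht.1, ht.2, atb89_nonneg hg (x - c)]

theorem atb89_interior {g : ℝ × ℝ → ℝ} (hg : Atb89Gauge g) (c : ℝ × ℝ) :
    interior {x | g (x - c) ≤ 1} = atb89Reg g c := by
  apply Subset.antisymm
  · intro x hx
    by_contra hcon
    have hx1 : 1 ≤ g (x - c) := not_lt.1 hcon
    have h1 : ∀ᶠ t in 𝓝[>] (1 : ℝ), c + t • (x - c) ∈ interior {x | g (x - c) ≤ 1} :=
      (atb89_ray_tendsto c x (𝓝[>] 1) nhdsWithin_le_nhds).eventually (isOpen_interior.mem_nhds hx)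
    obtain ⟨t, ht, ht1⟩ := (h1.and self_mem_nhdsWithin).exists
    have ht1' : (1 : ℝ) < t := ht1
    have h2' : c + t • (x - c) ∈ {x | g (x - c) ≤ 1} := interior_subset ht
    have h2 : g ((c + t • (x - c)) - c) ≤ 1 := h2'
    rw [atb89_ray hg c x t (by linarith)] at h2
    nlinarith
  · apply interior_maximal
    · intro x hx; exact (show g (x - c) < 1 from hx).le
    · exact atb89_isOpen hg c

theorem atb89_frontier {g : ℝ × ℝ → ℝ} (hg : Atb89Gauge g) (c : ℝ × ℝ) :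
    frontier (atb89Reg g c) = {x | g (x - c) = 1} := by
  rw [frontier, atb89_closure hg, (atb89_isOpen hg c).interior_eq]
  ext x
  constructor
  · rintro ⟨h1, h2⟩; exact le_antisymm h1 (not_lt.1 h2)
  · intro h
    have h' : g (x - c) = 1 := h
    exact ⟨h'.le, fun h2 => absurd (show g (x - c) < 1 from h2) (not_lt.2 h'.ge)⟩

theorem atb89_pt_sq (z : Circle) : (atb89Pt z).1 ^ 2 + (atb89Pt z).2 ^ 2 = 1 := by
  have h := Circle.normSq_coe z
  rw [Complex.normSq_apply] at h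
  simp only [atb89Pt]
  nlinarith

theorem atb89_pt_ne (z : Circle) : atb89Pt z ≠ 0 := by
  intro h
  have h1 := atb89_pt_sq z
  rw [h] at h1
  simp at h1

theorem atb89_pt_cont : Continuous atb89Pt := by
  have h : Continuous (fun z : Circle => (z : ℂ)) := continuous_subtype_val
  exact (Complex.continuous_re.comp h).prodMk (Complex.continuous_im.comp h)

theorem atb89_pt_inj : Function.Injective atb89Pt := by
  intro z w h
  apply Circle.ext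
  apply Complex.ext
  · exact congrArg Prod.fst h
  · exact congrArg Prod.snd h

theorem atb89_pt_surj (y : ℝ × ℝ) (hy : y.1 ^ 2 + y.2 ^ 2 = 1) : ∃ z : Circle, atb89Pt z = y := by
  refine ⟨⟨⟨y.1, y.2⟩, ?_⟩, rfl⟩
  show (⟨y.1, y.2⟩ : ℂ) ∈ Metric.sphere (0 : ℂ) 1
  rw [mem_sphere_zero_iff_norm, ← sq_eq_sq₀ (norm_nonneg _) zero_le_one, Complex.sq_norm, Complex.normSq_apply]
  simp only
  nlinarith

theorem atb89_curve_cont {g : ℝ × ℝ → ℝ} (hg : Atb89Gauge g) (c : ℝ × ℝ) : Continuous (atb89Curve g c) := by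
  have h1 : Continuous (fun z : Circle => g (atb89Pt z)) := hg.1.comp atb89_pt_cont
  have h2 : Continuous (fun z : Circle => (g (atb89Pt z))⁻¹) :=
    h1.inv₀ fun z => (hg.2.2 _ (atb89_pt_ne z)).ne'
  exact continuous_const.add (h2.smul atb89_pt_cont)

theorem atb89_curve_inj {g : ℝ × ℝ → ℝ} (hg : Atb89Gauge g) (c : ℝ × ℝ) : Function.Injective (atb89Curve g c) := by
  intro z w h
  apply atb89_pt_inj
  have h0 : (g (atb89Pt z))⁻¹ • atb89Pt z = (g (atb89Pt w))⁻¹ • atb89Pt w := add_left_cancel h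
  have hz := hg.2.2 _ (atb89_pt_ne z)
  have hw := hg.2.2 _ (atb89_pt_ne w)
  set a := (g (atb89Pt z))⁻¹ with ha
  set b := (g (atb89Pt w))⁻¹ with hb
  have ha0 : 0 < a := inv_pos.2 hz
  have hb0 : 0 < b := inv_pos.2 hw
  have h1 : a * (atb89Pt z).1 = b * (atb89Pt w).1 := congrArg Prod.fst h0
  have h2 : a * (atb89Pt z).2 = b * (atb89Pt w).2 := congrArg Prod.snd h0
  have hsz := atb89_pt_sq z
  have hsw := atb89_pt_sq w
  have hab : a ^ 2 = b ^ 2 := by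
    have e1 : a ^ 2 = (a * (atb89Pt z).1) ^ 2 + (a * (atb89Pt z).2) ^ 2 := by
      rw [mul_pow, mul_pow, ← mul_add, hsz, mul_one]
    have e2 : b ^ 2 = (b * (atb89Pt w).1) ^ 2 + (b * (atb89Pt w).2) ^ 2 := by
      rw [mul_pow, mul_pow, ← mul_add, hsw, mul_one]
    rw [e1, e2, h1, h2]
  have hab' : a = b := by
    have := (pow_left_inj₀ ha0.le hb0.le (by norm_num : (2 : ℕ) ≠ 0)).1 hab
    exact this
  rw [hab'] at h1 h2
  exact Prod.ext (mul_left_cancel₀ hb0.ne' h1) (mul_left_cancel₀ hb0.ne' h2)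

theorem atb89_curve_range {g : ℝ × ℝ → ℝ} (hg : Atb89Gauge g) (c : ℝ × ℝ) :
    Set.range (atb89Curve g c) = frontier (atb89Reg g c) := by
  rw [atb89_frontier hg]
  ext x
  constructor
  · rintro ⟨z, rfl⟩
    have hz := hg.2.2 _ (atb89_pt_ne z)
    show g (atb89Curve g c z - c) = 1
    rw [atb89Curve, add_sub_cancel_left, hg.2.1 _ _ (inv_pos.2 hz).le, inv_mul_cancel₀ hz.ne']
  · intro hx
    have hx1 : g (x - c) = 1 := hx
    set y := x - c with hy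
    have hy0 : y ≠ 0 := by
      intro h; rw [h, atb89_zero hg] at hx1; norm_num at hx1
    have hpos : 0 < y.1 ^ 2 + y.2 ^ 2 := by
      rcases (not_and_or.1 (fun h : y.1 = 0 ∧ y.2 = 0 => hy0 (Prod.ext h.1 h.2))) with h | h
      · have := sq_pos_of_ne_zero h; positivity
      · have := sq_pos_of_ne_zero h; positivity
    set e := Real.sqrt (y.1 ^ 2 + y.2 ^ 2) with he
    have he0 : 0 < e := Real.sqrt_pos.2 hpos
    have he2 : e ^ 2 = y.1 ^ 2 + y.2 ^ 2 := Real.sq_sqrt hpos.le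
    obtain ⟨z, hz⟩ := atb89_pt_surj (e⁻¹ • y) (by
      simp only [Prod.smul_fst, Prod.smul_snd, smul_eq_mul]
      rw [mul_pow, mul_pow, ← mul_add, ← he2, inv_pow, inv_mul_cancel₀ (by positivity)])
    refine ⟨z, ?_⟩
    rw [atb89Curve, hz, hg.2.1 _ _ (inv_pos.2 he0).le, hx1, mul_one, inv_inv, smul_smul,
      mul_inv_cancel₀ he0.ne', one_smul, hy]
    abel

/-- the region of a gauge is a Jordan domain in the sense of S0540. -/
theorem atb89_jordan {g : ℝ × ℝ → ℝ} (hg : Atb89Gauge g) (c : ℝ × ℝ) :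
    ∃ γ : Circle → ℝ × ℝ, Continuous γ ∧ Function.Injective γ ∧ Set.range γ = frontier (atb89Reg g c) :=
  ⟨atb89Curve g c, atb89_curve_cont hg c, atb89_curve_inj hg c, atb89_curve_range hg c⟩

theorem atb89_circle_lower {g : ℝ × ℝ → ℝ} (hg : Atb89Gauge g) : ∃ m : ℝ, 0 < m ∧ ∀ z : Circle, m ≤ g (atb89Pt z) := by
  obtain ⟨z₀, -, hmin⟩ := (isCompact_univ (X := Circle)).exists_isMinOn ⟨1, mem_univ _⟩
    (hg.1.comp atb89_pt_cont).continuousOn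
  exact ⟨g (atb89Pt z₀), hg.2.2 _ (atb89_pt_ne z₀), fun z => hmin (mem_univ z)⟩

/-- compact exhaustion. -/
theorem atb89_exhaust {g : ℝ × ℝ → ℝ} (hg : Atb89Gauge g) (c : ℝ × ℝ)
    (gs : ℕ → ℝ × ℝ → ℝ) (cs : ℕ → ℝ × ℝ) (hcs : Tendsto cs atTop (𝓝 c))
    (hcmp : ∀ ε : ℝ, 0 < ε → ∀ᶠ n in atTop, ∀ p, |gs n p - g p| ≤ ε * g p)
    (K : Set (ℝ × ℝ)) (hK : IsCompact K) (hKD : K ⊆ atb89Reg g c) :
    ∀ᶠ n in atTop, K ⊆ atb89Reg (gs n) (cs n) := by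
  have h1 : ∀ᶠ w : (ℝ × ℝ) × ℝ in 𝓝 (c, (0 : ℝ)), ∀ y ∈ K, g (y - w.1) * (1 + w.2) < 1 := by
    apply hK.eventually_forall_of_forall_eventually
    intro y hy
    have hc : Continuous (fun z : ((ℝ × ℝ) × ℝ) × (ℝ × ℝ) => g (z.2 - z.1.1) * (1 + z.1.2)) := by
      have := hg.1
      fun_prop
    have hlt : g (y - c) * (1 + 0) < 1 := by
      have : g (y - c) < 1 := hKD hy
      simpa using this
    exact (hc.tendsto ((c, (0 : ℝ)), y)).eventually (gt_mem_nhds hlt)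
  rw [nhds_prod_eq, eventually_prod_iff] at h1
  obtain ⟨pa, hpa, pb, hpb, H⟩ := h1
  obtain ⟨η, hη, hη0⟩ := ((hpb.filter_mono (nhdsWithin_le_nhds (s := Ioi (0 : ℝ)))).and self_mem_nhdsWithin).exists
  have hη0' : (0 : ℝ) < η := hη0
  filter_upwards [hcs.eventually hpa, hcmp η hη0'] with n hn1 hn2 y hy
  have h2 : g (y - cs n) * (1 + η) < 1 := H hn1 hη y hy
  have h3 := abs_le.1 (hn2 (y - cs n))
  show gs n (y - cs n) < 1
  nlinarith [h3.2]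

/-- uniform closeness of the curves. -/
theorem atb89_close {g : ℝ × ℝ → ℝ} (hg : Atb89Gauge g) (c : ℝ × ℝ)
    (gs : ℕ → ℝ × ℝ → ℝ) (cs : ℕ → ℝ × ℝ) (hcs : Tendsto cs atTop (𝓝 c))
    (hcmp : ∀ ε : ℝ, 0 < ε → ∀ᶠ n in atTop, ∀ p, |gs n p - g p| ≤ ε * g p)
    (ε : ℝ) (hε : 0 < ε) :
    ∀ᶠ n in atTop, ∀ z, ((atb89Curve (gs n) (cs n) z).1 - (atb89Curve g c z).1) ^ 2
      + ((atb89Curve (gs n) (cs n) z).2 - (atb89Curve g c z).2) ^ 2 < ε ^ 2 := by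
  obtain ⟨m, hm, hlow⟩ := atb89_circle_lower hg
  set η := min (1 / 2) (ε * m / 16) with hη
  have hη0 : 0 < η := lt_min (by norm_num) (by positivity)
  have hη1 : η ≤ 1 / 2 := min_le_left _ _
  have hη2 : η ≤ ε * m / 16 := min_le_right _ _
  have hc1 : ∀ᶠ n in atTop, dist (cs n) c < ε / 4 := hcs.eventually (Metric.ball_mem_nhds c (by positivity))
  filter_upwards [hc1, hcmp η hη0] with n hn1 hn2 z
  set p := atb89Pt z with hp
  have hsq := atb89_pt_sq z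
  rw [← hp] at hsq
  have hgp : m ≤ g p := hlow z
  have h3 := abs_le.1 (hn2 p)
  have hgs : g p / 2 ≤ gs n p := by nlinarith [h3.1]
  have hgs0 : 0 < gs n p := by linarith
  have hgp0 : 0 < g p := by linarith
  set lam := (gs n p)⁻¹ - (g p)⁻¹ with hlam
  have hlam1 : |lam| ≤ ε / 8 := by
    have e1 : lam = (g p - gs n p) / (g p * gs n p) := by
      rw [hlam]; field_simp
    rw [e1, abs_div, abs_of_pos (mul_pos hgp0 hgs0), div_le_iff₀ (mul_pos hgp0 hgs0), abs_sub_comm]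
    calc |gs n p - g p| ≤ η * g p := hn2 p
      _ ≤ (ε * m / 16) * g p := mul_le_mul_of_nonneg_right hη2 hgp0.le
      _ ≤ ε / 8 * (g p * gs n p) := by
          have : m / 2 ≤ gs n p := by linarith
          have h5 : ε * m / 16 ≤ ε / 8 * gs n p := by nlinarith
          nlinarith
  have hd : ‖cs n - c‖ < ε / 4 := by rwa [← dist_eq_norm]
  have hd1 : |(cs n).1 - c.1| < ε / 4 := lt_of_le_of_lt (norm_fst_le (cs n - c)) hd
  have hd2 : |(cs n).2 - c.2| < ε / 4 := lt_of_le_of_lt (norm_snd_le (cs n - c)) hd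
  have hp1 : |p.1| ≤ 1 := by
    rw [abs_le]; constructor <;> nlinarith [sq_nonneg p.2]
  have hp2 : |p.2| ≤ 1 := by
    rw [abs_le]; constructor <;> nlinarith [sq_nonneg p.1]
  have e1 : (atb89Curve (gs n) (cs n) z).1 - (atb89Curve g c z).1 = ((cs n).1 - c.1) + lam * p.1 := by
    simp only [atb89Curve, Prod.fst_add, Prod.smul_fst, smul_eq_mul, ← hp, hlam]; ring
  have e2 : (atb89Curve (gs n) (cs n) z).2 - (atb89Curve g c z).2 = ((cs n).2 - c.2) + lam * p.2 := by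
    simp only [atb89Curve, Prod.snd_add, Prod.smul_snd, smul_eq_mul, ← hp, hlam]; ring
  have b1 : |((cs n).1 - c.1) + lam * p.1| < ε / 2 := by
    have : |lam * p.1| ≤ ε / 8 := by
      rw [abs_mul]; calc |lam| * |p.1| ≤ ε / 8 * 1 := mul_le_mul hlam1 hp1 (abs_nonneg _) (by positivity)
        _ = ε / 8 := mul_one _
    calc _ ≤ |(cs n).1 - c.1| + |lam * p.1| := abs_add_le _ _
      _ < ε / 2 := by linarith
  have b2 : |((cs n).2 - c.2) + lam * p.2| < ε / 2 := by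
    have : |lam * p.2| ≤ ε / 8 := by
      rw [abs_mul]; calc |lam| * |p.2| ≤ ε / 8 * 1 := mul_le_mul hlam1 hp2 (abs_nonneg _) (by positivity)
        _ = ε / 8 := mul_one _
    calc _ ≤ |(cs n).2 - c.2| + |lam * p.2| := abs_add_le _ _
      _ < ε / 2 := by linarith
  rw [e1, e2]
  have s1 : (((cs n).1 - c.1) + lam * p.1) ^ 2 < (ε / 2) ^ 2 := sq_lt_sq' (by linarith [(abs_lt.1 b1).1]) (abs_lt.1 b1).2
  have s2 : (((cs n).2 - c.2) + lam * p.2) ^ 2 < (ε / 2) ^ 2 := sq_lt_sq' (by linarith [(abs_lt.1 b2).1]) (abs_lt.1 b2).2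
  nlinarith

/-- **THE GENERAL APPROXIMATION THEOREM**: regions of gauges `gs n → g` (relative error → 0) with centres `cs n → c`. -/
theorem atb89_approx {g : ℝ × ℝ → ℝ} (hg : Atb89Gauge g) (c : ℝ × ℝ)
    (gs : ℕ → ℝ × ℝ → ℝ) (hgs : ∀ n, Atb89Gauge (gs n)) (cs : ℕ → ℝ × ℝ) (hcs : Tendsto cs atTop (𝓝 c))
    (hcmp : ∀ ε : ℝ, 0 < ε → ∀ᶠ n in atTop, ∀ p, |gs n p - g p| ≤ ε * g p)
    (δ : ℕ → ℝ) (hδ : ∀ n, 0 < δ n) (hδ0 : Tendsto δ atTop (𝓝 0))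
    (F : ℕ → Finset (ℤ × ℤ)) (hF : ∀ n, C0468.faceRegionSq (δ n) (F n) = atb89Reg (gs n) (cs n)) :
    C0468.IsAdmissibleApprox (atb89Reg g c) δ F := by
  refine ⟨hδ, hδ0, fun K hK hKD => ?_, atb89Curve g c, fun n => atb89Curve (gs n) (cs n),
    atb89_curve_cont hg c, atb89_curve_inj hg c, atb89_curve_range hg c, fun n => ⟨atb89_curve_cont (hgs n) _,
      atb89_curve_inj (hgs n) _, ?_⟩, fun ε hε => atb89_close hg c gs cs hcs hcmp ε hε⟩
  · simp only [hF]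
    exact atb89_exhaust hg c gs cs hcs hcmp K hK hKD
  · rw [hF n]
    exact atb89_curve_range (hgs n) _

/-! ## The gauges: rectangle, diamond, minimum -/

/-- gauge of the rectangle with half-sides `a`, `b`. -/
noncomputable def atb89RectG (a b : ℝ) (p : ℝ × ℝ) : ℝ := max (|p.1| / a) (|p.2| / b)

/-- gauge of the 45-degree diamond of radius `r`. -/
noncomputable def atb89DiamG (r : ℝ) (p : ℝ × ℝ) : ℝ := (|p.1| + |p.2|) / r

/-- minimum of a finite family of gauges. -/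
noncomputable def atb89MinG {ι : Type} (s : Finset ι) (hs : s.Nonempty) (G : ι → ℝ × ℝ → ℝ) (p : ℝ × ℝ) : ℝ :=
  s.inf' hs (fun k => G k p)

theorem atb89_defs_cite2 : True := by
  have := @atb89RectG.eq_1
  have := @atb89DiamG.eq_1
  have := @atb89MinG.eq_1
  trivial

theorem atb89_rectG {a b : ℝ} (ha : 0 < a) (hb : 0 < b) : Atb89Gauge (atb89RectG a b) := by
  refine ⟨?_, fun t x ht => ?_, fun x hx => ?_⟩
  · unfold atb89RectG; fun_prop
  · simp only [atb89RectG, Prod.smul_fst, Prod.smul_snd, smul_eq_mul, abs_mul, abs_of_nonneg ht]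
    rw [mul_div_assoc, mul_div_assoc, mul_max_of_nonneg _ _ ht]
  · rcases (not_and_or.1 (fun h : x.1 = 0 ∧ x.2 = 0 => hx (Prod.ext h.1 h.2))) with h | h
    · exact lt_max_of_lt_left (div_pos (abs_pos.2 h) ha)
    · exact lt_max_of_lt_right (div_pos (abs_pos.2 h) hb)

theorem atb89_diamG {r : ℝ} (hr : 0 < r) : Atb89Gauge (atb89DiamG r) := by
  refine ⟨?_, fun t x ht => ?_, fun x hx => ?_⟩
  · unfold atb89DiamG; fun_prop
  · simp only [atb89DiamG, Prod.smul_fst, Prod.smul_snd, smul_eq_mul, abs_mul, abs_of_nonneg ht]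
    ring
  · rcases (not_and_or.1 (fun h : x.1 = 0 ∧ x.2 = 0 => hx (Prod.ext h.1 h.2))) with h | h
    · have := abs_pos.2 h
      exact div_pos (by positivity) hr
    · have := abs_pos.2 h
      exact div_pos (by positivity) hr

theorem atb89_minG {ι : Type} (s : Finset ι) (hs : s.Nonempty) (G : ι → ℝ × ℝ → ℝ)
    (hG : ∀ k ∈ s, Atb89Gauge (G k)) : Atb89Gauge (atb89MinG s hs G) := by
  refine ⟨?_, fun t x ht => ?_, fun x hx => ?_⟩
  · exact Continuous.finset_inf'_apply hs fun k hk => (hG k hk).1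
  · simp only [atb89MinG]
    apply le_antisymm
    · obtain ⟨k, hk, hk'⟩ := Finset.exists_mem_eq_inf' hs (fun k => G k x)
      rw [hk', ← (hG k hk).2.1 t x ht]
      exact Finset.inf'_le (fun k => G k (t • x)) hk
    · rw [Finset.le_inf'_iff]
      intro k hk
      rw [(hG k hk).2.1 t x ht]
      exact mul_le_mul_of_nonneg_left (Finset.inf'_le (fun k => G k x) hk) ht
  · simp only [atb89MinG, Finset.lt_inf'_iff]
    exact fun k hk => (hG k hk).2.2 x hx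

theorem atb89_rect_reg {a b : ℝ} (ha : 0 < a) (hb : 0 < b) (c : ℝ × ℝ) :
    atb89Reg (atb89RectG a b) c = Ioo (c.1 - a) (c.1 + a) ×ˢ Ioo (c.2 - b) (c.2 + b) := by
  ext x
  simp only [atb89Reg, atb89RectG, mem_ofPred_eq, max_lt_iff, div_lt_one ha, div_lt_one hb, abs_lt, mem_prod, mem_Ioo,
    Prod.fst_sub, Prod.snd_sub]
  constructor
  · rintro ⟨⟨h1, h2⟩, h3, h4⟩; exact ⟨⟨by linarith, by linarith⟩, by linarith, by linarith⟩
  · rintro ⟨⟨h1, h2⟩, h3, h4⟩; exact ⟨⟨by linarith, by linarith⟩, by linarith, by linarith⟩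

theorem atb89_rect_le {a b : ℝ} (ha : 0 < a) (hb : 0 < b) (c x : ℝ × ℝ) :
    atb89RectG a b (x - c) ≤ 1 ↔ x ∈ Icc (c.1 - a) (c.1 + a) ×ˢ Icc (c.2 - b) (c.2 + b) := by
  simp only [atb89RectG, max_le_iff, div_le_one ha, div_le_one hb, abs_le, mem_prod, mem_Icc,
    Prod.fst_sub, Prod.snd_sub]
  constructor
  · rintro ⟨⟨h1, h2⟩, h3, h4⟩; exact ⟨⟨by linarith, by linarith⟩, by linarith, by linarith⟩
  · rintro ⟨⟨h1, h2⟩, h3, h4⟩; exact ⟨⟨by linarith, by linarith⟩, by linarith, by linarith⟩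

theorem atb89_diam_reg {r : ℝ} (hr : 0 < r) (c : ℝ × ℝ) :
    atb89Reg (atb89DiamG r) c = {z | |z.1 - c.1| + |z.2 - c.2| < r} := by
  ext x
  simp only [atb89Reg, atb89DiamG, mem_ofPred_eq, div_lt_one hr, Prod.fst_sub, Prod.snd_sub]

/-! ## Faces of lattice rectangles -/

theorem atb89_cell {δ : ℝ} (hδ : 0 < δ) (x0 x1 : ℤ) (h01 : x0 < x1) (x : ℝ) (hx : x ∈ Icc (δ * x0) (δ * x1)) :
    ∃ i : ℤ, x0 ≤ i ∧ i < x1 ∧ x ∈ Icc (δ * (i : ℝ)) (δ * ((i : ℝ) + 1)) := by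
  by_cases hlt : x < δ * x1
  · refine ⟨⌊x / δ⌋, ?_, ?_, ?_, ?_⟩
    · rw [Int.le_floor, le_div_iff₀ hδ]; linarith [hx.1]
    · rw [Int.floor_lt, div_lt_iff₀ hδ]; linarith
    · have := Int.floor_le (x / δ)
      rw [le_div_iff₀ hδ] at this; linarith
    · have := (Int.lt_floor_add_one (x / δ)).le
      rw [div_le_iff₀ hδ] at this; linarith
  · have hxe : x = δ * x1 := le_antisymm hx.2 (not_lt.1 hlt)
    refine ⟨x1 - 1, by omega, by omega, ?_, ?_⟩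
    · rw [hxe]; push_cast; nlinarith
    · rw [hxe]; push_cast; apply le_of_eq; ring

theorem atb89_faces_rect {δ : ℝ} (hδ : 0 < δ) (x0 x1 y0 y1 : ℤ) (hx : x0 < x1) (hy : y0 < y1) :
    (⋃ f ∈ Finset.Ico x0 x1 ×ˢ Finset.Ico y0 y1,
      Icc (δ * (f.1 : ℝ)) (δ * ((f.1 : ℝ) + 1)) ×ˢ Icc (δ * (f.2 : ℝ)) (δ * ((f.2 : ℝ) + 1)))
      = Icc (δ * (x0 : ℝ)) (δ * (x1 : ℝ)) ×ˢ Icc (δ * (y0 : ℝ)) (δ * (y1 : ℝ)) := by
  ext z
  simp only [mem_iUnion, Finset.mem_product, Finset.mem_Ico, exists_prop]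
  constructor
  · rintro ⟨f, ⟨⟨h1, h2⟩, h3, h4⟩, hz1, hz2⟩
    have c1 : (x0 : ℝ) ≤ f.1 := by exact_mod_cast h1
    have c2 : (f.1 : ℝ) + 1 ≤ x1 := by exact_mod_cast h2
    have c3 : (y0 : ℝ) ≤ f.2 := by exact_mod_cast h3
    have c4 : (f.2 : ℝ) + 1 ≤ y1 := by exact_mod_cast h4
    refine ⟨⟨?_, ?_⟩, ?_, ?_⟩
    · exact (mul_le_mul_of_nonneg_left c1 hδ.le).trans hz1.1
    · exact hz1.2.trans (mul_le_mul_of_nonneg_left c2 hδ.le)
    · exact (mul_le_mul_of_nonneg_left c3 hδ.le).trans hz2.1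
    · exact hz2.2.trans (mul_le_mul_of_nonneg_left c4 hδ.le)
  · rintro ⟨hz1, hz2⟩
    obtain ⟨i, hi1, hi2, hi3⟩ := atb89_cell hδ x0 x1 hx z.1 hz1
    obtain ⟨j, hj1, hj2, hj3⟩ := atb89_cell hδ y0 y1 hy z.2 hz2
    exact ⟨(i, j), ⟨⟨hi1, hi2⟩, hj1, hj2⟩, hi3, hj3⟩

/-- **the region of a union of CONCENTRIC lattice rectangles** is the region of the minimum of the rectangle gauges. -/
theorem atb89_faces_union {ι : Type} [DecidableEq ι] {δ : ℝ} (hδ : 0 < δ) (s : Finset ι) (hs : s.Nonempty)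
    (x0 x1 y0 y1 : ι → ℤ) (P Q : ℤ) (hx : ∀ k ∈ s, x0 k < x1 k) (hy : ∀ k ∈ s, y0 k < y1 k)
    (hP : ∀ k ∈ s, x0 k + x1 k = P) (hQ : ∀ k ∈ s, y0 k + y1 k = Q) :
    C0468.faceRegionSq δ (s.biUnion fun k => Finset.Ico (x0 k) (x1 k) ×ˢ Finset.Ico (y0 k) (y1 k))
      = atb89Reg (atb89MinG s hs fun k => atb89RectG (δ * ((x1 k : ℝ) - x0 k) / 2) (δ * ((y1 k : ℝ) - y0 k) / 2))
          (δ * (P : ℝ) / 2, δ * (Q : ℝ) / 2) := by
  have hG : ∀ k ∈ s, Atb89Gauge (atb89RectG (δ * ((x1 k : ℝ) - x0 k) / 2) (δ * ((y1 k : ℝ) - y0 k) / 2)) := by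
    intro k hk
    have c1 : (x0 k : ℝ) < x1 k := by exact_mod_cast hx k hk
    have c2 : (y0 k : ℝ) < y1 k := by exact_mod_cast hy k hk
    exact atb89_rectG (by have : 0 < (x1 k : ℝ) - x0 k := by linarith
                          positivity) (by have : 0 < (y1 k : ℝ) - y0 k := by linarith
                                          positivity)
  have key : ∀ k ∈ s, ∀ z : ℝ × ℝ,
      atb89RectG (δ * ((x1 k : ℝ) - x0 k) / 2) (δ * ((y1 k : ℝ) - y0 k) / 2) (z - (δ * (P : ℝ) / 2, δ * (Q : ℝ) / 2)) ≤ 1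
        ↔ z ∈ (⋃ f ∈ Finset.Ico (x0 k) (x1 k) ×ˢ Finset.Ico (y0 k) (y1 k),
          Icc (δ * (f.1 : ℝ)) (δ * ((f.1 : ℝ) + 1)) ×ˢ Icc (δ * (f.2 : ℝ)) (δ * ((f.2 : ℝ) + 1))) := by
    intro k hk z
    have c1 : (x0 k : ℝ) < x1 k := by exact_mod_cast hx k hk
    have c2 : (y0 k : ℝ) < y1 k := by exact_mod_cast hy k hk
    have c3 : (P : ℝ) = x0 k + x1 k := by exact_mod_cast (hP k hk).symm
    have c4 : (Q : ℝ) = y0 k + y1 k := by exact_mod_cast (hQ k hk).symm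
    rw [atb89_faces_rect hδ _ _ _ _ (hx k hk) (hy k hk),
      atb89_rect_le (by have : 0 < (x1 k : ℝ) - x0 k := by linarith
                        positivity) (by have : 0 < (y1 k : ℝ) - y0 k := by linarith
                                        positivity)]
    have e1 : δ * (P : ℝ) / 2 - δ * ((x1 k : ℝ) - x0 k) / 2 = δ * x0 k := by rw [c3]; ring
    have e2 : δ * (P : ℝ) / 2 + δ * ((x1 k : ℝ) - x0 k) / 2 = δ * x1 k := by rw [c3]; ring
    have e3 : δ * (Q : ℝ) / 2 - δ * ((y1 k : ℝ) - y0 k) / 2 = δ * y0 k := by rw [c4]; ring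
    have e4 : δ * (Q : ℝ) / 2 + δ * ((y1 k : ℝ) - y0 k) / 2 = δ * y1 k := by rw [c4]; ring
    simp only [e1, e2, e3, e4]
  rw [← atb89_interior (atb89_minG s hs _ hG), C0468.faceRegionSq]
  congr 1
  ext z
  simp only [mem_ofPred_eq, atb89MinG, Finset.inf'_le_iff]
  constructor
  · intro hz
    simp only [mem_iUnion, Finset.mem_biUnion, exists_prop] at hz
    obtain ⟨f, ⟨k, hk, hf⟩, hz⟩ := hz
    refine ⟨k, hk, (key k hk z).2 ?_⟩
    simp only [mem_iUnion, exists_prop]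
    exact ⟨f, hf, hz⟩
  · rintro ⟨k, hk, hz⟩
    have := (key k hk z).1 hz
    simp only [mem_iUnion, exists_prop] at this
    obtain ⟨f, hf, hz'⟩ := this
    simp only [mem_iUnion, Finset.mem_biUnion, exists_prop]
    exact ⟨f, ⟨k, hk, hf⟩, hz'⟩

/-! ## The rectangle -/

theorem atb89_rect_region {δ : ℝ} (hδ : 0 < δ) (x0 x1 y0 y1 : ℤ) (hx : x0 < x1) (hy : y0 < y1) :
    C0468.faceRegionSq δ (Finset.Ico x0 x1 ×ˢ Finset.Ico y0 y1)
      = atb89Reg (atb89RectG ((δ * x1 - δ * x0) / 2) ((δ * y1 - δ * y0) / 2)) ((δ * x0 + δ * x1) / 2, (δ * y0 + δ * y1) / 2) := by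
  have c1 : (x0 : ℝ) < x1 := by exact_mod_cast hx
  have c2 : (y0 : ℝ) < y1 := by exact_mod_cast hy
  have a1 : 0 < (δ * x1 - δ * x0) / 2 := by nlinarith
  have a2 : 0 < (δ * y1 - δ * y0) / 2 := by nlinarith
  rw [← atb89_interior (atb89_rectG a1 a2), C0468.faceRegionSq, atb89_faces_rect hδ _ _ _ _ hx hy]
  congr 1
  ext z
  rw [mem_ofPred_eq, atb89_rect_le a1 a2]
  have e1 : (δ * x0 + δ * x1) / 2 - (δ * x1 - δ * x0) / 2 = δ * x0 := by ring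
  have e2 : (δ * x0 + δ * x1) / 2 + (δ * x1 - δ * x0) / 2 = δ * x1 := by ring
  have e3 : (δ * y0 + δ * y1) / 2 - (δ * y1 - δ * y0) / 2 = δ * y0 := by ring
  have e4 : (δ * y0 + δ * y1) / 2 + (δ * y1 - δ * y0) / 2 = δ * y1 := by ring
  simp only [e1, e2, e3, e4]

theorem atb89_rect_region' {δ : ℝ} (hδ : 0 < δ) (x0 x1 y0 y1 : ℤ) (hx : x0 < x1) (hy : y0 < y1) :
    C0468.faceRegionSq δ (Finset.Ico x0 x1 ×ˢ Finset.Ico y0 y1)
      = Ioo (δ * (x0 : ℝ)) (δ * (x1 : ℝ)) ×ˢ Ioo (δ * (y0 : ℝ)) (δ * (y1 : ℝ)) := by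
  rw [C0468.faceRegionSq, atb89_faces_rect hδ _ _ _ _ hx hy, interior_prod_eq, interior_Icc, interior_Icc]

theorem atb89_rect_cmp {a b a' b' ε : ℝ} (ha : 0 < a) (hb : 0 < b) (ha' : 0 < a') (hb' : 0 < b')
    (h1 : |a / a' - 1| ≤ ε) (h2 : |b / b' - 1| ≤ ε) (p : ℝ × ℝ) :
    |atb89RectG a' b' p - atb89RectG a b p| ≤ ε * atb89RectG a b p := by
  have hε : 0 ≤ ε := (abs_nonneg _).trans h1
  unfold atb89RectG
  refine (abs_max_sub_max_le_max _ _ _ _).trans (max_le ?_ ?_)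
  · have e : |p.1| / a' - |p.1| / a = (a / a' - 1) * (|p.1| / a) := by field_simp
    rw [e, abs_mul, abs_of_nonneg (div_nonneg (abs_nonneg _) ha.le)]
    exact mul_le_mul h1 (le_max_left _ _) (div_nonneg (abs_nonneg _) ha.le) hε
  · have e : |p.2| / b' - |p.2| / b = (b / b' - 1) * (|p.2| / b) := by field_simp
    rw [e, abs_mul, abs_of_nonneg (div_nonneg (abs_nonneg _) hb.le)]
    exact mul_le_mul h2 (le_max_right _ _) (div_nonneg (abs_nonneg _) hb.le) hε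

theorem atb89_ratio {a : ℝ} (ha : 0 < a) (as : ℕ → ℝ) (has : Tendsto as atTop (𝓝 a)) (ε : ℝ) (hε : 0 < ε) :
    ∀ᶠ n in atTop, |a / as n - 1| ≤ ε := by
  have h1 : Tendsto (fun n => a / as n) atTop (𝓝 (a / a)) := tendsto_const_nhds.div has ha.ne'
  rw [div_self ha.ne'] at h1
  filter_upwards [h1.eventually (Metric.closedBall_mem_nhds 1 hε)] with n hn
  simpa [Real.dist_eq] using hn

/-- **THE RECTANGLE**: any open rectangle, any mesh `δ n → 0`, lattice rectangles whose corners converge. -/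
theorem atb89_rect_approx (X0 X1 Y0 Y1 : ℝ) (hX : X0 < X1) (hY : Y0 < Y1)
    (δ : ℕ → ℝ) (hδ : ∀ n, 0 < δ n) (hδ0 : Tendsto δ atTop (𝓝 0))
    (x0 x1 y0 y1 : ℕ → ℤ) (hx : ∀ n, x0 n < x1 n) (hy : ∀ n, y0 n < y1 n)
    (h1 : Tendsto (fun n => δ n * (x0 n : ℝ)) atTop (𝓝 X0)) (h2 : Tendsto (fun n => δ n * (x1 n : ℝ)) atTop (𝓝 X1))
    (h3 : Tendsto (fun n => δ n * (y0 n : ℝ)) atTop (𝓝 Y0)) (h4 : Tendsto (fun n => δ n * (y1 n : ℝ)) atTop (𝓝 Y1)) :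
    C0468.IsAdmissibleApprox (Ioo X0 X1 ×ˢ Ioo Y0 Y1) δ
      (fun n => Finset.Ico (x0 n) (x1 n) ×ˢ Finset.Ico (y0 n) (y1 n)) := by
  have a1 : 0 < (X1 - X0) / 2 := by linarith
  have a2 : 0 < (Y1 - Y0) / 2 := by linarith
  have hD : Ioo X0 X1 ×ˢ Ioo Y0 Y1 = atb89Reg (atb89RectG ((X1 - X0) / 2) ((Y1 - Y0) / 2)) ((X0 + X1) / 2, (Y0 + Y1) / 2) := by
    rw [atb89_rect_reg a1 a2]
    have e1 : (X0 + X1) / 2 - (X1 - X0) / 2 = X0 := by ring
    have e2 : (X0 + X1) / 2 + (X1 - X0) / 2 = X1 := by ring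
    have e3 : (Y0 + Y1) / 2 - (Y1 - Y0) / 2 = Y0 := by ring
    have e4 : (Y0 + Y1) / 2 + (Y1 - Y0) / 2 = Y1 := by ring
    simp only [e1, e2, e3, e4]
  have b1 : ∀ n, 0 < (δ n * (x1 n : ℝ) - δ n * (x0 n : ℝ)) / 2 := by
    intro n
    have c1 : (x0 n : ℝ) < x1 n := by exact_mod_cast hx n
    nlinarith [hδ n]
  have b2 : ∀ n, 0 < (δ n * (y1 n : ℝ) - δ n * (y0 n : ℝ)) / 2 := by
    intro n
    have c1 : (y0 n : ℝ) < y1 n := by exact_mod_cast hy n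
    nlinarith [hδ n]
  rw [hD]
  refine atb89_approx (atb89_rectG a1 a2) _
    (fun n => atb89RectG ((δ n * (x1 n : ℝ) - δ n * (x0 n : ℝ)) / 2) ((δ n * (y1 n : ℝ) - δ n * (y0 n : ℝ)) / 2))
    (fun n => atb89_rectG (b1 n) (b2 n))
    (fun n => ((δ n * (x0 n : ℝ) + δ n * (x1 n : ℝ)) / 2, (δ n * (y0 n : ℝ) + δ n * (y1 n : ℝ)) / 2))
    (((h1.add h2).div_const 2).prodMk_nhds ((h3.add h4).div_const 2)) ?_ δ hδ hδ0 _
    (fun n => atb89_rect_region (hδ n) _ _ _ _ (hx n) (hy n))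
  intro ε hε
  filter_upwards [atb89_ratio a1 _ ((h2.sub h1).div_const 2) ε hε, atb89_ratio a2 _ ((h4.sub h3).div_const 2) ε hε]
    with n hn1 hn2 p
  exact atb89_rect_cmp a1 a2 (b1 n) (b2 n) hn1 hn2 p

/-! ## The 45-degree diamond -/

/-- the lattice diamond: centre `(p + σ/2, q + τ/2)` (`σ τ ∈ {0,1}`: a vertex, a face centre or the midpoint of an edge),
union of the concentric rectangles with half-sides `k - σ/2`, `R - k - τ/2`, `1 ≤ k < R`. -/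
noncomputable def atb89Diam (p q σ τ R : ℤ) : Finset (ℤ × ℤ) :=
  (Finset.Ico 1 R).biUnion fun k => Finset.Ico (p + σ - k) (p + k) ×ˢ Finset.Ico (q + τ - (R - k)) (q + (R - k))

/-- the gauge of the lattice diamond at mesh `δ`. -/
noncomputable def atb89DiamGs (δ : ℝ) (p q σ τ R : ℤ) (hR : (Finset.Ico 1 R).Nonempty) : ℝ × ℝ → ℝ :=
  atb89MinG (Finset.Ico 1 R) hR fun k => atb89RectG (δ * (((p + k : ℤ) : ℝ) - ((p + σ - k : ℤ) : ℝ)) / 2)
    (δ * (((q + (R - k) : ℤ) : ℝ) - ((q + τ - (R - k) : ℤ) : ℝ)) / 2)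

theorem atb89_defs_cite3 : True := by
  have := @atb89Diam.eq_1
  have := @atb89DiamGs.eq_1
  trivial

/-- the faces of the lattice diamond: face centres within l1-distance `R - 1 - (σ+τ)/2` of the centre. -/
theorem atb89_mem_diam (p q σ τ R : ℤ) (hσ : σ = 0 ∨ σ = 1) (hτ : τ = 0 ∨ τ = 1) (f : ℤ × ℤ) :
    f ∈ atb89Diam p q σ τ R ↔ |2 * (f.1 - p) + 1 - σ| + |2 * (f.2 - q) + 1 - τ| + 2 + σ + τ ≤ 2 * R := by
  simp only [atb89Diam, Finset.mem_biUnion, Finset.mem_product, Finset.mem_Ico]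
  constructor
  · rintro ⟨k, ⟨hk1, hk2⟩, ⟨h1, h2⟩, h3, h4⟩
    have e1 : |2 * (f.1 - p) + 1 - σ| ≤ 2 * k - 1 - σ := by rw [abs_le]; constructor <;> omega
    have e2 : |2 * (f.2 - q) + 1 - τ| ≤ 2 * (R - k) - 1 - τ := by rw [abs_le]; constructor <;> omega
    omega
  · intro h
    refine ⟨(|2 * (f.1 - p) + 1 - σ| + 1 + σ) / 2, ?_⟩
    rcases abs_cases (2 * (f.1 - p) + 1 - σ) with ⟨e1, e1'⟩ | ⟨e1, e1'⟩ <;>
    rcases abs_cases (2 * (f.2 - q) + 1 - τ) with ⟨e2, e2'⟩ | ⟨e2, e2'⟩ <;>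
    rw [e1] at h ⊢ <;> rw [e2] at h <;>
    rcases hσ with rfl | rfl <;> rcases hτ with rfl | rfl <;> omega

theorem atb89_diam_halfsides (δ : ℝ) (p q σ τ R k : ℤ) :
    δ * (((p + k : ℤ) : ℝ) - ((p + σ - k : ℤ) : ℝ)) / 2 = δ * ((k : ℝ) - σ / 2) ∧
    δ * (((q + (R - k) : ℤ) : ℝ) - ((q + τ - (R - k) : ℤ) : ℝ)) / 2 = δ * ((R : ℝ) - k - τ / 2) := by
  constructor <;> (push_cast; ring)

theorem atb89_diam_gauge {δ : ℝ} (hδ : 0 < δ) (p q σ τ R : ℤ) (hσ : σ = 0 ∨ σ = 1) (hτ : τ = 0 ∨ τ = 1)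
    (hR : (Finset.Ico 1 R).Nonempty) : Atb89Gauge (atb89DiamGs δ p q σ τ R hR) := by
  apply atb89_minG
  intro k hk
  rw [Finset.mem_Ico] at hk
  rw [(atb89_diam_halfsides δ p q σ τ R k).1, (atb89_diam_halfsides δ p q σ τ R k).2]
  have c1 : (1 : ℝ) ≤ k := by exact_mod_cast hk.1
  have c2 : (k : ℝ) + 1 ≤ R := by exact_mod_cast hk.2
  have c3 : (σ : ℝ) ≤ 1 := by rcases hσ with rfl | rfl <;> norm_num
  have c4 : (τ : ℝ) ≤ 1 := by rcases hτ with rfl | rfl <;> norm_num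
  exact atb89_rectG (mul_pos hδ (by linarith)) (mul_pos hδ (by linarith))

theorem atb89_diam_region {δ : ℝ} (hδ : 0 < δ) (p q σ τ R : ℤ) (hσ : σ = 0 ∨ σ = 1) (hτ : τ = 0 ∨ τ = 1)
    (hR : (Finset.Ico 1 R).Nonempty) :
    C0468.faceRegionSq δ (atb89Diam p q σ τ R)
      = atb89Reg (atb89DiamGs δ p q σ τ R hR) (δ * ((2 * p + σ : ℤ) : ℝ) / 2, δ * ((2 * q + τ : ℤ) : ℝ) / 2) := by
  apply atb89_faces_union hδ (Finset.Ico 1 R) hR
  · intro k hk; rw [Finset.mem_Ico] at hk; omega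
  · intro k hk; rw [Finset.mem_Ico] at hk; omega
  · intro k _; ring
  · intro k _; ring

theorem atb89_rectG_le {a b μ : ℝ} (ha : 0 < a) (hb : 0 < b) (x : ℝ × ℝ) :
    atb89RectG a b x ≤ μ ↔ |x.1| ≤ μ * a ∧ |x.2| ≤ μ * b := by
  rw [atb89RectG, max_le_iff, div_le_iff₀ ha, div_le_iff₀ hb]

/-- lower bound of the staircase gauge (the staircase is inside the diamond of radius `δ R`). -/
theorem atb89_diam_lower {δ : ℝ} (hδ : 0 < δ) (p q σ τ R : ℤ) (hσ : σ = 0 ∨ σ = 1) (hτ : τ = 0 ∨ τ = 1)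
    (hR : (Finset.Ico 1 R).Nonempty) (x : ℝ × ℝ) :
    atb89DiamG (δ * R) x ≤ atb89DiamGs δ p q σ τ R hR x := by
  simp only [atb89DiamGs, atb89MinG, Finset.le_inf'_iff]
  intro k hk
  rw [Finset.mem_Ico] at hk
  rw [(atb89_diam_halfsides δ p q σ τ R k).1, (atb89_diam_halfsides δ p q σ τ R k).2]
  have c1 : (1 : ℝ) ≤ k := by exact_mod_cast hk.1
  have c2 : (k : ℝ) + 1 ≤ R := by exact_mod_cast hk.2
  have c3 : (σ : ℝ) ≤ 1 := by rcases hσ with rfl | rfl <;> norm_num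
  have c4 : (τ : ℝ) ≤ 1 := by rcases hτ with rfl | rfl <;> norm_num
  have c5 : (0 : ℝ) ≤ σ := by rcases hσ with rfl | rfl <;> norm_num
  have c6 : (0 : ℝ) ≤ τ := by rcases hτ with rfl | rfl <;> norm_num
  have a1 : 0 < δ * ((k : ℝ) - σ / 2) := mul_pos hδ (by linarith)
  have a2 : 0 < δ * ((R : ℝ) - k - τ / 2) := mul_pos hδ (by linarith)
  set μ := atb89RectG (δ * ((k : ℝ) - σ / 2)) (δ * ((R : ℝ) - k - τ / 2)) x with hμ
  have hμ0 : 0 ≤ μ := atb89_nonneg (atb89_rectG a1 a2) x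
  obtain ⟨h1, h2⟩ := (atb89_rectG_le a1 a2 x).1 hμ.le
  rw [atb89DiamG, div_le_iff₀ (mul_pos hδ (by linarith))]
  have : μ * (δ * ((k : ℝ) - σ / 2)) + μ * (δ * ((R : ℝ) - k - τ / 2)) ≤ μ * (δ * R) := by
    have : δ * ((k : ℝ) - σ / 2) + δ * ((R : ℝ) - k - τ / 2) ≤ δ * R := by nlinarith
    nlinarith
  linarith

/-- upper bound of the staircase gauge (the staircase contains the diamond of radius `δ (R - 2)`). -/
theorem atb89_diam_upper {δ : ℝ} (hδ : 0 < δ) (p q σ τ R : ℤ) (hσ : σ = 0 ∨ σ = 1) (hτ : τ = 0 ∨ τ = 1)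
    (hR : (Finset.Ico 1 R).Nonempty) (hR3 : 3 ≤ R) (x : ℝ × ℝ) :
    atb89DiamGs δ p q σ τ R hR x ≤ atb89DiamG (δ * ((R : ℝ) - 2)) x := by
  have cR : (3 : ℝ) ≤ R := by exact_mod_cast hR3
  have c3 : (σ : ℝ) ≤ 1 := by rcases hσ with rfl | rfl <;> norm_num
  have c4 : (τ : ℝ) ≤ 1 := by rcases hτ with rfl | rfl <;> norm_num
  by_cases hx : x = 0
  · rw [hx, atb89_zero (atb89_diam_gauge hδ p q σ τ R hσ hτ hR), atb89_zero (atb89_diamG (mul_pos hδ (by linarith)))]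
  have hl : 0 < |x.1| + |x.2| := by
    rcases (not_and_or.1 (fun h : x.1 = 0 ∧ x.2 = 0 => hx (Prod.ext h.1 h.2))) with h | h
    · have := abs_pos.2 h; positivity
    · have := abs_pos.2 h; positivity
  set l := |x.1| + |x.2| with hl'
  set ξ := |x.1| * ((R : ℝ) - 2) / l with hξ
  have hξ0 : 0 ≤ ξ := by
    have : 0 ≤ (R : ℝ) - 2 := by linarith
    positivity
  have hξ1 : ξ ≤ (R : ℝ) - 2 := by
    rw [hξ, div_le_iff₀ hl]
    have : |x.1| ≤ l := by rw [hl']; linarith [abs_nonneg x.2]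
    nlinarith
  set k : ℤ := ⌈ξ + 1 / 2⌉ with hk
  have k1 : ξ + 1 / 2 ≤ k := Int.le_ceil _
  have k2 : (k : ℝ) < ξ + 1 / 2 + 1 := Int.ceil_lt_add_one _
  have hk1 : 1 ≤ k := by
    have : (0 : ℝ) < k := by linarith
    have : (0 : ℤ) < k := by exact_mod_cast this
    omega
  have hk2 : k < R := by
    have : (k : ℝ) < R := by linarith
    exact_mod_cast this
  simp only [atb89DiamGs, atb89MinG, Finset.inf'_le_iff]
  refine ⟨k, Finset.mem_Ico.2 ⟨hk1, hk2⟩, ?_⟩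
  rw [(atb89_diam_halfsides δ p q σ τ R k).1, (atb89_diam_halfsides δ p q σ τ R k).2]
  have c1 : (1 : ℝ) ≤ k := by exact_mod_cast hk1
  have c2 : (k : ℝ) + 1 ≤ R := by exact_mod_cast hk2
  have a1 : 0 < δ * ((k : ℝ) - σ / 2) := mul_pos hδ (by linarith)
  have a2 : 0 < δ * ((R : ℝ) - k - τ / 2) := mul_pos hδ (by linarith)
  have hR2 : 0 < (R : ℝ) - 2 := by linarith
  rw [atb89_rectG_le a1 a2, atb89DiamG]
  have e1 : |x.1| = l / (δ * ((R : ℝ) - 2)) * (δ * ξ) := by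
    rw [hξ]; field_simp
  have e2 : |x.2| = l / (δ * ((R : ℝ) - 2)) * (δ * ((R : ℝ) - 2 - ξ)) := by
    have : |x.2| = l - |x.1| := by rw [hl']; ring
    rw [this, hξ]; field_simp
  have hμ : 0 ≤ l / (δ * ((R : ℝ) - 2)) := by positivity
  constructor
  · rw [← hl']
    calc |x.1| = l / (δ * ((R : ℝ) - 2)) * (δ * ξ) := e1
      _ ≤ _ := mul_le_mul_of_nonneg_left (mul_le_mul_of_nonneg_left (by linarith) hδ.le) hμ
  · rw [← hl']
    calc |x.2| = l / (δ * ((R : ℝ) - 2)) * (δ * ((R : ℝ) - 2 - ξ)) := e2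
      _ ≤ _ := mul_le_mul_of_nonneg_left (mul_le_mul_of_nonneg_left (by linarith) hδ.le) hμ

theorem atb89_diamG_scale {r r' : ℝ} (hr : 0 < r) (hr' : 0 < r') (x : ℝ × ℝ) :
    atb89DiamG r' x = r / r' * atb89DiamG r x := by
  unfold atb89DiamG; field_simp

theorem atb89_Ico_nonempty {R : ℤ} (hR : 2 ≤ R) : (Finset.Ico 1 R).Nonempty :=
  ⟨1, Finset.mem_Ico.2 ⟨le_rfl, by omega⟩⟩

/-- **THE 45-DEGREE DIAMOND**: any centre, any radius, any mesh `δ n → 0`; lattice diamonds with `δ R → r`, `δ (p, q) → c`. -/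
theorem atb89_diam_approx (r : ℝ) (hr : 0 < r) (c : ℝ × ℝ)
    (δ : ℕ → ℝ) (hδ : ∀ n, 0 < δ n) (hδ0 : Tendsto δ atTop (𝓝 0))
    (p q σ τ R : ℕ → ℤ) (hσ : ∀ n, σ n = 0 ∨ σ n = 1) (hτ : ∀ n, τ n = 0 ∨ τ n = 1) (hR : ∀ n, 2 ≤ R n)
    (hRr : Tendsto (fun n => δ n * (R n : ℝ)) atTop (𝓝 r))
    (hp : Tendsto (fun n => δ n * (p n : ℝ)) atTop (𝓝 c.1)) (hq : Tendsto (fun n => δ n * (q n : ℝ)) atTop (𝓝 c.2)) :
    C0468.IsAdmissibleApprox {z : ℝ × ℝ | |z.1 - c.1| + |z.2 - c.2| < r} δ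
      (fun n => atb89Diam (p n) (q n) (σ n) (τ n) (R n)) := by
  rw [← atb89_diam_reg hr c]
  have hsmall : ∀ s : ℕ → ℤ, (∀ n, s n = 0 ∨ s n = 1) → Tendsto (fun n => δ n * (s n : ℝ) / 2) atTop (𝓝 0) := by
    intro s hs
    refine squeeze_zero (fun n => ?_) (fun n => ?_) hδ0
    · have := hδ n
      rcases hs n with h | h <;> rw [h] <;> simp <;> linarith
    · have := hδ n
      rcases hs n with h | h <;> rw [h] <;> simp <;> linarith
  have hc1 : ∀ (a s : ℕ → ℤ) (A : ℝ), (∀ n, s n = 0 ∨ s n = 1) → Tendsto (fun n => δ n * (a n : ℝ)) atTop (𝓝 A) →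
      Tendsto (fun n => δ n * ((2 * a n + s n : ℤ) : ℝ) / 2) atTop (𝓝 A) := by
    intro a s A hs ha
    have := ha.add (hsmall s hs)
    rw [add_zero] at this
    refine this.congr fun n => ?_
    push_cast; ring
  refine atb89_approx (atb89_diamG hr) c
    (fun n => atb89DiamGs (δ n) (p n) (q n) (σ n) (τ n) (R n) (atb89_Ico_nonempty (hR n)))
    (fun n => atb89_diam_gauge (hδ n) _ _ _ _ _ (hσ n) (hτ n) _)
    (fun n => (δ n * ((2 * p n + σ n : ℤ) : ℝ) / 2, δ n * ((2 * q n + τ n : ℤ) : ℝ) / 2))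
    ((hc1 p σ c.1 hσ hp).prodMk_nhds (hc1 q τ c.2 hτ hq)) ?_ δ hδ hδ0 _
    (fun n => atb89_diam_region (hδ n) _ _ _ _ _ (hσ n) (hτ n) _)
  intro ε hε
  have hR2 : Tendsto (fun n => δ n * ((R n : ℝ) - 2)) atTop (𝓝 r) := by
    have := hRr.sub (hδ0.mul_const 2)
    rw [zero_mul, sub_zero] at this
    refine this.congr fun n => ?_
    ring
  filter_upwards [atb89_ratio hr _ hRr ε hε, atb89_ratio hr _ hR2 ε hε, hR2.eventually (lt_mem_nhds hr)]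
    with n hn1 hn2 hn3 x
  have hpos : 0 < (R n : ℝ) - 2 := by
    by_contra hcon
    have : δ n * ((R n : ℝ) - 2) ≤ 0 := mul_nonpos_of_nonneg_of_nonpos (hδ n).le (not_lt.1 hcon)
    linarith
  have hR3 : 3 ≤ R n := by
    have : (2 : ℝ) < R n := by linarith
    have : (2 : ℤ) < R n := by exact_mod_cast this
    omega
  have hlow := atb89_diam_lower (hδ n) (p n) (q n) (σ n) (τ n) (R n) (hσ n) (hτ n) (atb89_Ico_nonempty (hR n)) x
  have hupp := atb89_diam_upper (hδ n) (p n) (q n) (σ n) (τ n) (R n) (hσ n) (hτ n) (atb89_Ico_nonempty (hR n)) hR3 x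
  rw [atb89_diamG_scale hr (mul_pos (hδ n) (by linarith))] at hlow
  rw [atb89_diamG_scale hr (mul_pos (hδ n) hpos)] at hupp
  have hg0 := atb89_nonneg (atb89_diamG hr) x
  have b1 := abs_le.1 hn1
  have b2 := abs_le.1 hn2
  rw [abs_le]
  constructor
  · nlinarith [b1.1]
  · nlinarith [b2.2]

/-! ## Standard instances, and the form in which `AtFlatGFF` is used -/

/-- the rectangle `(-a, a) × (-b, b)` with integer half-sides, mesh `1/(n+1)`: the lattice rectangle is EXACT. -/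
theorem atb89_rect_std (a b : ℕ) (ha : 0 < a) (hb : 0 < b) :
    C0468.IsAdmissibleApprox (Ioo (-(a : ℝ)) a ×ˢ Ioo (-(b : ℝ)) b) (fun n => 1 / ((n : ℝ) + 1))
      (fun n => Finset.Ico (-((a * (n + 1) : ℕ) : ℤ)) ((a * (n + 1) : ℕ) : ℤ)
        ×ˢ Finset.Ico (-((b * (n + 1) : ℕ) : ℤ)) ((b * (n + 1) : ℕ) : ℤ)) := by
  have ha' : (0 : ℝ) < a := by exact_mod_cast ha
  have hb' : (0 : ℝ) < b := by exact_mod_cast hb
  have hc : ∀ (k : ℕ), Tendsto (fun n : ℕ => 1 / ((n : ℝ) + 1) * (((k * (n + 1) : ℕ) : ℤ) : ℝ)) atTop (𝓝 (k : ℝ)) := by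
    intro k
    refine tendsto_const_nhds.congr fun n => ?_
    have : (n : ℝ) + 1 ≠ 0 := by positivity
    push_cast; field_simp
  have hc' : ∀ (k : ℕ), Tendsto (fun n : ℕ => 1 / ((n : ℝ) + 1) * ((-((k * (n + 1) : ℕ) : ℤ) : ℤ) : ℝ)) atTop (𝓝 (-(k : ℝ))) := by
    intro k
    refine (hc k).neg.congr fun n => ?_
    push_cast; ring
  refine atb89_rect_approx _ _ _ _ (by linarith) (by linarith) _ (fun n => by positivity)
    tendsto_one_div_add_atTop_nhds_zero_nat _ _ _ _ (fun n => ?_) (fun n => ?_) (hc' a) (hc a) (hc' b) (hc b)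
  · have : 0 < a * (n + 1) := by positivity
    omega
  · have : 0 < b * (n + 1) := by positivity
    omega

/-- the diamond `|x| + |y| < r` with integer radius, centre the origin, mesh `1/(n+2)`. -/
theorem atb89_diam_std (r : ℕ) (hr : 0 < r) :
    C0468.IsAdmissibleApprox {z : ℝ × ℝ | |z.1| + |z.2| < r} (fun n => 1 / ((n : ℝ) + 2))
      (fun n => atb89Diam 0 0 0 0 ((r * (n + 2) : ℕ) : ℤ)) := by
  have hr' : (0 : ℝ) < r := by exact_mod_cast hr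
  have h0 : Tendsto (fun n : ℕ => 1 / ((n : ℝ) + 2)) atTop (𝓝 0) := by
    have := (tendsto_add_atTop_iff_nat (f := fun n : ℕ => 1 / ((n : ℝ) + 1)) 1).2
      (tendsto_one_div_add_atTop_nhds_zero_nat (𝕜 := ℝ))
    refine this.congr fun n => ?_
    push_cast; ring
  have := atb89_diam_approx r hr' (0, 0) (fun n => 1 / ((n : ℝ) + 2)) (fun n => by positivity) h0
    (fun _ => 0) (fun _ => 0) (fun _ => 0) (fun _ => 0) (fun n => ((r * (n + 2) : ℕ) : ℤ))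
    (fun _ => Or.inl rfl) (fun _ => Or.inl rfl) (fun n => by
      have : 1 * 2 ≤ r * (n + 2) := Nat.mul_le_mul hr (by omega)
      omega)
    (by
      refine tendsto_const_nhds.congr fun n => ?_
      have : (n : ℝ) + 2 ≠ 0 := by positivity
      push_cast; field_simp) (by simp) (by simp)
  simpa using this

/-- how `AtFlatGFF` is used in the region of a gauge. -/
theorem atb89_flat_use {t v : ℝ} (h : AtFlatGFF t v) {g : ℝ × ℝ → ℝ} (hg : Atb89Gauge g) (c : ℝ × ℝ)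
    (δ : ℕ → ℝ) (F : ℕ → Finset (ℤ × ℤ)) (happ : C0468.IsAdmissibleApprox (atb89Reg g c) δ F)
    (φ : ℝ × ℝ → ℝ) (hφ : ContDiff ℝ ((⊤ : ℕ∞) : WithTop ℕ∞) φ) (hφc : HasCompactSupport φ)
    (hφD : tsupport φ ⊆ atb89Reg g c)
    (u : ℝ × ℝ → ℝ) (hu2 : ContDiffOn ℝ 2 u (atb89Reg g c)) (huc : ContinuousOn u {x | g (x - c) ≤ 1})
    (hu0 : ∀ z, g (z - c) = 1 → u z = 0) (hueq : ∀ z, g (z - c) < 1 → -C0468.lap2 u z = φ z) (k : ℕ) :
    Tendsto (fun n => C0468.atExpect t (δ n) (F n) φ (fun s => s ^ k)) atTop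
      (𝓝 (Claimed.Agent.R291.tmmWick (v * ∫ z in atb89Reg g c, φ z * u z) k)) := by
  refine h (atb89Reg g c) (atb89_isOpen hg c) (atb89_bounded hg c) (atb89_jordan hg c) δ F happ φ hφ hφc hφD u hu2
    ?_ ?_ hueq k
  · rwa [atb89_closure hg]
  · rw [atb89_frontier hg]; exact hu0

/-! ## Corners and polygon vertices in closed form (for the dictionary) -/

theorem atb89_mem_corners (F : Finset (ℤ × ℤ)) (v : ℤ × ℤ) :
    v ∈ C0468.cornersOf F ↔ v ∈ F ∨ (v.1 - 1, v.2) ∈ F ∨ (v.1, v.2 - 1) ∈ F ∨ (v.1 - 1, v.2 - 1) ∈ F := by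
  simp only [C0468.cornersOf, Finset.mem_biUnion, Finset.mem_insert, Finset.mem_singleton]
  constructor
  · rintro ⟨f, hf, rfl | rfl | rfl | rfl⟩
    · exact Or.inl hf
    · right; left; simpa using hf
    · right; right; left; simpa using hf
    · right; right; right; simpa using hf
  · rintro (h | h | h | h)
    · exact ⟨_, h, Or.inl rfl⟩
    · exact ⟨_, h, Or.inr (Or.inl (by simp))⟩
    · exact ⟨_, h, Or.inr (Or.inr (Or.inl (by simp)))⟩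
    · exact ⟨_, h, Or.inr (Or.inr (Or.inr (by simp)))⟩

theorem atb89_rect_corners (x0 x1 y0 y1 : ℤ) (hx : x0 < x1) (hy : y0 < y1) (v : ℤ × ℤ) :
    v ∈ C0468.cornersOf (Finset.Ico x0 x1 ×ˢ Finset.Ico y0 y1) ↔ (x0 ≤ v.1 ∧ v.1 ≤ x1) ∧ y0 ≤ v.2 ∧ v.2 ≤ y1 := by
  simp only [atb89_mem_corners, Finset.mem_product, Finset.mem_Ico]
  omega

theorem atb89_rect_onPolygon (x0 x1 y0 y1 : ℤ) (v : ℤ × ℤ) :
    C0468.OnPolygon (Finset.Ico x0 x1 ×ˢ Finset.Ico y0 y1) v ↔ ¬ ((x0 < v.1 ∧ v.1 < x1) ∧ y0 < v.2 ∧ v.2 < y1) := by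
  simp only [C0468.OnPolygon, Finset.mem_product, Finset.mem_Ico]
  omega

/-- inner vertices of the lattice diamond. -/
theorem atb89_diam_onPolygon (p q σ τ R : ℤ) (hσ : σ = 0 ∨ σ = 1) (hτ : τ = 0 ∨ τ = 1) (v : ℤ × ℤ) :
    C0468.OnPolygon (atb89Diam p q σ τ R) v ↔ ¬ (|2 * (v.1 - p) - σ| + |2 * (v.2 - q) - τ| + 4 + σ + τ ≤ 2 * R) := by
  simp only [C0468.OnPolygon, atb89_mem_diam p q σ τ R hσ hτ]
  rcases abs_cases (2 * (v.1 - p) - σ) with ⟨e1, e1'⟩ | ⟨e1, e1'⟩ <;>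
  rcases abs_cases (2 * (v.2 - q) - τ) with ⟨e2, e2'⟩ | ⟨e2, e2'⟩ <;>
  rcases abs_cases (2 * (v.1 - p) + 1 - σ) with ⟨e3, e3'⟩ | ⟨e3, e3'⟩ <;>
  rcases abs_cases (2 * (v.2 - q) + 1 - τ) with ⟨e4, e4'⟩ | ⟨e4, e4'⟩ <;>
  rcases abs_cases (2 * (v.1 - 1 - p) + 1 - σ) with ⟨e5, e5'⟩ | ⟨e5, e5'⟩ <;>
  rcases abs_cases (2 * (v.2 - 1 - q) + 1 - τ) with ⟨e6, e6'⟩ | ⟨e6, e6'⟩ <;>
  rw [e1, e2, e3, e4, e5, e6] <;> omega

/-- all vertices of the lattice diamond. -/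
theorem atb89_diam_corners (p q σ τ R : ℤ) (hσ : σ = 0 ∨ σ = 1) (hτ : τ = 0 ∨ τ = 1) (v : ℤ × ℤ) :
    v ∈ C0468.cornersOf (atb89Diam p q σ τ R) ↔
      |(|2 * (v.1 - p) - σ| - 1)| + |(|2 * (v.2 - q) - τ| - 1)| + 2 + σ + τ ≤ 2 * R := by
  simp only [atb89_mem_corners, atb89_mem_diam p q σ τ R hσ hτ]
  rcases abs_cases (2 * (v.1 - p) - σ) with ⟨e1, e1'⟩ | ⟨e1, e1'⟩ <;>
  rcases abs_cases (2 * (v.2 - q) - τ) with ⟨e2, e2'⟩ | ⟨e2, e2'⟩ <;>
  rw [e1, e2] <;>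
  rcases abs_cases (2 * (v.1 - p) + 1 - σ) with ⟨e3, e3'⟩ | ⟨e3, e3'⟩ <;>
  rcases abs_cases (2 * (v.2 - q) + 1 - τ) with ⟨e4, e4'⟩ | ⟨e4, e4'⟩ <;>
  rcases abs_cases (2 * (v.1 - 1 - p) + 1 - σ) with ⟨e5, e5'⟩ | ⟨e5, e5'⟩ <;>
  rcases abs_cases (2 * (v.2 - 1 - q) + 1 - τ) with ⟨e6, e6'⟩ | ⟨e6, e6'⟩ <;>
  rw [e3, e4, e5, e6] <;>
  first
    | (rcases abs_cases (2 * (v.1 - p) - σ - 1) with ⟨e7, e7'⟩ | ⟨e7, e7'⟩ <;>
       rcases abs_cases (2 * (v.2 - q) - τ - 1) with ⟨e8, e8'⟩ | ⟨e8, e8'⟩ <;> rw [e7, e8] <;> omega)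
    | (rcases abs_cases (-(2 * (v.1 - p) - σ) - 1) with ⟨e7, e7'⟩ | ⟨e7, e7'⟩ <;>
       rcases abs_cases (2 * (v.2 - q) - τ - 1) with ⟨e8, e8'⟩ | ⟨e8, e8'⟩ <;> rw [e7, e8] <;> omega)
    | (rcases abs_cases (2 * (v.1 - p) - σ - 1) with ⟨e7, e7'⟩ | ⟨e7, e7'⟩ <;>
       rcases abs_cases (-(2 * (v.2 - q) - τ) - 1) with ⟨e8, e8'⟩ | ⟨e8, e8'⟩ <;> rw [e7, e8] <;> omega)
    | (rcases abs_cases (-(2 * (v.1 - p) - σ) - 1) with ⟨e7, e7'⟩ | ⟨e7, e7'⟩ <;>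
       rcases abs_cases (-(2 * (v.2 - q) - τ) - 1) with ⟨e8, e8'⟩ | ⟨e8, e8'⟩ <;> rw [e7, e8] <;> omega)

end Claimed.Agent.R292
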