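import Claimed.Agent.R290.TorusTM
import Claimed.Agent.R292.Defs.Top

/-!
# Row 292, unit BRIDGE (and BETHE BA1): the sector partition functions as traces      (helper289, prefix `brg289`)

`brg289_Z`     : `svZN c (m+1) L n = trace (brg289T c L n ^ (m+1))`, `brg289T` = the column transfer matrix in the sector of `n` arrows `true`;
`brg289_T_apply` (explicit entries), `brg289_T_symm`, `brg289_T_nonneg`, `brg289_T_diag_pos`, `brg289_nonempty` (`n ≤ L`);
`brg289_top`   : `∃ Λ > 0`, `log (svZN c M L n) / M → log Λ`, `Λ` = the top eigenvalue of `brg289T` (with the Perron criterion of `svsp_top_exists`).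
0 sorry.
-/

set_option autoImplicit false

namespace Claimed.Agent.R292

open Claims Claims.C0466 Claimed.Agent.R290
open Matrix Finset

/-- columns of horizontal edges with `n` arrows `true` -/
def brg289Sec {L : ℕ} [NeZero L] (n : ℕ) (σ : ZMod L → Bool) : Prop :=
  (Finset.univ.filter fun b : ZMod L => σ b = true).card = n

instance brg289_sec_dec {L : ℕ} [NeZero L] (n : ℕ) (σ : ZMod L → Bool) : Decidable (brg289Sec n σ) := by
  unfold brg289Sec; infer_instance

/-- the sector -/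
abbrev Brg289Sec (L n : ℕ) [NeZero L] : Type := {σ : ZMod L → Bool // brg289Sec n σ}

/-- weight of a column -/
noncomputable def brg289K (c : ℝ) {L : ℕ} [NeZero L] (n : ℕ) (σ : ZMod L → Bool) (s : SvtS L) : ℝ :=
  if svtIce σ s ∧ brg289Sec n (svtH s) then c ^ svtD σ (svtH s) else 0

noncomputable def brg289A (L n : ℕ) [NeZero L] : Matrix (SvtS L) (Brg289Sec L n) ℝ :=
  fun s σ => if svtH s = σ.1 then 1 else 0

noncomputable def brg289B (c : ℝ) (L n : ℕ) [NeZero L] : Matrix (Brg289Sec L n) (SvtS L) ℝ :=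
  fun σ s => brg289K c n σ.1 s

/-- **the column transfer matrix in the sector `n`** -/
noncomputable def brg289T (c : ℝ) (L n : ℕ) [NeZero L] : Matrix (Brg289Sec L n) (Brg289Sec L n) ℝ :=
  brg289B c L n * brg289A L n

theorem brg289_AB_apply (c : ℝ) (L n : ℕ) [NeZero L] (s s' : SvtS L) :
    (brg289A L n * brg289B c L n) s s'
      = if brg289Sec n (svtH s) ∧ svtIce (svtH s) s' ∧ brg289Sec n (svtH s') then c ^ svtD (svtH s) (svtH s') else 0 := by
  rw [Matrix.mul_apply]
  by_cases hb : brg289Sec n (svtH s)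
  · rw [Finset.sum_eq_single (⟨svtH s, hb⟩ : Brg289Sec L n)]
    · simp [brg289A, brg289B, brg289K, hb]
    · intro σ _ hσ
      have : svtH s ≠ σ.1 := fun h => hσ (Subtype.ext h.symm)
      simp [brg289A, this]
    · intro h
      exact absurd (Finset.mem_univ _) h
  · rw [if_neg (fun h => hb h.1)]
    apply Finset.sum_eq_zero
    intro σ _
    have : svtH s ≠ σ.1 := fun h => hb (h ▸ σ.2)
    simp [brg289A, this]

theorem brg289_sec_iff {M L : ℕ} [NeZero L] (n : ℕ) (ω : ZMod M × ZMod L × Bool → Bool) (a : ℤ) :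
    ((Finset.range L).filter (fun j : ℕ => svH ω a (j : ℤ) = true)).card = n
      ↔ brg289Sec n (svtH (svtCol ω (a : ZMod M))) := by
  unfold brg289Sec
  rw [svt_card_range (fun b : ZMod L => svtH (svtCol ω (a : ZMod M)) b = true)
    (fun j : ℕ => svH ω a (j : ℤ) = true) (fun j => by simp [svH, svtH, svtCol])]

theorem brg289_adm_iff {M L : ℕ} [NeZero L] (n : ℕ) (ω : ZMod M × ZMod L × Bool → Bool) :
    svAdmN n ω ↔ ∀ i : ZMod M, brg289Sec n (svtH (svtCol ω i)) ∧ svtIce (svtH (svtCol ω i)) (svtCol ω (i + 1))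
      ∧ brg289Sec n (svtH (svtCol ω (i + 1))) := by
  constructor
  · rintro ⟨h1, h2⟩ i
    obtain ⟨a, rfl⟩ := ZMod.intCast_surjective i
    refine ⟨(brg289_sec_iff n ω a).1 (h2 a), ?_, ?_⟩
    · intro b
      obtain ⟨b, rfl⟩ := ZMod.intCast_surjective b
      exact (svt_ice_iff ω a b).1 (h1 (a + 1) b)
    · have := (brg289_sec_iff n ω (a + 1)).1 (h2 (a + 1))
      push_cast at this
      exact this
  · intro h
    refine ⟨fun a b => ?_, fun a => (brg289_sec_iff n ω a).2 (h a).1⟩
    have := (svt_ice_iff ω (a - 1) b).2 (by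
      have h3 := (h ((a - 1 : ℤ) : ZMod M)).2.1 (b : ZMod L)
      exact h3)
    rwa [sub_add_cancel] at this

/-- the weight of a configuration is the product of the column weights -/
theorem brg289_weight {M L : ℕ} [NeZero M] [NeZero L] (c : ℝ) (n : ℕ) (ω : ZMod M × ZMod L × Bool → Bool)
    [Decidable (svAdmN n ω)] :
    (if svAdmN n ω then c ^ svNumC ω else 0)
      = ∏ i : ZMod M, (brg289A L n * brg289B c L n) (svtCol ω i) (svtCol ω (i + 1)) := by
  simp only [brg289_AB_apply]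
  rw [Finset.prod_ite_zero, Finset.prod_pow_eq_pow_sum, ← svt_numC]
  simp only [Finset.mem_univ, true_implies, ← brg289_adm_iff]

/-- **the sector partition function is the trace of a power of the transfer matrix** -/
theorem brg289_Z (c : ℝ) (m L n : ℕ) [NeZero L] :
    svZN c (m + 1) L n = Matrix.trace (brg289T c L n ^ (m + 1)) := by
  classical
  unfold svZN
  rw [tsum_fintype]
  rw [Finset.sum_congr rfl (fun ω _ => brg289_weight c n ω)]
  refine (Fintype.sum_equiv (Equiv.curry (ZMod (m + 1)) (ZMod L × Bool) Bool) _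
    (fun s : ZMod (m + 1) → SvtS L => (∏ i, (brg289A L n * brg289B c L n) (s i) (s (i + 1))))
    (fun ω => rfl)).trans ?_
  rw [svt_zmod_Z, svt_trace_factor]
  rfl

theorem brg289_T_apply (c : ℝ) (L n : ℕ) [NeZero L] (σ σ' : Brg289Sec L n) :
    brg289T c L n σ σ' = ∑ v : ZMod L → Bool, brg289K c n σ.1 (svtMk σ'.1 v) := by
  unfold brg289T
  rw [Matrix.mul_apply, ← (svtSplit L).symm.sum_comp, Fintype.sum_prod_type]
  rw [Finset.sum_eq_single σ'.1]
  · refine Finset.sum_congr rfl fun v _ => ?_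
    have : (svtSplit L).symm (σ'.1, v) = svtMk σ'.1 v := rfl
    rw [this]
    simp [brg289A, brg289B, svt_H_mk]
  · intro h _ hh
    apply Finset.sum_eq_zero
    intro v _
    have : (svtSplit L).symm (h, v) = svtMk h v := rfl
    rw [this]
    simp [brg289A, svt_H_mk, hh]
  · intro h
    exact absurd (Finset.mem_univ _) h

/-- explicit entries: number of vertical columns compatible with the ice rule, times `c ^ #(σ ≠ σ')` -/
theorem brg289_T_apply' (c : ℝ) (L n : ℕ) [NeZero L] (σ σ' : Brg289Sec L n) :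
    brg289T c L n σ σ' = ∑ v : ZMod L → Bool, if svtIce σ.1 (svtMk σ'.1 v) then c ^ svtD σ.1 σ'.1 else 0 := by
  rw [brg289_T_apply]
  refine Finset.sum_congr rfl fun v _ => ?_
  unfold brg289K
  have h := σ'.2
  simp only [svt_H_mk, h, and_true]

theorem brg289_K_nonneg {c : ℝ} (hc : 0 ≤ c) {L : ℕ} [NeZero L] (n : ℕ) (σ : ZMod L → Bool) (s : SvtS L) :
    0 ≤ brg289K c n σ s := by
  unfold brg289K
  split_ifs
  · positivity
  · exact le_rfl

theorem brg289_T_nonneg {c : ℝ} (hc : 0 ≤ c) (L n : ℕ) [NeZero L] (σ σ' : Brg289Sec L n) :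
    0 ≤ brg289T c L n σ σ' := by
  rw [brg289_T_apply]
  exact Finset.sum_nonneg fun v _ => brg289_K_nonneg hc _ _ _

theorem brg289_T_diag_pos {c : ℝ} (hc : 0 ≤ c) (L n : ℕ) [NeZero L] (σ : Brg289Sec L n) :
    0 < brg289T c L n σ σ := by
  rw [brg289_T_apply]
  have h1 : brg289K c n σ.1 (svtMk σ.1 (fun _ => false)) = 1 := by
    unfold brg289K
    rw [if_pos, svt_H_mk, svt_D_self, pow_zero]
    refine ⟨?_, σ.2⟩
    intro b
    simp only [svtMk]
    cases σ.1 b <;> simp
  calc (0 : ℝ) < 1 := one_pos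
    _ = brg289K c n σ.1 (svtMk σ.1 (fun _ => false)) := h1.symm
    _ ≤ _ := Finset.single_le_sum (f := fun v => brg289K c n σ.1 (svtMk σ.1 v))
        (fun v _ => brg289_K_nonneg hc _ _ _) (Finset.mem_univ _)

theorem brg289_T_symm (c : ℝ) (L n : ℕ) [NeZero L] : (brg289T c L n).IsSymm := by
  ext σ σ'
  rw [Matrix.transpose_apply, brg289_T_apply', brg289_T_apply']
  refine Fintype.sum_equiv (Equiv.arrowCongr (Equiv.refl (ZMod L)) Equiv.boolNot) _ _ (fun v => ?_)
  have e : (Equiv.arrowCongr (Equiv.refl (ZMod L)) Equiv.boolNot) v = fun b => !(v b) := rfl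
  rw [e]
  have h1 := svt_ice_flip σ'.1 σ.1 v
  simp only [svt_D_comm σ'.1 σ.1, h1]

theorem brg289_nonempty (L n : ℕ) [NeZero L] (hn : n ≤ L) : Nonempty (Brg289Sec L n) := by
  refine ⟨⟨fun b => decide (b.val < n), ?_⟩⟩
  unfold brg289Sec
  rw [← svt_card_range (fun b : ZMod L => decide (b.val < n) = true) (fun j : ℕ => j % L < n)
    (fun j => by simp [ZMod.val_natCast])]
  have : (Finset.range L).filter (fun j : ℕ => j % L < n) = Finset.range n := by
    ext j
    simp only [Finset.mem_filter, Finset.mem_range]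
    constructor
    · rintro ⟨h1, h2⟩
      rwa [Nat.mod_eq_of_lt h1] at h2
    · intro h
      have h1 : j < L := by omega
      exact ⟨h1, by rwa [Nat.mod_eq_of_lt h1]⟩
  rw [this, Finset.card_range]

/-- **the growth rate of the sector partition function = log of the top eigenvalue of the transfer matrix** -/
theorem brg289_top {c : ℝ} (hc : 0 ≤ c) (L n : ℕ) [NeZero L] (hn : n ≤ L) :
    ∃ Λ : ℝ, 0 < Λ ∧
      Filter.Tendsto (fun M : ℕ => Real.log (svZN c M L n) / M) Filter.atTop (nhds (Real.log Λ)) ∧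
      (∃ v : Brg289Sec L n → ℝ, v ≠ 0 ∧ brg289T c L n *ᵥ v = Λ • v) ∧
      (∀ (v : Brg289Sec L n → ℝ) (μ : ℝ), v ≠ 0 → brg289T c L n *ᵥ v = μ • v → -Λ < μ ∧ μ ≤ Λ) ∧
      (∀ (v : Brg289Sec L n → ℝ) (μ : ℝ), (∀ i, 0 < v i) → brg289T c L n *ᵥ v = μ • v → μ = Λ) := by
  have := brg289_nonempty L n hn
  obtain ⟨Λ, h0, h1, h2, h3, h4⟩ := svsp_top_exists (brg289T c L n) (brg289_T_symm c L n) (brg289_T_nonneg hc L n)
    (brg289_T_diag_pos hc L n)
  refine ⟨Λ, h0, h1.congr' ?_, h2, h3, h4⟩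
  filter_upwards [Filter.eventually_ge_atTop 1] with M hM
  obtain ⟨m, rfl⟩ : ∃ m, M = m + 1 := ⟨M - 1, by omega⟩
  rw [brg289_Z]

theorem brg289_Z_pos {c : ℝ} (hc : 0 ≤ c) (m L n : ℕ) [NeZero L] (hn : n ≤ L) : 0 < svZN c (m + 1) L n := by
  have := brg289_nonempty L n hn
  rw [brg289_Z]
  exact svsp_trace_pos _ (brg289_T_nonneg hc L n) (brg289_T_diag_pos hc L n) _

end Claimed.Agent.R292
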