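/-
R292 / BRIDGE unit (helper129).  Textbook layer, 0 sorry.

Sec. 1  Gaussian tails on the logarithmic scale:
        `log P(N(0,v) ≥ k) / k^2 → -1/(2v)`  (Chernoff above, one unit interval below).
-/
import Mathlib

set_option autoImplicit false
open MeasureTheory ProbabilityTheory Filter Topology
open scoped NNReal ENNReal

namespace Claimed.Agent.R292.Bridge129

/-- Chernoff bound for a centred real Gaussian. -/
theorem brg129_tail_le (v : ℝ≥0) (hv : v ≠ 0) {k : ℝ} (hk : 0 ≤ k) :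
    (gaussianReal 0 v).real (Set.Ici k) ≤ Real.exp (-(k ^ 2) / (2 * v)) := by
  have hv' : (0 : ℝ) < v := by
    have : (0 : ℝ≥0) < v := pos_iff_ne_zero.mpr hv
    exact_mod_cast this
  have h := measure_ge_le_exp_mul_mgf (μ := gaussianReal 0 v) (X := id) (t := k / v) k
    (by positivity) (integrable_exp_mul_gaussianReal _)
  rw [mgf_id_gaussianReal] at h
  have hset : {ω : ℝ | k ≤ id ω} = Set.Ici k := by ext x; simp
  rw [hset] at h
  refine h.trans (le_of_eq ?_)
  rw [← Real.exp_add]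
  congr 1
  field_simp
  ring

/-- Lower bound: the mass of `[k, k+1]`. -/
theorem brg129_tail_ge (v : ℝ≥0) (hv : v ≠ 0) {k : ℝ} (hk : 0 ≤ k) :
    (Real.sqrt (2 * Real.pi * v))⁻¹ * Real.exp (-((k + 1) ^ 2) / (2 * v)) ≤
      (gaussianReal 0 v).real (Set.Ici k) := by
  have hv' : (0 : ℝ) < v := by
    have : (0 : ℝ≥0) < v := pos_iff_ne_zero.mpr hv
    exact_mod_cast this
  have hmono : (gaussianReal 0 v).real (Set.Icc k (k + 1)) ≤ (gaussianReal 0 v).real (Set.Ici k) :=
    measureReal_mono (fun x hx => hx.1) (measure_ne_top _ _)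
  refine le_trans ?_ hmono
  have hE : (gaussianReal 0 v).real (Set.Icc k (k + 1)) =
      ∫ x in Set.Icc k (k + 1), gaussianPDFReal 0 v x := by
    rw [Measure.real, gaussianReal_apply_eq_integral 0 hv, ENNReal.toReal_ofReal]
    exact setIntegral_nonneg measurableSet_Icc (fun x _ => gaussianPDFReal_nonneg 0 v x)
  rw [hE]
  have hc : ∫ _x in Set.Icc k (k + 1),
      ((Real.sqrt (2 * Real.pi * v))⁻¹ * Real.exp (-((k + 1) ^ 2) / (2 * v))) =
      (Real.sqrt (2 * Real.pi * v))⁻¹ * Real.exp (-((k + 1) ^ 2) / (2 * v)) := by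
    rw [setIntegral_const]
    simp [Measure.real]
  rw [← hc]
  refine setIntegral_mono_on ?_ ?_ measurableSet_Icc ?_
  · exact integrableOn_const (by simp)
  · exact (integrable_gaussianPDFReal 0 v).integrableOn
  · intro x hx
    rw [gaussianPDFReal_def]
    have hs : 0 ≤ (Real.sqrt (2 * Real.pi * v))⁻¹ := by positivity
    refine mul_le_mul_of_nonneg_left ?_ hs
    apply Real.exp_le_exp.mpr
    have h1 : (x - 0) ^ 2 ≤ (k + 1) ^ 2 := by
      have hx0 : 0 ≤ x := hk.trans hx.1
      have := hx.2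
      nlinarith
    have h2 : (0 : ℝ) < 2 * v := by positivity
    rw [neg_div, neg_div]
    exact neg_le_neg (div_le_div_of_nonneg_right h1 h2.le)

/-- **Gaussian tail on the logarithmic scale.** -/
theorem brg129_log_tail (v : ℝ≥0) (hv : v ≠ 0) :
    Tendsto (fun k : ℝ => Real.log ((gaussianReal 0 v).real (Set.Ici k)) / k ^ 2) atTop
      (𝓝 (-1 / (2 * (v : ℝ)))) := by
  have hv' : (0 : ℝ) < v := by
    have : (0 : ℝ≥0) < v := pos_iff_ne_zero.mpr hv
    exact_mod_cast this
  set A : ℝ := Real.log ((Real.sqrt (2 * Real.pi * v))⁻¹) with hA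
  -- lower envelope
  have hlow : Tendsto (fun k : ℝ => (A - (k + 1) ^ 2 / (2 * v)) / k ^ 2) atTop
      (𝓝 (-1 / (2 * (v : ℝ)))) := by
    have h1 : Tendsto (fun k : ℝ => k⁻¹) atTop (𝓝 0) := tendsto_inv_atTop_zero
    have h2 : Tendsto (fun k : ℝ => A * (k⁻¹) ^ 2 - (1 + k⁻¹) ^ 2 / (2 * v)) atTop
        (𝓝 (A * 0 ^ 2 - (1 + 0) ^ 2 / (2 * v))) :=
      ((h1.pow 2).const_mul A).sub (((h1.const_add 1).pow 2).div_const _)
    have h3 : (A * 0 ^ 2 - (1 + 0) ^ 2 / (2 * (v : ℝ))) = -1 / (2 * (v : ℝ)) := by ring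
    rw [h3] at h2
    refine h2.congr' ?_
    filter_upwards [eventually_gt_atTop (0 : ℝ)] with k hk
    field_simp
  refine tendsto_of_tendsto_of_tendsto_of_le_of_le' hlow tendsto_const_nhds ?_ ?_
  · filter_upwards [eventually_gt_atTop (0 : ℝ)] with k hk
    have hge := brg129_tail_ge v hv hk.le
    have hpos : 0 < (Real.sqrt (2 * Real.pi * v))⁻¹ * Real.exp (-((k + 1) ^ 2) / (2 * v)) := by
      positivity
    have hlog := Real.log_le_log hpos hge
    rw [Real.log_mul (by positivity) (by positivity), Real.log_exp] at hlog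
    have hk2 : 0 < k ^ 2 := by positivity
    refine div_le_div_of_nonneg_right ?_ hk2.le
    calc A - (k + 1) ^ 2 / (2 * v) = A + -((k + 1) ^ 2) / (2 * v) := by ring
      _ ≤ _ := hlog
  · filter_upwards [eventually_gt_atTop (0 : ℝ)] with k hk
    have hle := brg129_tail_le v hv hk.le
    have hge := brg129_tail_ge v hv hk.le
    have hpos : 0 < (gaussianReal 0 v).real (Set.Ici k) :=
      lt_of_lt_of_le (by positivity) hge
    have hlog := Real.log_le_log hpos hle
    rw [Real.log_exp] at hlog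
    have hk2 : 0 < k ^ 2 := by positivity
    rw [div_le_iff₀ hk2]
    calc _ ≤ -(k ^ 2) / (2 * v) := hlog
      _ = -1 / (2 * v) * k ^ 2 := by ring

end Claimed.Agent.R292.Bridge129
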