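/-
Row 292 (S0540), unit BRIDGE, pen helper129, prefix `brg129_` / `Brg129`.      0 sorry

PURE CALCULUS BETWEEN THE HARD CONTRACTS OF THE BRIDGE AND `SvStiff` (order B-1 of helper27).

The two hard inequalities of the bridge (DKLM 2026 Thm 4.3; AT paper Sec 10.2) come out of a block construction:
blocks of side `N` (aspect `ρ`), height rise `k`, slope `k / N`; limits in the order `N → ∞`, `k → ∞`, `ρ → ∞`, `ε ↓ 0`;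
errors `(1 + C/ρ)`, `(1 + ε)` (lower bound of the sloped free energy), `(1 - ε)^4`, `(1 - C/ρ)` (upper bound), and an
additive gluing cost `G = G(ε, ρ)` per block that does not depend on `k`.

* Sec. 1  `brg129_absorb_ge / _le`   the errors are absorbed, for an ABSTRACT monotone predicate `P k N x`
                                     (so that the `eventually` and the `frequently` forms share the computation).
* Sec. 2  `Brg129Ge / Brg129Le D A`  = `SvStiffGe / SvStiffLe` for an abstract `D M L m` (`Iff.rfl` bridges);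
          `Brg129BlockGe / BlockLe`  the block form;  `brg129_ge_of_block`, `brg129_le_of_block`;
          **`brg129_stiff_of_blocks`** : block bounds for `svDF c` ⟹ `SvStiff c A`.
* Sec. 3  weak forms (189's remark: it is enough to IDENTIFY the stiffness): `Brg129TileGe / TileLe D B`: the block bounds only for
          tori `(i N) × 2 (j N)` tiled exactly, sector `m = k j`, frequently in `j`, `i`;
          **`brg129_eq_of_tiles`** : `SvStiff c A` + tile bounds with `B` ⟹ `A = B`.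
* Sec. 4  probability plug: block probabilities with Gaussian limits (variance `V ρ`, capacity bounds on `1 / (2 V ρ)`)
          + gluing / forcing inequalities ⟹ the hypotheses of Sec. 1 (`brg129_plug_ge`, `brg129_plug_le`).
-/
import Claimed.Agent.R292.Defs.Bridge
import Claimed.Agent.R292.Bridge.Tail129

set_option autoImplicit false

namespace Claimed.Agent.R292

open Filter Topology MeasureTheory ProbabilityTheory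
open scoped NNReal

/-! ## 1. Absorbing the errors -/

/-- lower-bound side: `(a (1 + C/ρ)(1 + ε) k² + G) / N²` is at most `(a + η) (k/N)²` after the limits `k, ρ, ε`. -/
theorem brg129_absorb_ge (P : ℕ → ℕ → ℝ → Prop)
    (mono : ∀ k N x y, x ≤ y → P k N x → P k N y) {a : ℝ} (ha : 0 ≤ a)
    (H : ∃ C : ℝ, 0 ≤ C ∧ ∀ ε : ℝ, 0 < ε → ∀ ρ : ℝ, 1 ≤ ρ → ∃ (G : ℝ) (k₀ : ℕ), ∀ k : ℕ, k₀ ≤ k →
      ∃ N₀ : ℕ, ∀ N : ℕ, N₀ ≤ N →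
        P k N ((a * (1 + C / ρ) * (1 + ε) * (k : ℝ) ^ 2 + G) / (N : ℝ) ^ 2)) :
    ∀ η : ℝ, 0 < η → ∃ k₀ : ℕ, ∀ k : ℕ, k₀ ≤ k → ∃ N₀ : ℕ, ∀ N : ℕ, N₀ ≤ N →
      P k N ((a + η) * ((k : ℝ) / N) ^ 2) := by
  obtain ⟨C, hC, H⟩ := H
  intro η hη
  set τ : ℝ := min 1 (η / (6 * (a + 1))) with hτ
  have hτ0 : 0 < τ := lt_min one_pos (by positivity)
  have hτ1 : τ ≤ 1 := min_le_left _ _
  have hτ2 : τ ≤ η / (6 * (a + 1)) := min_le_right _ _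
  set ρ : ℝ := max 1 (C / τ) with hρ
  have hρ1 : 1 ≤ ρ := le_max_left _ _
  have hρ0 : 0 < ρ := by linarith
  have hCρ : C / ρ ≤ τ := by
    rw [div_le_iff₀ hρ0]
    have h : C / τ ≤ ρ := le_max_right _ _
    rw [div_le_iff₀ hτ0] at h
    linarith
  obtain ⟨G, k₀, H⟩ := H τ hτ0 ρ hρ1
  have hcoef : a * (1 + C / ρ) * (1 + τ) ≤ a + η / 2 := by
    have h1 : 0 ≤ C / ρ := by positivity
    have h2 : (1 + C / ρ) * (1 + τ) ≤ 1 + 3 * τ := by nlinarith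
    have h3 : a * ((1 + C / ρ) * (1 + τ)) ≤ a * (1 + 3 * τ) := mul_le_mul_of_nonneg_left h2 ha
    have h4 : a * τ ≤ η / 6 := by
      have h5 : τ * (6 * (a + 1)) ≤ η := by rwa [le_div_iff₀ (by positivity)] at hτ2
      nlinarith
    nlinarith
  refine ⟨max k₀ (⌈2 * |G| / η⌉₊ + 1), fun k hk => ?_⟩
  have hk0 : k₀ ≤ k := le_trans (le_max_left _ _) hk
  have hk1 : ⌈2 * |G| / η⌉₊ + 1 ≤ k := le_trans (le_max_right _ _) hk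
  obtain ⟨N₀, H⟩ := H k hk0
  refine ⟨N₀, fun N hN => mono k N _ _ ?_ (H N hN)⟩
  have hk1' : ((⌈2 * |G| / η⌉₊ : ℕ) : ℝ) + 1 ≤ k := by exact_mod_cast hk1
  have hkR : 2 * |G| / η ≤ (k : ℝ) := by
    have := Nat.le_ceil (2 * |G| / η)
    linarith
  have hk1R : (1 : ℝ) ≤ k := by
    have : (0 : ℝ) ≤ (⌈2 * |G| / η⌉₊ : ℕ) := Nat.cast_nonneg _
    linarith
  have hG : G ≤ η / 2 * (k : ℝ) ^ 2 := by
    have h1 : 2 * |G| ≤ k * η := by rwa [div_le_iff₀ hη] at hkR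
    have h2 : (k : ℝ) ≤ (k : ℝ) ^ 2 := by nlinarith
    have h3 : G ≤ |G| := le_abs_self G
    nlinarith
  rw [div_pow, ← mul_div_assoc]
  apply div_le_div_of_nonneg_right _ (by positivity)
  have hk2 : 0 ≤ (k : ℝ) ^ 2 := by positivity
  nlinarith [mul_le_mul_of_nonneg_right hcoef hk2]

/-- upper-bound side: `(a (1 - ε)^4 (1 - C/ρ) k² - G) / N²` is at least `(a - η) (k/N)²` after the limits `k, ρ, ε`. -/
theorem brg129_absorb_le (Q : ℕ → ℕ → ℝ → Prop)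
    (anti : ∀ k N x y, y ≤ x → Q k N x → Q k N y) {a : ℝ} (ha : 0 ≤ a)
    (H : ∃ C : ℝ, 0 ≤ C ∧ ∀ ε : ℝ, 0 < ε → ε < 1 → ∀ ρ : ℝ, 1 ≤ ρ → ∃ (G : ℝ) (k₀ : ℕ),
      ∀ k : ℕ, k₀ ≤ k → ∃ N₀ : ℕ, ∀ N : ℕ, N₀ ≤ N →
        Q k N ((a * (1 - ε) ^ 4 * (1 - C / ρ) * (k : ℝ) ^ 2 - G) / (N : ℝ) ^ 2)) :
    ∀ η : ℝ, 0 < η → ∃ k₀ : ℕ, ∀ k : ℕ, k₀ ≤ k → ∃ N₀ : ℕ, ∀ N : ℕ, N₀ ≤ N →
      Q k N ((a - η) * ((k : ℝ) / N) ^ 2) := by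
  obtain ⟨C, hC, H⟩ := H
  intro η hη
  set τ : ℝ := min (1 / 2) (η / (10 * (a + 1))) with hτ
  have hτ0 : 0 < τ := lt_min (by norm_num) (by positivity)
  have hτ1 : τ ≤ 1 / 2 := min_le_left _ _
  have hτ2 : τ ≤ η / (10 * (a + 1)) := min_le_right _ _
  set ρ : ℝ := max 1 (C / τ) with hρ
  have hρ1 : 1 ≤ ρ := le_max_left _ _
  have hρ0 : 0 < ρ := by linarith
  have hCρ : C / ρ ≤ τ := by
    rw [div_le_iff₀ hρ0]
    have h : C / τ ≤ ρ := le_max_right _ _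
    rw [div_le_iff₀ hτ0] at h
    linarith
  obtain ⟨G, k₀, H⟩ := H τ hτ0 (by linarith) ρ hρ1
  have hcoef : a - η / 2 ≤ a * (1 - τ) ^ 4 * (1 - C / ρ) := by
    have h0 : 1 + (4 : ℕ) * (-τ) ≤ (1 + -τ) ^ 4 := one_add_mul_le_pow (by linarith) 4
    have h1 : 1 - 4 * τ ≤ (1 - τ) ^ 4 := by
      have e : (1 + -τ) = 1 - τ := by ring
      rw [e] at h0
      push_cast at h0
      linarith
    have h1' : 0 ≤ (1 - τ) ^ 4 := by positivity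
    have h2 : 1 - 5 * τ ≤ (1 - τ) ^ 4 * (1 - C / ρ) := by
      have h3 : (1 - τ) ^ 4 * (1 - τ) ≤ (1 - τ) ^ 4 * (1 - C / ρ) :=
        mul_le_mul_of_nonneg_left (by linarith) h1'
      have h4 : (1 - 4 * τ) * (1 - τ) ≤ (1 - τ) ^ 4 * (1 - τ) :=
        mul_le_mul_of_nonneg_right h1 (by linarith)
      nlinarith
    have h3 : a * (1 - 5 * τ) ≤ a * ((1 - τ) ^ 4 * (1 - C / ρ)) := mul_le_mul_of_nonneg_left h2 ha
    have h4 : a * τ ≤ η / 10 := by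
      have h5 : τ * (10 * (a + 1)) ≤ η := by rwa [le_div_iff₀ (by positivity)] at hτ2
      nlinarith
    nlinarith
  refine ⟨max k₀ (⌈2 * |G| / η⌉₊ + 1), fun k hk => ?_⟩
  have hk0 : k₀ ≤ k := le_trans (le_max_left _ _) hk
  have hk1 : ⌈2 * |G| / η⌉₊ + 1 ≤ k := le_trans (le_max_right _ _) hk
  obtain ⟨N₀, H⟩ := H k hk0
  refine ⟨N₀, fun N hN => anti k N _ _ ?_ (H N hN)⟩
  have hk1' : ((⌈2 * |G| / η⌉₊ : ℕ) : ℝ) + 1 ≤ k := by exact_mod_cast hk1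
  have hkR : 2 * |G| / η ≤ (k : ℝ) := by
    have := Nat.le_ceil (2 * |G| / η)
    linarith
  have hk1R : (1 : ℝ) ≤ k := by
    have : (0 : ℝ) ≤ (⌈2 * |G| / η⌉₊ : ℕ) := Nat.cast_nonneg _
    linarith
  have hG : G ≤ η / 2 * (k : ℝ) ^ 2 := by
    have h1 : 2 * |G| ≤ k * η := by rwa [div_le_iff₀ hη] at hkR
    have h2 : (k : ℝ) ≤ (k : ℝ) ^ 2 := by nlinarith
    have h3 : G ≤ |G| := le_abs_self G
    nlinarith
  rw [div_pow, ← mul_div_assoc]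
  apply div_le_div_of_nonneg_right _ (by positivity)
  have hk2 : 0 ≤ (k : ℝ) ^ 2 := by positivity
  nlinarith [mul_le_mul_of_nonneg_right hcoef hk2]

/-! ## 2. The strong forms: block bounds for all sectors below / above the slope `k / N` -/

/-- `SvStiffGe` for an abstract free-energy difference `D M L m`. -/
def Brg129Ge (D : ℕ → ℕ → ℕ → ℝ) (A : ℝ) : Prop :=
  ∀ ε : ℝ, 0 < ε → ∃ s₀ : ℝ, 0 < s₀ ∧ ∀ s : ℝ, 0 < s → s < s₀ →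
    ∀ᶠ L : ℕ in atTop, ∀ᶠ M : ℕ in atTop, -(A / 2 * s ^ 2) - ε * s ^ 2 ≤ D M L ⌊s * L⌋₊

/-- `SvStiffLe` for an abstract free-energy difference `D M L m`. -/
def Brg129Le (D : ℕ → ℕ → ℕ → ℝ) (A : ℝ) : Prop :=
  ∀ ε : ℝ, 0 < ε → ∃ s₀ : ℝ, 0 < s₀ ∧ ∀ s : ℝ, 0 < s → s < s₀ →
    ∀ᶠ L : ℕ in atTop, ∀ᶠ M : ℕ in atTop, D M L ⌊s * L⌋₊ ≤ -(A / 2 * s ^ 2) + ε * s ^ 2

theorem brg129_ge_iff (c A : ℝ) : SvStiffGe c A ↔ Brg129Ge (svDF c) A := Iff.rfl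

theorem brg129_le_iff (c A : ℝ) : SvStiffLe c A ↔ Brg129Le (svDF c) A := Iff.rfl

/-- from slopes `k / N` to all small real slopes `s`, lower bound. -/
theorem brg129_ge_of_slope {D : ℕ → ℕ → ℕ → ℝ} {A : ℝ} (hA : 0 ≤ A)
    (H : ∀ η : ℝ, 0 < η → ∃ k₀ : ℕ, ∀ k : ℕ, k₀ ≤ k → ∃ N₀ : ℕ, ∀ N : ℕ, N₀ ≤ N →
      ∀ᶠ L : ℕ in atTop, ∀ᶠ M : ℕ in atTop, ∀ m : ℕ, (m : ℝ) * N ≤ k * L →
        -((A / 2 + η) * ((k : ℝ) / N) ^ 2) ≤ D M L m) :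
    Brg129Ge D A := by
  intro ε hε
  obtain ⟨k₀, H⟩ := H (ε / 2) (by positivity)
  set k := max k₀ 1 with hk
  obtain ⟨N₀, H⟩ := H k (le_max_left _ _)
  have hk1 : (1 : ℝ) ≤ k := by exact_mod_cast le_max_right k₀ 1
  set b : ℝ := A / 2 + ε / 2 with hb
  have hb0 : 0 < b := by positivity
  set N₁ : ℕ := max (max N₀ 1) ⌈6 * b / ε⌉₊ with hN₁
  refine ⟨(k : ℝ) / (N₁ + 1), by positivity, fun s hs hlt => ?_⟩
  set N : ℕ := ⌊(k : ℝ) / s⌋₊ with hN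
  have hks : (N₁ : ℝ) + 1 < k / s := by
    rw [lt_div_iff₀ hs]
    rw [lt_div_iff₀ (by positivity)] at hlt
    linarith
  have hN_le : (N : ℝ) ≤ k / s := Nat.floor_le (by positivity)
  have hN_gt : (k : ℝ) / s < N + 1 := Nat.lt_floor_add_one _
  have hNN₁ : N₁ ≤ N := by
    have : (N₁ : ℝ) < N := by linarith
    exact_mod_cast this.le
  have hN₀ : N₀ ≤ N := le_trans (le_trans (le_max_left _ _) (le_max_left _ _)) hNN₁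
  have hN1 : 1 ≤ N := le_trans (le_trans (le_max_right _ _) (le_max_left _ _)) hNN₁
  have hN1R : (1 : ℝ) ≤ N := by exact_mod_cast hN1
  have hNpos : (0 : ℝ) < N := by linarith
  have hNb : 6 * b / ε ≤ N := by
    have h1 : 6 * b / ε ≤ (⌈6 * b / ε⌉₊ : ℕ) := Nat.le_ceil _
    have h2 : ((⌈6 * b / ε⌉₊ : ℕ) : ℝ) ≤ N := by exact_mod_cast le_trans (le_max_right _ _) hNN₁
    linarith
  have hsN : s * N ≤ k := by
    rw [le_div_iff₀ hs] at hN_le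
    linarith
  have hkN : (k : ℝ) < s * (N + 1) := by
    rw [div_lt_iff₀ hs] at hN_gt
    linarith
  filter_upwards [H N hN₀] with L hL
  filter_upwards [hL] with M hM
  have hm := hM ⌊s * L⌋₊ (by
    have h1 : (⌊s * L⌋₊ : ℝ) ≤ s * L := Nat.floor_le (by positivity)
    have h2 : (0 : ℝ) ≤ L := Nat.cast_nonneg _
    calc (⌊s * L⌋₊ : ℝ) * N ≤ s * L * N := mul_le_mul_of_nonneg_right h1 hNpos.le
      _ = s * N * L := by ring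
      _ ≤ k * L := mul_le_mul_of_nonneg_right hsN h2)
  refine le_trans ?_ hm
  have h1 : (k : ℝ) / N ≤ s * (1 + 1 / N) := by
    rw [div_le_iff₀ hNpos]
    have : s * (1 + 1 / N) * N = s * (N + 1) := by field_simp
    rw [this]
    exact hkN.le
  have h0 : 0 ≤ (k : ℝ) / N := by positivity
  have h2 : ((k : ℝ) / N) ^ 2 ≤ (s * (1 + 1 / N)) ^ 2 := pow_le_pow_left₀ h0 h1 2
  have hinv : (1 : ℝ) / N ≤ 1 := by
    rw [div_le_one hNpos]; exact hN1R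
  have hinv0 : (0 : ℝ) < 1 / N := by positivity
  have h3 : b * (1 + 1 / (N : ℝ)) ^ 2 ≤ A / 2 + ε := by
    have h4 : (1 + 1 / (N : ℝ)) ^ 2 ≤ 1 + 3 * (1 / N) := by nlinarith
    have h5 : b * (1 / (N : ℝ)) ≤ ε / 6 := by
      rw [div_le_iff₀ hε] at hNb
      rw [mul_one_div, div_le_iff₀ hNpos]
      linarith
    have h6 : b * (1 + 1 / (N : ℝ)) ^ 2 ≤ b * (1 + 3 * (1 / N)) := mul_le_mul_of_nonneg_left h4 hb0.le
    linarith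
  have hs2 : 0 ≤ s ^ 2 := by positivity
  have h7 : b * ((k : ℝ) / N) ^ 2 ≤ (A / 2 + ε) * s ^ 2 := by
    calc b * ((k : ℝ) / N) ^ 2 ≤ b * (s * (1 + 1 / N)) ^ 2 := mul_le_mul_of_nonneg_left h2 hb0.le
      _ = (b * (1 + 1 / (N : ℝ)) ^ 2) * s ^ 2 := by ring
      _ ≤ (A / 2 + ε) * s ^ 2 := mul_le_mul_of_nonneg_right h3 hs2
  linarith

/-- from slopes `k / N` to all small real slopes `s`, upper bound. -/
theorem brg129_le_of_slope {D : ℕ → ℕ → ℕ → ℝ} {A : ℝ}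
    (H : ∀ η : ℝ, 0 < η → ∃ k₀ : ℕ, ∀ k : ℕ, k₀ ≤ k → ∃ N₀ : ℕ, ∀ N : ℕ, N₀ ≤ N →
      ∀ᶠ L : ℕ in atTop, ∀ᶠ M : ℕ in atTop, ∀ m : ℕ, (k : ℝ) * L ≤ m * N → m ≤ L →
        D M L m ≤ -((A / 2 - η) * ((k : ℝ) / N) ^ 2)) :
    Brg129Le D A := by
  intro ε hε
  obtain ⟨k₀, H⟩ := H (ε / 2) (by positivity)
  set k := max k₀ 1 with hk
  obtain ⟨N₀, H⟩ := H k (le_max_left _ _)
  have hk1 : (1 : ℝ) ≤ k := by exact_mod_cast le_max_right k₀ 1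
  set b : ℝ := A / 2 - ε / 2 with hb
  set N₁ : ℕ := max (max N₀ 1) ⌈4 * |b| / ε⌉₊ with hN₁
  refine ⟨min 1 ((k : ℝ) / (N₁ + 1)), lt_min one_pos (by positivity), fun s hs hlt => ?_⟩
  have hs1 : s < 1 := lt_of_lt_of_le hlt (min_le_left _ _)
  have hlt' : s < (k : ℝ) / (N₁ + 1) := lt_of_lt_of_le hlt (min_le_right _ _)
  set N : ℕ := ⌊(k : ℝ) / s⌋₊ + 1 with hN
  have hks : (N₁ : ℝ) + 1 < k / s := by
    rw [lt_div_iff₀ hs]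
    rw [lt_div_iff₀ (by positivity)] at hlt'
    linarith
  have hNcast : (N : ℝ) = (⌊(k : ℝ) / s⌋₊ : ℝ) + 1 := by rw [hN]; push_cast; ring
  have hN_le : (N : ℝ) - 1 ≤ k / s := by
    rw [hNcast]
    have := Nat.floor_le (a := (k : ℝ) / s) (by positivity)
    linarith
  have hN_gt : (k : ℝ) / s < N := by
    rw [hNcast]; exact Nat.lt_floor_add_one _
  have hNN₁ : N₁ ≤ N := by
    have : (N₁ : ℝ) < N := by linarith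
    exact_mod_cast this.le
  have hN₀ : N₀ ≤ N := le_trans (le_trans (le_max_left _ _) (le_max_left _ _)) hNN₁
  have hN1 : 1 ≤ N := le_trans (le_trans (le_max_right _ _) (le_max_left _ _)) hNN₁
  have hN1R : (1 : ℝ) ≤ N := by exact_mod_cast hN1
  have hNpos : (0 : ℝ) < N := by linarith
  have hNb : 4 * |b| / ε ≤ N := by
    have h1 : 4 * |b| / ε ≤ (⌈4 * |b| / ε⌉₊ : ℕ) := Nat.le_ceil _
    have h2 : ((⌈4 * |b| / ε⌉₊ : ℕ) : ℝ) ≤ N := by exact_mod_cast le_trans (le_max_right _ _) hNN₁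
    linarith
  have hkN : (k : ℝ) < s * N := by
    rw [div_lt_iff₀ hs] at hN_gt
    linarith
  have hsN : s * (N - 1) ≤ k := by
    rw [le_div_iff₀ hs] at hN_le
    linarith
  -- the gap `s N - k > 0` gives room for the floor
  set g : ℝ := s * N - k with hg
  have hg0 : 0 < g := by rw [hg]; linarith
  filter_upwards [H N hN₀, eventually_ge_atTop ⌈(N : ℝ) / g⌉₊] with L hL hLg
  filter_upwards [hL] with M hM
  have hLR : (N : ℝ) / g ≤ L := by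
    have h1 : (N : ℝ) / g ≤ (⌈(N : ℝ) / g⌉₊ : ℕ) := Nat.le_ceil _
    have h2 : ((⌈(N : ℝ) / g⌉₊ : ℕ) : ℝ) ≤ L := by exact_mod_cast hLg
    linarith
  have hL0 : (0 : ℝ) ≤ L := Nat.cast_nonneg _
  have hfl : s * L - 1 < (⌊s * L⌋₊ : ℝ) := by
    have := Nat.lt_floor_add_one (s * (L : ℝ))
    linarith
  have hfl' : (⌊s * L⌋₊ : ℝ) ≤ s * L := Nat.floor_le (by positivity)
  have hm := hM ⌊s * L⌋₊ (by
    have h1 : (N : ℝ) ≤ g * L := by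
      rw [div_le_iff₀ hg0] at hLR
      linarith
    have h2 : (s * L - 1) * N ≤ (⌊s * L⌋₊ : ℝ) * N := mul_le_mul_of_nonneg_right hfl.le hNpos.le
    have h3 : (s * L - 1) * N = k * L + (g * L - N) := by rw [hg]; ring
    linarith) (by
    have h1 : (⌊s * L⌋₊ : ℝ) ≤ L := by nlinarith
    exact_mod_cast h1)
  refine le_trans hm ?_
  have hlow : s * (1 - 1 / N) ≤ (k : ℝ) / N := by
    rw [le_div_iff₀ hNpos]
    have : s * (1 - 1 / N) * N = s * (N - 1) := by field_simp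
    rw [this]
    exact hsN
  have hup : (k : ℝ) / N ≤ s := by
    rw [div_le_iff₀ hNpos]; exact hkN.le
  have h0 : 0 ≤ (k : ℝ) / N := by positivity
  have hinv : (1 : ℝ) / N ≤ 1 := by
    rw [div_le_one hNpos]; exact hN1R
  have hinv0 : (0 : ℝ) < 1 / N := by positivity
  have hs2 : 0 ≤ s ^ 2 := by positivity
  have hsq_up : ((k : ℝ) / N) ^ 2 ≤ s ^ 2 := pow_le_pow_left₀ h0 hup 2
  have hsq_low : (s * (1 - 1 / N)) ^ 2 ≤ ((k : ℝ) / N) ^ 2 :=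
    pow_le_pow_left₀ (mul_nonneg hs.le (by linarith)) hlow 2
  have key : (A / 2 - ε) * s ^ 2 ≤ b * ((k : ℝ) / N) ^ 2 := by
    rcases le_total 0 b with hb0 | hb0
    · have h4 : 1 - 2 * (1 / (N : ℝ)) ≤ (1 - 1 / (N : ℝ)) ^ 2 := by nlinarith
      have h5 : b * (1 / (N : ℝ)) ≤ ε / 4 := by
        rw [abs_of_nonneg hb0, div_le_iff₀ hε] at hNb
        rw [mul_one_div, div_le_iff₀ hNpos]
        linarith
      have h6 : A / 2 - ε ≤ b * (1 - 1 / (N : ℝ)) ^ 2 := by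
        have : b * (1 - 2 * (1 / (N : ℝ))) ≤ b * (1 - 1 / (N : ℝ)) ^ 2 :=
          mul_le_mul_of_nonneg_left h4 hb0
        linarith
      calc (A / 2 - ε) * s ^ 2 ≤ (b * (1 - 1 / (N : ℝ)) ^ 2) * s ^ 2 :=
            mul_le_mul_of_nonneg_right h6 hs2
        _ = b * (s * (1 - 1 / N)) ^ 2 := by ring
        _ ≤ b * ((k : ℝ) / N) ^ 2 := mul_le_mul_of_nonneg_left hsq_low hb0
    · have h1 : b * s ^ 2 ≤ b * ((k : ℝ) / N) ^ 2 := mul_le_mul_of_nonpos_left hsq_up hb0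
      have h2 : (A / 2 - ε) * s ^ 2 ≤ b * s ^ 2 := mul_le_mul_of_nonneg_right (by linarith) hs2
      linarith
  linarith

/-- **block form of the lower bound** of the sloped free energy (limits `N`, `k`, `ρ`, `ε`). -/
def Brg129BlockGe (D : ℕ → ℕ → ℕ → ℝ) (A : ℝ) : Prop :=
  ∃ C : ℝ, 0 ≤ C ∧ ∀ ε : ℝ, 0 < ε → ∀ ρ : ℝ, 1 ≤ ρ → ∃ (G : ℝ) (k₀ : ℕ), ∀ k : ℕ, k₀ ≤ k →
    ∃ N₀ : ℕ, ∀ N : ℕ, N₀ ≤ N → ∀ᶠ L : ℕ in atTop, ∀ᶠ M : ℕ in atTop, ∀ m : ℕ, (m : ℝ) * N ≤ k * L →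
      -((A / 2 * (1 + C / ρ) * (1 + ε) * (k : ℝ) ^ 2 + G) / (N : ℝ) ^ 2) ≤ D M L m

/-- **block form of the upper bound** of the sloped free energy (limits `N`, `k`, `ρ`, `ε`). -/
def Brg129BlockLe (D : ℕ → ℕ → ℕ → ℝ) (A : ℝ) : Prop :=
  ∃ C : ℝ, 0 ≤ C ∧ ∀ ε : ℝ, 0 < ε → ε < 1 → ∀ ρ : ℝ, 1 ≤ ρ → ∃ (G : ℝ) (k₀ : ℕ), ∀ k : ℕ, k₀ ≤ k →
    ∃ N₀ : ℕ, ∀ N : ℕ, N₀ ≤ N → ∀ᶠ L : ℕ in atTop, ∀ᶠ M : ℕ in atTop, ∀ m : ℕ,
      (k : ℝ) * L ≤ m * N → m ≤ L →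
      D M L m ≤ -((A / 2 * (1 - ε) ^ 4 * (1 - C / ρ) * (k : ℝ) ^ 2 - G) / (N : ℝ) ^ 2)

theorem brg129_ge_of_block {D : ℕ → ℕ → ℕ → ℝ} {A : ℝ} (hA : 0 ≤ A) (H : Brg129BlockGe D A) :
    Brg129Ge D A := by
  refine brg129_ge_of_slope hA ?_
  refine brg129_absorb_ge
    (fun k N x => ∀ᶠ L : ℕ in atTop, ∀ᶠ M : ℕ in atTop, ∀ m : ℕ, (m : ℝ) * N ≤ k * L → -x ≤ D M L m)
    ?_ (by positivity) H
  intro k N x y hxy h
  filter_upwards [h] with L hL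
  filter_upwards [hL] with M hM m hm
  linarith [hM m hm]

theorem brg129_le_of_block {D : ℕ → ℕ → ℕ → ℝ} {A : ℝ} (hA : 0 ≤ A) (H : Brg129BlockLe D A) :
    Brg129Le D A := by
  refine brg129_le_of_slope ?_
  refine brg129_absorb_le
    (fun k N x => ∀ᶠ L : ℕ in atTop, ∀ᶠ M : ℕ in atTop, ∀ m : ℕ, (k : ℝ) * L ≤ m * N → m ≤ L →
      D M L m ≤ -x)
    ?_ (by positivity) H
  intro k N x y hxy h
  filter_upwards [h] with L hL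
  filter_upwards [hL] with M hM m hm hmL
  linarith [hM m hm hmL]

/-- **the two block bounds give the stiffness.** -/
theorem brg129_stiff_of_blocks {c A : ℝ} (hA : 0 ≤ A)
    (h1 : Brg129BlockLe (svDF c) A) (h2 : Brg129BlockGe (svDF c) A) : SvStiff c A :=
  brg_stiff_of_le_ge (brg129_le_of_block hA h1) (brg129_ge_of_block hA h2)

/-! ## 3. The weak forms: it is enough to IDENTIFY the stiffness, on exactly tiled tori -/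

theorem brg129_le_ge_of_stiff {c A : ℝ} (h : SvStiff c A) : SvStiffLe c A ∧ SvStiffGe c A := by
  constructor
  · intro ε hε
    obtain ⟨s₀, hs₀, H⟩ := h ε hε
    refine ⟨s₀, hs₀, fun s hs hlt => ?_⟩
    filter_upwards [H s hs hlt] with L hL
    filter_upwards [hL] with M hM
    have := (abs_le.1 hM).2
    unfold svDF
    linarith
  · intro ε hε
    obtain ⟨s₀, hs₀, H⟩ := h ε hε
    refine ⟨s₀, hs₀, fun s hs hlt => ?_⟩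
    filter_upwards [H s hs hlt] with L hL
    filter_upwards [hL] with M hM
    have := (abs_le.1 hM).1
    unfold svDF
    linarith

/-- on a torus tiled exactly the sector of slope `k / N` is `m = k j`. -/
theorem brg129_floor_tile (k j : ℕ) {N : ℕ} (hN : 0 < N) :
    ⌊((k : ℝ) / N) * ((j * N : ℕ) : ℝ)⌋₊ = k * j := by
  have hN' : (N : ℝ) ≠ 0 := by exact_mod_cast hN.ne'
  have : ((k : ℝ) / N) * ((j * N : ℕ) : ℝ) = ((k * j : ℕ) : ℝ) := by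
    push_cast
    field_simp
  rw [this, Nat.floor_natCast]

theorem brg129_tendsto_mul {N : ℕ} (hN : 0 < N) : Tendsto (fun j : ℕ => j * N) atTop atTop :=
  tendsto_atTop_mono (fun j => Nat.le_mul_of_pos_right j hN) tendsto_id

/-- **tile form of the lower bound**: tori `(i N) × 2 (j N)`, sector `m = k j`, frequently in `j`, `i`. -/
def Brg129TileGe (D : ℕ → ℕ → ℕ → ℝ) (B : ℝ) : Prop :=
  ∃ C : ℝ, 0 ≤ C ∧ ∀ ε : ℝ, 0 < ε → ∀ ρ : ℝ, 1 ≤ ρ → ∃ (G : ℝ) (k₀ : ℕ), ∀ k : ℕ, k₀ ≤ k →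
    ∃ N₀ : ℕ, ∀ N : ℕ, N₀ ≤ N → ∃ᶠ j : ℕ in atTop, ∃ᶠ i : ℕ in atTop,
      -((B / 2 * (1 + C / ρ) * (1 + ε) * (k : ℝ) ^ 2 + G) / (N : ℝ) ^ 2) ≤ D (i * N) (j * N) (k * j)

/-- **tile form of the upper bound**. -/
def Brg129TileLe (D : ℕ → ℕ → ℕ → ℝ) (B : ℝ) : Prop :=
  ∃ C : ℝ, 0 ≤ C ∧ ∀ ε : ℝ, 0 < ε → ε < 1 → ∀ ρ : ℝ, 1 ≤ ρ → ∃ (G : ℝ) (k₀ : ℕ), ∀ k : ℕ, k₀ ≤ k →
    ∃ N₀ : ℕ, ∀ N : ℕ, N₀ ≤ N → ∃ᶠ j : ℕ in atTop, ∃ᶠ i : ℕ in atTop,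
      D (i * N) (j * N) (k * j) ≤ -((B / 2 * (1 - ε) ^ 4 * (1 - C / ρ) * (k : ℝ) ^ 2 - G) / (N : ℝ) ^ 2)

/-- choice of a slope `k / N < s₀` with `N ≥ N₀`. -/
theorem brg129_exists_slope (k N₀ : ℕ) (hk : 1 ≤ k) {s₀ : ℝ} (hs₀ : 0 < s₀) :
    ∃ N : ℕ, N₀ ≤ N ∧ 0 < N ∧ 0 < (k : ℝ) / N ∧ (k : ℝ) / N < s₀ := by
  refine ⟨max (max N₀ 1) (⌈(k : ℝ) / s₀⌉₊ + 1), le_trans (le_max_left _ _) (le_max_left _ _),
    lt_of_lt_of_le one_pos (le_trans (le_max_right _ _) (le_max_left _ _)), ?_, ?_⟩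
  · have h1 : (0 : ℝ) < k := by exact_mod_cast hk
    have h2 : (0 : ℝ) < (max (max N₀ 1) (⌈(k : ℝ) / s₀⌉₊ + 1) : ℕ) := by
      exact_mod_cast lt_of_lt_of_le one_pos (le_trans (le_max_right N₀ 1) (le_max_left _ _))
    positivity
  · have h2 : (0 : ℝ) < (max (max N₀ 1) (⌈(k : ℝ) / s₀⌉₊ + 1) : ℕ) := by
      exact_mod_cast lt_of_lt_of_le one_pos (le_trans (le_max_right N₀ 1) (le_max_left _ _))
    rw [div_lt_iff₀ h2]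
    have h3 : ((⌈(k : ℝ) / s₀⌉₊ + 1 : ℕ) : ℝ) ≤ (max (max N₀ 1) (⌈(k : ℝ) / s₀⌉₊ + 1) : ℕ) := by
      exact_mod_cast le_max_right _ _
    have h4 : (k : ℝ) / s₀ ≤ (⌈(k : ℝ) / s₀⌉₊ : ℕ) := Nat.le_ceil _
    push_cast at h3
    have h5 : (k : ℝ) / s₀ < (max (max N₀ 1) (⌈(k : ℝ) / s₀⌉₊ + 1) : ℕ) := by
      push_cast
      linarith
    rw [div_lt_iff₀ hs₀] at h5
    linarith

theorem brg129_le_of_tileGe {D : ℕ → ℕ → ℕ → ℝ} {A B : ℝ} (hB : 0 ≤ B)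
    (hA : Brg129Le D A) (hT : Brg129TileGe D B) : A ≤ B := by
  by_contra hlt
  replace hlt := not_le.1 hlt
  have hη : 0 < (A - B) / 8 := by linarith
  obtain ⟨k₀, H⟩ := brg129_absorb_ge
    (fun k N x => ∃ᶠ j : ℕ in atTop, ∃ᶠ i : ℕ in atTop, -x ≤ D (i * N) (j * N) (k * j))
    (by
      intro k N x y hxy h
      refine h.mono (fun j hj => hj.mono (fun i hi => ?_))
      linarith) (by positivity : 0 ≤ B / 2) hT ((A - B) / 8) hη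
  obtain ⟨s₀, hs₀, HA⟩ := hA ((A - B) / 8) hη
  obtain ⟨N₀, H⟩ := H (max k₀ 1) (le_max_left _ _)
  obtain ⟨N, hN₀, hN, hs, hlt'⟩ := brg129_exists_slope (max k₀ 1) N₀ (le_max_right _ _) hs₀
  have h1 := HA _ hs hlt'
  have h2 := H N hN₀
  have tj := brg129_tendsto_mul hN
  have h1' : ∀ᶠ j : ℕ in atTop, ∀ᶠ i : ℕ in atTop,
      D (i * N) (j * N) ⌊((max k₀ 1 : ℕ) : ℝ) / N * ((j * N : ℕ) : ℝ)⌋₊ ≤
        -(A / 2 * (((max k₀ 1 : ℕ) : ℝ) / N) ^ 2) + (A - B) / 8 * (((max k₀ 1 : ℕ) : ℝ) / N) ^ 2 :=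
    (tj.eventually h1).mono (fun j hj => tj.eventually hj)
  obtain ⟨j, hj2, hj1⟩ := (h2.and_eventually h1').exists
  obtain ⟨i, hi2, hi1⟩ := (hj2.and_eventually hj1).exists
  rw [brg129_floor_tile _ _ hN] at hi1
  have hs2 : 0 < (((max k₀ 1 : ℕ) : ℝ) / N) ^ 2 := by positivity
  nlinarith

theorem brg129_ge_of_tileLe {D : ℕ → ℕ → ℕ → ℝ} {A B : ℝ} (hB : 0 ≤ B)
    (hA : Brg129Ge D A) (hT : Brg129TileLe D B) : B ≤ A := by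
  by_contra hlt
  replace hlt := not_le.1 hlt
  have hη : 0 < (B - A) / 8 := by linarith
  obtain ⟨k₀, H⟩ := brg129_absorb_le
    (fun k N x => ∃ᶠ j : ℕ in atTop, ∃ᶠ i : ℕ in atTop, D (i * N) (j * N) (k * j) ≤ -x)
    (by
      intro k N x y hxy h
      refine h.mono (fun j hj => hj.mono (fun i hi => ?_))
      linarith) (by positivity : 0 ≤ B / 2) hT ((B - A) / 8) hη
  obtain ⟨s₀, hs₀, HA⟩ := hA ((B - A) / 8) hη
  obtain ⟨N₀, H⟩ := H (max k₀ 1) (le_max_left _ _)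
  obtain ⟨N, hN₀, hN, hs, hlt'⟩ := brg129_exists_slope (max k₀ 1) N₀ (le_max_right _ _) hs₀
  have h1 := HA _ hs hlt'
  have h2 := H N hN₀
  have tj := brg129_tendsto_mul hN
  have h1' : ∀ᶠ j : ℕ in atTop, ∀ᶠ i : ℕ in atTop,
      -(A / 2 * (((max k₀ 1 : ℕ) : ℝ) / N) ^ 2) - (B - A) / 8 * (((max k₀ 1 : ℕ) : ℝ) / N) ^ 2 ≤
      D (i * N) (j * N) ⌊((max k₀ 1 : ℕ) : ℝ) / N * ((j * N : ℕ) : ℝ)⌋₊ :=
    (tj.eventually h1).mono (fun j hj => tj.eventually hj)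
  obtain ⟨j, hj2, hj1⟩ := (h2.and_eventually h1').exists
  obtain ⟨i, hi2, hi1⟩ := (hj2.and_eventually hj1).exists
  rw [brg129_floor_tile _ _ hN] at hi1
  have hs2 : 0 < (((max k₀ 1 : ℕ) : ℝ) / N) ^ 2 := by positivity
  nlinarith

/-- **identification of the stiffness from tile bounds** (weak form of the bridge: `at_bridge'`). -/
theorem brg129_eq_of_tiles {c A B : ℝ} (hB : 0 ≤ B) (h : SvStiff c A)
    (h1 : Brg129TileGe (svDF c) B) (h2 : Brg129TileLe (svDF c) B) : A = B :=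
  le_antisymm (brg129_le_of_tileGe hB (brg129_le_ge_of_stiff h).1 h1)
    (brg129_ge_of_tileLe hB (brg129_le_ge_of_stiff h).2 h2)

/-! ## 4. Probability plug: block probabilities with Gaussian limits -/

open Claimed.Agent.R292.Bridge129 in
/-- LOWER BOUND.  `p ρ k N` = probability that a block of side `N`, aspect `ρ`, carries the rise `k`; in the limit `N → ∞` it is at least
half of the Gaussian tail of variance `V ρ`; `1 / (2 V ρ) ≤ a ρ (1 + C/ρ)` (capacity); gluing costs `g = g(ρ)` per block. -/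
theorem brg129_plug_ge (P : ℕ → ℕ → ℝ → Prop)
    (mono : ∀ k N x y, x ≤ y → P k N x → P k N y) {a C : ℝ} (hC : 0 ≤ C)
    (V : ℝ → ℝ≥0) (p : ℝ → ℕ → ℕ → ℝ)
    (hV : ∀ ρ : ℝ, 1 ≤ ρ → V ρ ≠ 0 ∧ 1 / (2 * (V ρ : ℝ)) ≤ a * ρ * (1 + C / ρ))
    (hlim : ∀ ρ : ℝ, 1 ≤ ρ → ∀ k : ℕ, ∀ᶠ N : ℕ in atTop,
      (gaussianReal 0 (V ρ)).real (Set.Ici (k : ℝ)) / 2 ≤ p ρ k N)
    (hglue : ∀ ρ : ℝ, 1 ≤ ρ → ∃ g : ℝ, ∀ k : ℕ, ∀ᶠ N : ℕ in atTop,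
      P k N ((g - Real.log (p ρ k N)) / (ρ * (N : ℝ) ^ 2))) :
    ∃ C : ℝ, 0 ≤ C ∧ ∀ ε : ℝ, 0 < ε → ∀ ρ : ℝ, 1 ≤ ρ → ∃ (G : ℝ) (k₀ : ℕ), ∀ k : ℕ, k₀ ≤ k →
      ∃ N₀ : ℕ, ∀ N : ℕ, N₀ ≤ N →
        P k N ((a * (1 + C / ρ) * (1 + ε) * (k : ℝ) ^ 2 + G) / (N : ℝ) ^ 2) := by
  refine ⟨C, hC, fun ε hε ρ hρ => ?_⟩
  obtain ⟨hV0, hVc⟩ := hV ρ hρ
  obtain ⟨g, hg⟩ := hglue ρ hρ
  have hρ0 : 0 < ρ := by linarith
  have hVpos : (0 : ℝ) < V ρ := by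
    have : (0 : ℝ≥0) < V ρ := pos_iff_ne_zero.mpr hV0
    exact_mod_cast this
  have hw : 0 < 1 / (2 * (V ρ : ℝ)) := by positivity
  have htail := (brg129_log_tail (V ρ) hV0).comp tendsto_natCast_atTop_atTop
  have hlt : -(1 / (2 * (V ρ : ℝ))) * (1 + ε) < -1 / (2 * (V ρ : ℝ)) := by
    have : -1 / (2 * (V ρ : ℝ)) = -(1 / (2 * (V ρ : ℝ))) := by ring
    rw [this]
    nlinarith
  have hev := (htail.eventually (lt_mem_nhds hlt)).and (eventually_ge_atTop 1)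
  obtain ⟨k₀, hk₀⟩ := eventually_atTop.1 hev
  refine ⟨(|g| + Real.log 2) / ρ, k₀, fun k hk => ?_⟩
  obtain ⟨hk1, hk2⟩ := hk₀ k hk
  have hkR : (1 : ℝ) ≤ k := by exact_mod_cast hk2
  obtain ⟨N₀, hN₀⟩ := eventually_atTop.1 (((hlim ρ hρ k).and (hg k)).and (eventually_ge_atTop 1))
  refine ⟨N₀, fun N hN => ?_⟩
  obtain ⟨⟨hp, hP⟩, hN1⟩ := hN₀ N hN
  refine mono k N _ _ ?_ hP
  have hNpos : (0 : ℝ) < N := by exact_mod_cast hN1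
  have htpos : 0 < (gaussianReal 0 (V ρ)).real (Set.Ici (k : ℝ)) :=
    lt_of_lt_of_le (by positivity) (brg129_tail_ge (V ρ) hV0 (by linarith : (0 : ℝ) ≤ k))
  have hlogp : Real.log ((gaussianReal 0 (V ρ)).real (Set.Ici (k : ℝ))) - Real.log 2 ≤
      Real.log (p ρ k N) := by
    rw [← Real.log_div htpos.ne' (by norm_num)]
    exact Real.log_le_log (by positivity) hp
  have hk2pos : (0 : ℝ) < (k : ℝ) ^ 2 := by positivity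
  have hlogt : -(1 / (2 * (V ρ : ℝ))) * (1 + ε) * (k : ℝ) ^ 2 ≤
      Real.log ((gaussianReal 0 (V ρ)).real (Set.Ici (k : ℝ))) := by
    have h := hk1
    simp only [Function.comp] at h
    rw [lt_div_iff₀ hk2pos] at h
    exact h.le
  have hmain : g - Real.log (p ρ k N) ≤
      ρ * (a * (1 + C / ρ) * (1 + ε) * (k : ℝ) ^ 2 + (|g| + Real.log 2) / ρ) := by
    have h1 : ρ * (a * (1 + C / ρ) * (1 + ε) * (k : ℝ) ^ 2 + (|g| + Real.log 2) / ρ) =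
        (a * ρ * (1 + C / ρ)) * ((1 + ε) * (k : ℝ) ^ 2) + (|g| + Real.log 2) := by
      field_simp
    rw [h1]
    have h2 : 1 / (2 * (V ρ : ℝ)) * ((1 + ε) * (k : ℝ) ^ 2) ≤
        (a * ρ * (1 + C / ρ)) * ((1 + ε) * (k : ℝ) ^ 2) :=
      mul_le_mul_of_nonneg_right hVc (by positivity)
    have h3 : g ≤ |g| := le_abs_self g
    nlinarith
  rw [div_le_div_iff₀ (by positivity) (by positivity)]
  calc (g - Real.log (p ρ k N)) * (N : ℝ) ^ 2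
      ≤ (ρ * (a * (1 + C / ρ) * (1 + ε) * (k : ℝ) ^ 2 + (|g| + Real.log 2) / ρ)) * (N : ℝ) ^ 2 :=
        mul_le_mul_of_nonneg_right hmain (by positivity)
    _ = (a * (1 + C / ρ) * (1 + ε) * (k : ℝ) ^ 2 + (|g| + Real.log 2) / ρ) * (ρ * (N : ℝ) ^ 2) := by ring

open Claimed.Agent.R292.Bridge129 in
/-- UPPER BOUND.  `q ε ρ k N` = probability that a block carries the rise `(1 - ε) k`; in the limit `N → ∞` it is at most twice the Gaussian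
tail of variance `V ρ` at `(1 - ε) k`; `a ρ (1 - C/ρ) ≤ 1 / (2 V ρ)`; a torus of slope `≥ k / N` forces the rise in a fraction
`(1 - ε)^2` of the blocks, up to an entropy cost `g = g(ε, ρ)` per block. -/
theorem brg129_plug_le (Q : ℕ → ℕ → ℝ → Prop)
    (anti : ∀ k N x y, y ≤ x → Q k N x → Q k N y) {a C : ℝ} (hC : 0 ≤ C)
    (V : ℝ → ℝ≥0) (q : ℝ → ℝ → ℕ → ℕ → ℝ)
    (hV : ∀ ρ : ℝ, 1 ≤ ρ → V ρ ≠ 0 ∧ a * ρ * (1 - C / ρ) ≤ 1 / (2 * (V ρ : ℝ)))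
    (hlim : ∀ ε : ℝ, 0 < ε → ε < 1 → ∀ ρ : ℝ, 1 ≤ ρ → ∀ k : ℕ, ∀ᶠ N : ℕ in atTop,
      0 < q ε ρ k N ∧ q ε ρ k N ≤ 2 * (gaussianReal 0 (V ρ)).real (Set.Ici ((1 - ε) * (k : ℝ))))
    (hforce : ∀ ε : ℝ, 0 < ε → ε < 1 → ∀ ρ : ℝ, 1 ≤ ρ → ∃ g : ℝ, ∀ k : ℕ, ∀ᶠ N : ℕ in atTop,
      Q k N (((1 - ε) ^ 2 * (-Real.log (q ε ρ k N)) - g) / (ρ * (N : ℝ) ^ 2))) :
    ∃ C : ℝ, 0 ≤ C ∧ ∀ ε : ℝ, 0 < ε → ε < 1 → ∀ ρ : ℝ, 1 ≤ ρ → ∃ (G : ℝ) (k₀ : ℕ),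
      ∀ k : ℕ, k₀ ≤ k → ∃ N₀ : ℕ, ∀ N : ℕ, N₀ ≤ N →
        Q k N ((a * (1 - ε) ^ 4 * (1 - C / ρ) * (k : ℝ) ^ 2 - G) / (N : ℝ) ^ 2) := by
  refine ⟨C, hC, fun ε hε hε1 ρ hρ => ?_⟩
  obtain ⟨hV0, hVc⟩ := hV ρ hρ
  obtain ⟨g, hg⟩ := hforce ε hε hε1 ρ hρ
  have hρ0 : 0 < ρ := by linarith
  have hVpos : (0 : ℝ) < V ρ := by
    have : (0 : ℝ≥0) < V ρ := pos_iff_ne_zero.mpr hV0
    exact_mod_cast this
  refine ⟨(|g| + Real.log 2) / ρ, 0, fun k _ => ?_⟩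
  obtain ⟨N₀, hN₀⟩ := eventually_atTop.1
    (((hlim ε hε hε1 ρ hρ k).and (hg k)).and (eventually_ge_atTop 1))
  refine ⟨N₀, fun N hN => ?_⟩
  obtain ⟨⟨⟨hq0, hq⟩, hQ⟩, hN1⟩ := hN₀ N hN
  refine anti k N _ _ ?_ hQ
  have hNpos : (0 : ℝ) < N := by exact_mod_cast hN1
  have hx0 : 0 ≤ (1 - ε) * (k : ℝ) := mul_nonneg (by linarith) (Nat.cast_nonneg _)
  have hch := brg129_tail_le (V ρ) hV0 hx0
  have hlogq : Real.log (q ε ρ k N) ≤ Real.log 2 + -(((1 - ε) * (k : ℝ)) ^ 2) / (2 * (V ρ : ℝ)) := by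
    have h1 : q ε ρ k N ≤ 2 * Real.exp (-(((1 - ε) * (k : ℝ)) ^ 2) / (2 * (V ρ : ℝ))) := by linarith
    have h2 := Real.log_le_log hq0 h1
    rwa [Real.log_mul (by norm_num) (Real.exp_pos _).ne', Real.log_exp] at h2
  have hl2 : 0 ≤ Real.log 2 := Real.log_nonneg (by norm_num)
  have he2 : 0 ≤ (1 - ε) ^ 2 := by positivity
  have he2' : (1 - ε) ^ 2 ≤ 1 := by
    have : 0 ≤ 1 - ε := by linarith
    nlinarith
  have hmain : ρ * (a * (1 - ε) ^ 4 * (1 - C / ρ) * (k : ℝ) ^ 2 - (|g| + Real.log 2) / ρ) ≤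
      (1 - ε) ^ 2 * (-Real.log (q ε ρ k N)) - g := by
    have h1 : ρ * (a * (1 - ε) ^ 4 * (1 - C / ρ) * (k : ℝ) ^ 2 - (|g| + Real.log 2) / ρ) =
        (a * ρ * (1 - C / ρ)) * ((1 - ε) ^ 4 * (k : ℝ) ^ 2) - (|g| + Real.log 2) := by
      field_simp
    rw [h1]
    have h2 : (a * ρ * (1 - C / ρ)) * ((1 - ε) ^ 4 * (k : ℝ) ^ 2) ≤
        1 / (2 * (V ρ : ℝ)) * ((1 - ε) ^ 4 * (k : ℝ) ^ 2) :=
      mul_le_mul_of_nonneg_right hVc (by positivity)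
    have h3 : g ≤ |g| := le_abs_self g
    have h4 : (1 - ε) ^ 2 * (-(Real.log 2 + -(((1 - ε) * (k : ℝ)) ^ 2) / (2 * (V ρ : ℝ)))) ≤
        (1 - ε) ^ 2 * (-Real.log (q ε ρ k N)) :=
      mul_le_mul_of_nonneg_left (by linarith) he2
    have h5 : (1 - ε) ^ 2 * (-(Real.log 2 + -(((1 - ε) * (k : ℝ)) ^ 2) / (2 * (V ρ : ℝ)))) =
        1 / (2 * (V ρ : ℝ)) * ((1 - ε) ^ 4 * (k : ℝ) ^ 2) - (1 - ε) ^ 2 * Real.log 2 := by
      field_simp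
      ring
    have h6 : (1 - ε) ^ 2 * Real.log 2 ≤ Real.log 2 := by nlinarith
    linarith
  rw [div_le_div_iff₀ (by positivity) (by positivity)]
  calc (a * (1 - ε) ^ 4 * (1 - C / ρ) * (k : ℝ) ^ 2 - (|g| + Real.log 2) / ρ) * (ρ * (N : ℝ) ^ 2)
      = (ρ * (a * (1 - ε) ^ 4 * (1 - C / ρ) * (k : ℝ) ^ 2 - (|g| + Real.log 2) / ρ)) * (N : ℝ) ^ 2 := by
        ring
    _ ≤ ((1 - ε) ^ 2 * (-Real.log (q ε ρ k N)) - g) * (N : ℝ) ^ 2 :=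
        mul_le_mul_of_nonneg_right hmain (by positivity)

/-! ## 5. The four corollaries in the vocabulary of Sec. 2 and 3 -/

/-- block probabilities ⟹ `Brg129BlockGe`. -/
theorem brg129_blockGe_of_prob {D : ℕ → ℕ → ℕ → ℝ} {A C : ℝ} (hC : 0 ≤ C)
    (V : ℝ → ℝ≥0) (p : ℝ → ℕ → ℕ → ℝ)
    (hV : ∀ ρ : ℝ, 1 ≤ ρ → V ρ ≠ 0 ∧ 1 / (2 * (V ρ : ℝ)) ≤ A / 2 * ρ * (1 + C / ρ))
    (hlim : ∀ ρ : ℝ, 1 ≤ ρ → ∀ k : ℕ, ∀ᶠ N : ℕ in atTop,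
      (gaussianReal 0 (V ρ)).real (Set.Ici (k : ℝ)) / 2 ≤ p ρ k N)
    (hglue : ∀ ρ : ℝ, 1 ≤ ρ → ∃ g : ℝ, ∀ k : ℕ, ∀ᶠ N : ℕ in atTop,
      ∀ᶠ L : ℕ in atTop, ∀ᶠ M : ℕ in atTop, ∀ m : ℕ, (m : ℝ) * N ≤ k * L →
        -((g - Real.log (p ρ k N)) / (ρ * (N : ℝ) ^ 2)) ≤ D M L m) :
    Brg129BlockGe D A :=
  brg129_plug_ge
    (fun k N x => ∀ᶠ L : ℕ in atTop, ∀ᶠ M : ℕ in atTop, ∀ m : ℕ, (m : ℝ) * N ≤ k * L → -x ≤ D M L m)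
    (by
      intro k N x y hxy h
      filter_upwards [h] with L hL
      filter_upwards [hL] with M hM m hm
      linarith [hM m hm]) hC V p hV hlim hglue

/-- block probabilities ⟹ `Brg129BlockLe`. -/
theorem brg129_blockLe_of_prob {D : ℕ → ℕ → ℕ → ℝ} {A C : ℝ} (hC : 0 ≤ C)
    (V : ℝ → ℝ≥0) (q : ℝ → ℝ → ℕ → ℕ → ℝ)
    (hV : ∀ ρ : ℝ, 1 ≤ ρ → V ρ ≠ 0 ∧ A / 2 * ρ * (1 - C / ρ) ≤ 1 / (2 * (V ρ : ℝ)))
    (hlim : ∀ ε : ℝ, 0 < ε → ε < 1 → ∀ ρ : ℝ, 1 ≤ ρ → ∀ k : ℕ, ∀ᶠ N : ℕ in atTop,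
      0 < q ε ρ k N ∧ q ε ρ k N ≤ 2 * (gaussianReal 0 (V ρ)).real (Set.Ici ((1 - ε) * (k : ℝ))))
    (hforce : ∀ ε : ℝ, 0 < ε → ε < 1 → ∀ ρ : ℝ, 1 ≤ ρ → ∃ g : ℝ, ∀ k : ℕ, ∀ᶠ N : ℕ in atTop,
      ∀ᶠ L : ℕ in atTop, ∀ᶠ M : ℕ in atTop, ∀ m : ℕ, (k : ℝ) * L ≤ m * N → m ≤ L →
        D M L m ≤ -(((1 - ε) ^ 2 * (-Real.log (q ε ρ k N)) - g) / (ρ * (N : ℝ) ^ 2))) :
    Brg129BlockLe D A :=
  brg129_plug_le
    (fun k N x => ∀ᶠ L : ℕ in atTop, ∀ᶠ M : ℕ in atTop, ∀ m : ℕ, (k : ℝ) * L ≤ m * N → m ≤ L →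
      D M L m ≤ -x)
    (by
      intro k N x y hxy h
      filter_upwards [h] with L hL
      filter_upwards [hL] with M hM m hm hmL
      linarith [hM m hm hmL]) hC V q hV hlim hforce

/-- block probabilities ⟹ `Brg129TileGe`. -/
theorem brg129_tileGe_of_prob {D : ℕ → ℕ → ℕ → ℝ} {B C : ℝ} (hC : 0 ≤ C)
    (V : ℝ → ℝ≥0) (p : ℝ → ℕ → ℕ → ℝ)
    (hV : ∀ ρ : ℝ, 1 ≤ ρ → V ρ ≠ 0 ∧ 1 / (2 * (V ρ : ℝ)) ≤ B / 2 * ρ * (1 + C / ρ))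
    (hlim : ∀ ρ : ℝ, 1 ≤ ρ → ∀ k : ℕ, ∀ᶠ N : ℕ in atTop,
      (gaussianReal 0 (V ρ)).real (Set.Ici (k : ℝ)) / 2 ≤ p ρ k N)
    (hglue : ∀ ρ : ℝ, 1 ≤ ρ → ∃ g : ℝ, ∀ k : ℕ, ∀ᶠ N : ℕ in atTop,
      ∃ᶠ j : ℕ in atTop, ∃ᶠ i : ℕ in atTop,
        -((g - Real.log (p ρ k N)) / (ρ * (N : ℝ) ^ 2)) ≤ D (i * N) (j * N) (k * j)) :
    Brg129TileGe D B :=
  brg129_plug_ge
    (fun k N x => ∃ᶠ j : ℕ in atTop, ∃ᶠ i : ℕ in atTop, -x ≤ D (i * N) (j * N) (k * j))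
    (by
      intro k N x y hxy h
      refine h.mono (fun j hj => hj.mono (fun i hi => ?_))
      linarith) hC V p hV hlim hglue

/-- block probabilities ⟹ `Brg129TileLe`. -/
theorem brg129_tileLe_of_prob {D : ℕ → ℕ → ℕ → ℝ} {B C : ℝ} (hC : 0 ≤ C)
    (V : ℝ → ℝ≥0) (q : ℝ → ℝ → ℕ → ℕ → ℝ)
    (hV : ∀ ρ : ℝ, 1 ≤ ρ → V ρ ≠ 0 ∧ B / 2 * ρ * (1 - C / ρ) ≤ 1 / (2 * (V ρ : ℝ)))
    (hlim : ∀ ε : ℝ, 0 < ε → ε < 1 → ∀ ρ : ℝ, 1 ≤ ρ → ∀ k : ℕ, ∀ᶠ N : ℕ in atTop,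
      0 < q ε ρ k N ∧ q ε ρ k N ≤ 2 * (gaussianReal 0 (V ρ)).real (Set.Ici ((1 - ε) * (k : ℝ))))
    (hforce : ∀ ε : ℝ, 0 < ε → ε < 1 → ∀ ρ : ℝ, 1 ≤ ρ → ∃ g : ℝ, ∀ k : ℕ, ∀ᶠ N : ℕ in atTop,
      ∃ᶠ j : ℕ in atTop, ∃ᶠ i : ℕ in atTop,
        D (i * N) (j * N) (k * j) ≤ -(((1 - ε) ^ 2 * (-Real.log (q ε ρ k N)) - g) / (ρ * (N : ℝ) ^ 2))) :
    Brg129TileLe D B :=
  brg129_plug_le
    (fun k N x => ∃ᶠ j : ℕ in atTop, ∃ᶠ i : ℕ in atTop, D (i * N) (j * N) (k * j) ≤ -x)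
    (by
      intro k N x y hxy h
      refine h.mono (fun j hj => hj.mono (fun i hi => ?_))
      linarith) hC V q hV hlim hforce

end Claimed.Agent.R292
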