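/-
Row 292 (S0540), unit BRIDGE: WINDING OF THE SIX-VERTEX HEIGHT ON THE TORUS (helper289, prefix `brg289w`).

The lift of a torus configuration to `ℤ²` is built into `svH`, `svV` of Def_0466 (casts `ℤ → ZMod`); the height is
`svaHeight` of `R290/SvaHeight.lean` (path independence: `sva_increment_eq_height`).  Here:

* `brg289w_height_add_L` : in the sector `svAdmN n` the height changes by `2 n - L` around the vertical period;
  `brg289w_height_add_2L` : on the `M × 2L'` torus, sector `L' - m`: the change is `-2 m`;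
* `brg289wR ω b`, `brg289w_height_add_M`, `brg289w_R_const` : the number of arrows `true` in a row of vertical edges does not
  depend on the row, and the height changes by `M - 2 r` around the horizontal period;
* `brg289w_height_shift` : `h (a + k M, b + l L) = h (a, b) + k (M - 2 r) + l (2 n - L)`;
* `brg289w_increment_shift` : the same for `svIncrement`; increments are invariant under a simultaneous shift of both ends;
* `brg289wOf h` : the configuration of a height function on `ℤ²` with steps `±1` and periodic steps;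
  `brg289w_of_ice`, `brg289w_of_height` (`svaHeight (brg289wOf h) = h - h 0`), `brg289w_of_admN`, `brg289w_of_height_inv`.
-/
import Claimed.Agent.R290.SvaHeight
import Claimed.Agent.R292.Defs.Bridge

set_option autoImplicit false
open Claims Claims.C0466 Claimed.Agent.R290

namespace Claimed.Agent.R292

/-! ### Signed sums -/

theorem brg289w_S_shift (f : ℤ → ℤ) (p q : ℤ) :
    svaS (fun b => f (b + 1)) p q = svaS f (p + 1) (q + 1) := by
  have h := svaS_eq_sub (fun b => f (b + 1)) (fun y => svaS f 0 (y + 1)) (fun y => by rw [svaS_succ]; ring)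
  have h' := svaS_eq_sub f (fun y => svaS f 0 y) (fun y => by rw [svaS_succ]; ring)
  rw [h p q, h' (p + 1) (q + 1)]

/-- the signed sum of a `T`-periodic function over any window of length `T`. -/
theorem brg289w_S_window (f : ℤ → ℤ) (T : ℕ) (hf : ∀ a, f (a + T) = f a) (p : ℤ) :
    svaS f p (p + T) = ∑ j ∈ Finset.range T, f (j : ℤ) := by
  rw [svaS_period f T hf p 0, zero_add, svaS_zero_natCast]

/-! ### The vertical period -/

theorem brg289w_sum_DH {M L : ℕ} (ω : ZMod M × ZMod L × Bool → Bool) (i : ℤ) (n : ℕ)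
    (h : ((Finset.range L).filter (fun j : ℕ => svH ω i (j : ℤ) = true)).card = n) :
    ∑ j ∈ Finset.range L, svaDH ω i (j : ℤ) = 2 * (n : ℤ) - L := by
  unfold svaDH
  rw [Finset.sum_ite]
  have h2 := Finset.card_filter_add_card_filter_not (s := Finset.range L)
    (fun j : ℕ => svH ω i (j : ℤ) = true)
  rw [Finset.card_range] at h2
  simp only [Finset.sum_const, nsmul_eq_mul, mul_one, mul_neg]
  omega

/-- no ice rule needed: the vertical run of the height over one period. -/
theorem brg289w_height_add_L' {M L : ℕ} (ω : ZMod M × ZMod L × Bool → Bool) (a b : ℤ) :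
    svaHeight ω (a, b + L) = svaHeight ω (a, b) + ∑ j ∈ Finset.range L, svaDH ω a (j : ℤ) := by
  have h1 : svaS (fun b => svaDH ω a (b + 1)) b (b + L) = svaHeight ω (a, b + L) - svaHeight ω (a, b) :=
    svaS_eq_sub _ (fun b => svaHeight ω (a, b)) (fun b => svaHeight_up ω a b) _ _
  have hper : ∀ y : ℤ, svaDH ω a (y + L) = svaDH ω a y := by
    intro y; unfold svaDH; rw [sva_svH_add_L]
  rw [brg289w_S_shift (fun b => svaDH ω a b), show b + (L : ℤ) + 1 = b + 1 + L by ring,
    brg289w_S_window _ L hper] at h1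
  omega

/-- **Vertical monodromy** `2 n - L` in the sector `n`. -/
theorem brg289w_height_add_L {M L n : ℕ} (ω : ZMod M × ZMod L × Bool → Bool) (hω : svAdmN n ω)
    (a b : ℤ) : svaHeight ω (a, b + L) = svaHeight ω (a, b) + (2 * (n : ℤ) - L) := by
  rw [brg289w_height_add_L', brg289w_sum_DH ω a n (hω.2 a)]

/-- the sector `L' - m` of the `M × 2 L'` torus: vertical monodromy `-2 m`. -/
theorem brg289w_height_add_2L {M L m : ℕ} (hm : m ≤ L) (ω : ZMod M × ZMod (2 * L) × Bool → Bool)
    (hω : svAdmN (L - m) ω) (a b : ℤ) :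
    svaHeight ω (a, b + 2 * L) = svaHeight ω (a, b) - 2 * m := by
  have := brg289w_height_add_L ω hω a b
  push_cast [Nat.cast_sub hm] at this
  rw [this]; ring

/-! ### The horizontal period -/

/-- number of arrows `true` in the row `b` of vertical edges. -/
def brg289wR {M L : ℕ} (ω : ZMod M × ZMod L × Bool → Bool) (b : ℤ) : ℕ :=
  ((Finset.range M).filter (fun i : ℕ => svV ω (i : ℤ) b = true)).card

theorem brg289w_sum_DV {M L : ℕ} (ω : ZMod M × ZMod L × Bool → Bool) (b : ℤ) :
    ∑ i ∈ Finset.range M, svaDV ω (i : ℤ) b = (M : ℤ) - 2 * brg289wR ω b := by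
  unfold svaDV brg289wR
  rw [Finset.sum_ite]
  have h2 := Finset.card_filter_add_card_filter_not (s := Finset.range M)
    (fun i : ℕ => svV ω (i : ℤ) b = true)
  rw [Finset.card_range] at h2
  simp only [Finset.sum_const, nsmul_eq_mul, mul_one, mul_neg]
  omega

/-- **Horizontal monodromy** `M - 2 r(b)`. -/
theorem brg289w_height_add_M {M L : ℕ} (ω : ZMod M × ZMod L × Bool → Bool)
    (hice : ∀ a b : ℤ, svInCount ω a b = 2) (a b : ℤ) :
    svaHeight ω (a + M, b) = svaHeight ω (a, b) + ((M : ℤ) - 2 * brg289wR ω b) := by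
  have h1 : svaS (fun a => svaDV ω (a + 1) b) a (a + M) = svaHeight ω (a + M, b) - svaHeight ω (a, b) :=
    svaS_eq_sub _ (fun a => svaHeight ω (a, b)) (fun a => svaHeight_right ω hice a b) _ _
  have hper : ∀ x : ℤ, svaDV ω (x + M) b = svaDV ω x b := by
    intro x; unfold svaDV; rw [sva_svV_add_M]
  rw [brg289w_S_shift (fun a => svaDV ω a b), show a + (M : ℤ) + 1 = a + 1 + M by ring,
    brg289w_S_window _ M hper, brg289w_sum_DV] at h1
  omega

theorem brg289w_R_succ {M L : ℕ} (ω : ZMod M × ZMod L × Bool → Bool)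
    (hice : ∀ a b : ℤ, svInCount ω a b = 2) (b : ℤ) : brg289wR ω (b + 1) = brg289wR ω b := by
  have h1 := brg289w_height_add_M ω hice 0 (b + 1)
  have h2 := brg289w_height_add_M ω hice 0 b
  have h3 := svaHeight_up ω (0 + M) b
  have h4 := svaHeight_up ω 0 b
  have h5 : svaDH ω (0 + M) (b + 1) = svaDH ω 0 (b + 1) := by
    unfold svaDH; rw [sva_svH_add_M]
  omega

/-- conservation: the number of up arrows in a row does not depend on the row. -/
theorem brg289w_R_const {M L : ℕ} (ω : ZMod M × ZMod L × Bool → Bool)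
    (hice : ∀ a b : ℤ, svInCount ω a b = 2) (b : ℤ) : brg289wR ω b = brg289wR ω 0 := by
  induction b using Int.induction_on with
  | zero => rfl
  | succ n ih => rw [brg289w_R_succ ω hice, ih]
  | pred n ih =>
    have := brg289w_R_succ ω hice (-(n : ℤ) - 1)
    rw [sub_add_cancel] at this
    rw [← this, ih]

theorem brg289w_R_le {M L : ℕ} (ω : ZMod M × ZMod L × Bool → Bool) (b : ℤ) : brg289wR ω b ≤ M := by
  unfold brg289wR
  exact (Finset.card_filter_le _ _).trans (by simp)

/-! ### All periods -/

theorem brg289w_height_add_mul_L {M L n : ℕ} (ω : ZMod M × ZMod L × Bool → Bool) (hω : svAdmN n ω)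
    (a b l : ℤ) : svaHeight ω (a, b + l * L) = svaHeight ω (a, b) + l * (2 * (n : ℤ) - L) := by
  induction l using Int.induction_on with
  | zero => simp
  | succ k ih =>
    rw [show b + ((k : ℤ) + 1) * L = (b + k * L) + L by ring, brg289w_height_add_L ω hω, ih]; ring
  | pred k ih =>
    have := brg289w_height_add_L ω hω a (b + (-(k : ℤ) - 1) * L)
    rw [show b + (-(k : ℤ) - 1) * L + L = b + -(k : ℤ) * L by ring, ih] at this
    linarith

theorem brg289w_height_add_mul_M {M L : ℕ} (ω : ZMod M × ZMod L × Bool → Bool)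
    (hice : ∀ a b : ℤ, svInCount ω a b = 2) (a b k : ℤ) :
    svaHeight ω (a + k * M, b) = svaHeight ω (a, b) + k * ((M : ℤ) - 2 * brg289wR ω 0) := by
  induction k using Int.induction_on with
  | zero => simp
  | succ k ih =>
    rw [show a + ((k : ℤ) + 1) * M = (a + k * M) + M by ring, brg289w_height_add_M ω hice, ih,
      brg289w_R_const ω hice b]; ring
  | pred k ih =>
    have := brg289w_height_add_M ω hice (a + (-(k : ℤ) - 1) * M) b
    rw [show a + (-(k : ℤ) - 1) * M + M = a + -(k : ℤ) * M by ring, ih, brg289w_R_const ω hice b] at this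
    linarith

/-- **Quasi-periodicity of the lifted height.** -/
theorem brg289w_height_shift {M L n : ℕ} (ω : ZMod M × ZMod L × Bool → Bool) (hω : svAdmN n ω)
    (a b k l : ℤ) :
    svaHeight ω (a + k * M, b + l * L) =
      svaHeight ω (a, b) + k * ((M : ℤ) - 2 * brg289wR ω 0) + l * (2 * (n : ℤ) - L) := by
  rw [brg289w_height_add_mul_L ω hω, brg289w_height_add_mul_M ω hω.1]

theorem brg289w_increment_shift {M L n : ℕ} (ω : ZMod M × ZMod L × Bool → Bool) (hω : svAdmN n ω)
    (p q : ℤ × ℤ) (k l : ℤ) :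
    svIncrement ω p (q.1 + k * M, q.2 + l * L) =
      svIncrement ω p q + k * ((M : ℤ) - 2 * brg289wR ω 0) + l * (2 * (n : ℤ) - L) := by
  rw [sva_increment_eq_height ω hω.1, sva_increment_eq_height ω hω.1, brg289w_height_shift ω hω]
  ring

/-- increments are well defined on the torus: shifting both ends by a period changes nothing. -/
theorem brg289w_increment_shift_both {M L n : ℕ} (ω : ZMod M × ZMod L × Bool → Bool) (hω : svAdmN n ω)
    (p q : ℤ × ℤ) (k l : ℤ) :
    svIncrement ω (p.1 + k * M, p.2 + l * L) (q.1 + k * M, q.2 + l * L) = svIncrement ω p q := by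
  rw [sva_increment_eq_height ω hω.1, sva_increment_eq_height ω hω.1, brg289w_height_shift ω hω,
    brg289w_height_shift ω hω]
  ring

/-- the sector is determined by the height: `n` is read off the vertical monodromy. -/
theorem brg289w_sector_unique {M L n n' : ℕ} (ω : ZMod M × ZMod L × Bool → Bool) (hω : svAdmN n ω)
    (hω' : svAdmN n' ω) : n = n' := by
  have h1 := hω.2 0
  have h2 := hω'.2 0
  omega

theorem brg289w_sector_le {M L n : ℕ} (ω : ZMod M × ZMod L × Bool → Bool) (hω : svAdmN n ω) : n ≤ L := by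
  rw [← hω.2 0]
  exact (Finset.card_filter_le _ _).trans (by simp)

/-- under the ice rule alone the column count does not depend on the column. -/
theorem brg289w_col_const {M L : ℕ} (ω : ZMod M × ZMod L × Bool → Bool)
    (hice : ∀ a b : ℤ, svInCount ω a b = 2) (i : ℤ) :
    ((Finset.range L).filter (fun j : ℕ => svH ω i (j : ℤ) = true)).card =
      ((Finset.range L).filter (fun j : ℕ => svH ω 0 (j : ℤ) = true)).card := by
  have step : ∀ i : ℤ, ((Finset.range L).filter (fun j : ℕ => svH ω (i + 1) (j : ℤ) = true)).card =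
      ((Finset.range L).filter (fun j : ℕ => svH ω i (j : ℤ) = true)).card := by
    intro i
    have h1 := brg289w_height_add_L' ω (i + 1) 0
    have h2 := brg289w_height_add_L' ω i 0
    rw [brg289w_sum_DH ω (i + 1) _ rfl] at h1
    rw [brg289w_sum_DH ω i _ rfl] at h2
    have h3 := svaHeight_right ω hice i (0 + L)
    have h4 := svaHeight_right ω hice i 0
    have h5 : svaDV ω (i + 1) (0 + L) = svaDV ω (i + 1) 0 := by
      unfold svaDV; rw [sva_svV_add_L]
    omega
  induction i using Int.induction_on with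
  | zero => rfl
  | succ n ih => rw [step, ih]
  | pred n ih =>
    have := step (-(n : ℤ) - 1)
    rw [sub_add_cancel] at this
    rw [← this, ih]

/-- every ice configuration lies in exactly one sector. -/
theorem brg289w_ice_admN {M L : ℕ} (ω : ZMod M × ZMod L × Bool → Bool)
    (hice : ∀ a b : ℤ, svInCount ω a b = 2) :
    svAdmN ((Finset.range L).filter (fun j : ℕ => svH ω 0 (j : ℤ) = true)).card ω :=
  ⟨hice, fun i => brg289w_col_const ω hice i⟩

/-! ### From height functions to configurations -/

/-- the configuration of a height function on the faces `ℤ²`. -/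
def brg289wOf {M L : ℕ} (h : ℤ × ℤ → ℤ) : ZMod M × ZMod L × Bool → Bool := fun e =>
  match e with
  | (x, y, false) => decide (h ((ZMod.cast x : ℤ), (ZMod.cast y : ℤ)) - h ((ZMod.cast x : ℤ), (ZMod.cast y : ℤ) - 1) = 1)
  | (x, y, true) => decide (h ((ZMod.cast x : ℤ), (ZMod.cast y : ℤ)) - h ((ZMod.cast x : ℤ) - 1, (ZMod.cast y : ℤ)) = -1)

/-- a height function on `ℤ²` with steps `±1` whose steps are `M × L` periodic. -/
structure Brg289wH (M L : ℕ) (h : ℤ × ℤ → ℤ) : Prop where
  up : ∀ a b : ℤ, h (a, b + 1) - h (a, b) = 1 ∨ h (a, b + 1) - h (a, b) = -1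
  right : ∀ a b : ℤ, h (a + 1, b) - h (a, b) = 1 ∨ h (a + 1, b) - h (a, b) = -1
  perM : ∀ a b c d : ℤ, h (a + M, b) - h (c + M, d) = h (a, b) - h (c, d)
  perL : ∀ a b c d : ℤ, h (a, b + L) - h (c, d + L) = h (a, b) - h (c, d)

theorem brg289w_per {M L : ℕ} {h : ℤ × ℤ → ℤ} (H : Brg289wH M L h) (a b c d k l : ℤ) :
    h (a + k * M, b + l * L) - h (c + k * M, d + l * L) = h (a, b) - h (c, d) := by
  have hM : ∀ k : ℤ, ∀ a b c d : ℤ, h (a + k * M, b) - h (c + k * M, d) = h (a, b) - h (c, d) := by
    intro k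
    induction k using Int.induction_on with
    | zero => intro a b c d; simp
    | succ k ih =>
      intro a b c d
      rw [show a + ((k : ℤ) + 1) * M = (a + k * M) + M by ring,
        show c + ((k : ℤ) + 1) * M = (c + k * M) + M by ring, H.perM, ih]
    | pred k ih =>
      intro a b c d
      have := H.perM (a + (-(k : ℤ) - 1) * M) b (c + (-(k : ℤ) - 1) * M) d
      rw [show a + (-(k : ℤ) - 1) * M + M = a + -(k : ℤ) * M by ring,
        show c + (-(k : ℤ) - 1) * M + M = c + -(k : ℤ) * M by ring, ih] at this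
      exact this.symm
  have hL : ∀ l : ℤ, ∀ a b c d : ℤ, h (a, b + l * L) - h (c, d + l * L) = h (a, b) - h (c, d) := by
    intro l
    induction l using Int.induction_on with
    | zero => intro a b c d; simp
    | succ k ih =>
      intro a b c d
      rw [show b + ((k : ℤ) + 1) * L = (b + k * L) + L by ring,
        show d + ((k : ℤ) + 1) * L = (d + k * L) + L by ring, H.perL, ih]
    | pred k ih =>
      intro a b c d
      have := H.perL a (b + (-(k : ℤ) - 1) * L) c (d + (-(k : ℤ) - 1) * L)
      rw [show b + (-(k : ℤ) - 1) * L + L = b + -(k : ℤ) * L by ring,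
        show d + (-(k : ℤ) - 1) * L + L = d + -(k : ℤ) * L by ring, ih] at this
      exact this.symm
  rw [hL, hM]

/-- the representative of `a` in `ZMod M` differs from `a` by a multiple of `M`. -/
theorem brg289w_cast (M : ℕ) (a : ℤ) : ∃ k : ℤ, (ZMod.cast (a : ZMod M) : ℤ) = a + k * M := by
  have h : ((ZMod.cast (a : ZMod M) : ℤ) : ZMod M) = (a : ZMod M) := by simp
  rw [ZMod.intCast_eq_intCast_iff_dvd_sub] at h
  obtain ⟨k, hk⟩ := h
  exact ⟨-k, by linarith [hk, mul_comm (M : ℤ) k]⟩

theorem brg289w_of_H {M L : ℕ} {h : ℤ × ℤ → ℤ} (H : Brg289wH M L h) (a b : ℤ) :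
    svH (brg289wOf (M := M) (L := L) h) a b = decide (h (a, b) - h (a, b - 1) = 1) := by
  obtain ⟨k, hk⟩ := brg289w_cast M a
  obtain ⟨l, hl⟩ := brg289w_cast L b
  show decide (h ((ZMod.cast (a : ZMod M) : ℤ), (ZMod.cast (b : ZMod L) : ℤ)) -
    h ((ZMod.cast (a : ZMod M) : ℤ), (ZMod.cast (b : ZMod L) : ℤ) - 1) = 1) = _
  rw [hk, hl, show b + l * L - 1 = (b - 1) + l * L by ring, brg289w_per H]

theorem brg289w_of_V {M L : ℕ} {h : ℤ × ℤ → ℤ} (H : Brg289wH M L h) (a b : ℤ) :
    svV (brg289wOf (M := M) (L := L) h) a b = decide (h (a, b) - h (a - 1, b) = -1) := by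
  obtain ⟨k, hk⟩ := brg289w_cast M a
  obtain ⟨l, hl⟩ := brg289w_cast L b
  show decide (h ((ZMod.cast (a : ZMod M) : ℤ), (ZMod.cast (b : ZMod L) : ℤ)) -
    h ((ZMod.cast (a : ZMod M) : ℤ) - 1, (ZMod.cast (b : ZMod L) : ℤ)) = -1) = _
  rw [hk, hl, show a + k * M - 1 = (a - 1) + k * M by ring, brg289w_per H]

theorem brg289w_of_DH {M L : ℕ} {h : ℤ × ℤ → ℤ} (H : Brg289wH M L h) (a b : ℤ) :
    svaDH (brg289wOf (M := M) (L := L) h) a b = h (a, b) - h (a, b - 1) := by
  unfold svaDH
  rw [brg289w_of_H H]
  have := H.up a (b - 1)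
  rw [sub_add_cancel] at this
  rcases this with e | e <;> simp [e]

theorem brg289w_of_DV {M L : ℕ} {h : ℤ × ℤ → ℤ} (H : Brg289wH M L h) (a b : ℤ) :
    svaDV (brg289wOf (M := M) (L := L) h) a b = h (a, b) - h (a - 1, b) := by
  unfold svaDV
  rw [brg289w_of_V H]
  have := H.right (a - 1) b
  rw [sub_add_cancel] at this
  rcases this with e | e <;> simp [e]

/-- the configuration of a height function satisfies the ice rule. -/
theorem brg289w_of_ice {M L : ℕ} {h : ℤ × ℤ → ℤ} (H : Brg289wH M L h) (a b : ℤ) :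
    svInCount (brg289wOf (M := M) (L := L) h) a b = 2 := by
  rw [sva_closed_iff, brg289w_of_DH H, brg289w_of_DH H, brg289w_of_DV H, brg289w_of_DV H]
  ring

/-- its height is `h - h 0`. -/
theorem brg289w_of_height {M L : ℕ} {h : ℤ × ℤ → ℤ} (H : Brg289wH M L h) (x : ℤ × ℤ) :
    svaHeight (brg289wOf (M := M) (L := L) h) x = h x - h (0, 0) := by
  obtain ⟨a, b⟩ := x
  unfold svaHeight
  rw [sva_increment_eq,
    svaS_eq_sub _ (fun a => h (a, 0)) (fun a => by rw [brg289w_of_DV H]; simp),
    svaS_eq_sub _ (fun b => h (a, b)) (fun b => by rw [brg289w_of_DH H]; simp)]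
  ring

/-- its sector is read off the vertical monodromy of `h`. -/
theorem brg289w_of_admN {M L n : ℕ} {h : ℤ × ℤ → ℤ} (H : Brg289wH M L h)
    (hn : h (0, L) - h (0, 0) = 2 * (n : ℤ) - L) : svAdmN n (brg289wOf (M := M) (L := L) h) := by
  have h0 := brg289w_ice_admN _ (brg289w_of_ice (M := M) (L := L) H)
  have h1 := brg289w_height_add_L _ h0 0 0
  rw [brg289w_of_height H, brg289w_of_height H, zero_add] at h1
  have : ((Finset.range L).filter
      (fun j : ℕ => svH (brg289wOf (M := M) (L := L) h) 0 (j : ℤ) = true)).card = n := by omega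
  rwa [this] at h0

/-- the lifted height of an ice configuration is such a height function ... -/
theorem brg289w_height_H {M L : ℕ} (ω : ZMod M × ZMod L × Bool → Bool)
    (hice : ∀ a b : ℤ, svInCount ω a b = 2) : Brg289wH M L (svaHeight ω) where
  up a b := by
    rw [svaHeight_up]; unfold svaDH; split_ifs <;> simp
  right a b := by
    rw [svaHeight_right ω hice]; unfold svaDV; split_ifs <;> simp
  perM a b c d := by
    rw [brg289w_height_add_M ω hice, brg289w_height_add_M ω hice, brg289w_R_const ω hice b,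
      brg289w_R_const ω hice d]; ring
  perL a b c d := by
    have h0 := brg289w_ice_admN ω hice
    rw [brg289w_height_add_L ω h0, brg289w_height_add_L ω h0]; ring

/-- ... and gives the configuration back. -/
theorem brg289w_of_height_inv {M L : ℕ} (ω : ZMod M × ZMod L × Bool → Bool)
    (hice : ∀ a b : ℤ, svInCount ω a b = 2) : brg289wOf (svaHeight ω) = ω := by
  have H := brg289w_height_H ω hice
  funext ⟨x, y, s⟩
  obtain ⟨a, rfl⟩ := ZMod.intCast_surjective x
  obtain ⟨b, rfl⟩ := ZMod.intCast_surjective y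
  cases s
  · have h1 := brg289w_of_H (M := M) (L := L) H a b
    have h2 := svaHeight_up ω a (b - 1)
    rw [sub_add_cancel] at h2
    rw [h2] at h1
    have h3 : svH (brg289wOf (M := M) (L := L) (svaHeight ω)) a b = svH ω a b := by
      rw [h1]; unfold svaDH
      cases svH ω a b <;> simp
    exact h3
  · have h1 := brg289w_of_V (M := M) (L := L) H a b
    have h2 := svaHeight_right ω hice (a - 1) b
    rw [sub_add_cancel] at h2
    rw [h2] at h1
    have h3 : svV (brg289wOf (M := M) (L := L) (svaHeight ω)) a b = svV ω a b := by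
      rw [h1]; unfold svaDV
      cases svV ω a b <;> simp
    exact h3

end Claimed.Agent.R292
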